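import Vale.Agent.P225.Geo.ModeSeries

/-!
P225: the mode equations are the divergence equation of the perturbed flux, so a decaying mode
solution gives a harmonic function of the metric.
-/

namespace Vale.Agent.P225.Geo

open Filter Topology Real
open scoped RealInnerProductSpace ContDiff

noncomputable section

/-- `qL k` as a linear map. -/
def lL (k : Fin 3) : R4 →L[ℝ] R4 :=
  LinearMap.toContinuousLinearMap
    { toFun := qL k
      map_add' := fun x y => by ext i; fin_cases k <;> fin_cases i <;> simp [qL] <;> ring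
      map_smul' := fun c x => by ext i; fin_cases k <;> fin_cases i <;> simp [qL] }

/-- `qR k` as a linear map. -/
def lR (k : Fin 3) : R4 →L[ℝ] R4 :=
  LinearMap.toContinuousLinearMap
    { toFun := qR k
      map_add' := fun x y => by ext i; fin_cases k <;> fin_cases i <;> simp [qR] <;> ring
      map_smul' := fun c x => by ext i; fin_cases k <;> fin_cases i <;> simp [qR] }

/-- The left field of an axis. -/
def lAxis (a : Fin 6) : R4 →L[ℝ] R4 := ∑ k, axisVec a k • lL k

@[simp] theorem lL_apply (k : Fin 3) (x : R4) : lL k x = qL k x := rfl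

@[simp] theorem lR_apply (k : Fin 3) (x : R4) : lR k x = qR k x := rfl

theorem lAxis_apply (a : Fin 6) (x : R4) : lAxis a x = ∑ k, axisVec a k • qL k x := by
  simp [lAxis]

theorem qL_smul (k : Fin 3) (c : ℝ) (x : R4) : qL k (c • x) = c • qL k x :=
  map_smul (lL k) c x

theorem trace_lL (k : Fin 3) : ∑ i, lL k (EuclideanSpace.single i 1) i = 0 := by
  fin_cases k <;> simp [qL, Fin.sum_univ_four]

theorem trace_lR (k : Fin 3) : ∑ i, lR k (EuclideanSpace.single i 1) i = 0 := by
  fin_cases k <;> simp [qR, Fin.sum_univ_four]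

theorem trace_lAxis (a : Fin 6) : ∑ i, lAxis a (EuclideanSpace.single i 1) i = 0 := by
  simp only [lAxis_apply, WithLp.ofLp_sum, WithLp.ofLp_smul, Finset.sum_apply, Pi.smul_apply,
    smul_eq_mul]
  rw [Finset.sum_comm]
  refine Finset.sum_eq_zero fun k _ => ?_
  rw [← Finset.mul_sum]
  simp [← lL_apply, trace_lL]

theorem inner_lAxis (a : Fin 6) (x : R4) : ⟪x, lAxis a x⟫ = 0 := by
  simp [lAxis_apply, inner_sum, real_inner_smul_right, inner_qL_self]

/-- The flux `M ∇U` is differentiable at `x` and its divergence is `val`. -/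
def HasDiv (M : R4 → Matrix (Fin 4) (Fin 4) ℝ) (U : R4 → ℝ) (x : R4) (val : ℝ) : Prop :=
  (∀ i, DifferentiableAt ℝ (fun y => ∑ k, M y i k * pd k U y) x) ∧
    ∑ i, pd i (fun y => ∑ k, M y i k * pd k U y) x = val

variable {U : R4 → ℝ} {x : R4}

theorem HasDiv.congr {M M' : R4 → Matrix (Fin 4) (Fin 4) ℝ} {v : ℝ} (h : HasDiv M U x v)
    (e : M' =ᶠ[𝓝 x] M) : HasDiv M' U x v := by
  have he : ∀ i, (fun y => ∑ k, M' y i k * pd k U y) =ᶠ[𝓝 x]
      fun y => ∑ k, M y i k * pd k U y := fun i => by
    filter_upwards [e] with y hy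
    rw [hy]
  refine ⟨fun i => (h.1 i).congr_of_eventuallyEq (he i), ?_⟩
  rw [← h.2]
  exact Finset.sum_congr rfl fun i _ => by rw [pd, pd, (he i).fderiv_eq]

theorem HasDiv.add {M M' : R4 → Matrix (Fin 4) (Fin 4) ℝ} {v v' : ℝ} (h : HasDiv M U x v)
    (h' : HasDiv M' U x v') : HasDiv (fun y => M y + M' y) U x (v + v') := by
  have e : ∀ i, (fun y => ∑ k, (M y + M' y) i k * pd k U y) =
      fun y => (∑ k, M y i k * pd k U y) + ∑ k, M' y i k * pd k U y := fun i => by
    funext y
    simp [add_mul, Finset.sum_add_distrib]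
  refine ⟨fun i => by rw [e]; exact (h.1 i).add (h'.1 i), ?_⟩
  rw [← h.2, ← h'.2, ← Finset.sum_add_distrib]
  refine Finset.sum_congr rfl fun i _ => ?_
  rw [e i]
  exact congrArg (fun L : R4 →L[ℝ] ℝ => L (EuclideanSpace.single i 1))
    (fderiv_fun_add (h.1 i) (h'.1 i))

theorem HasDiv.zero : HasDiv (fun _ => 0) U x 0 := by
  constructor
  · intro i; simp
  · simp [pd]

theorem HasDiv.sum {ι : Type*} (s : Finset ι) {M : ι → R4 → Matrix (Fin 4) (Fin 4) ℝ}
    {v : ι → ℝ} (h : ∀ i ∈ s, HasDiv (M i) U x (v i)) :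
    HasDiv (fun y => ∑ i ∈ s, M i y) U x (∑ i ∈ s, v i) := by
  classical
  induction s using Finset.induction_on with
  | empty => simpa using HasDiv.zero
  | insert i s hi ih =>
    have h' := (h i (by simp)).add (ih fun k hk => h k (by simp [hk]))
    simpa [Finset.sum_insert hi] using h'

theorem sum_mul_pd (f : R4 → ℝ) (y v : R4) : ∑ i, v i * pd i f y = fderiv ℝ f y v := by
  have hv : v = ∑ i, v i • EuclideanSpace.single i (1 : ℝ) := by
    ext i
    simp [Finset.sum_apply, Pi.single_apply]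
  conv_rhs => rw [hv]
  simp [pd, map_sum]

/-- The divergence of `ψ |y|⁻² V ⊗ W` applied to `∇U`. -/
theorem hasDiv_term {ψ G : R4 → ℝ} (V W : R4 →L[ℝ] R4) {c : ℝ} (hx : x ≠ 0)
    (hψ : DifferentiableAt ℝ ψ x) (hG : DifferentiableAt ℝ G x)
    (heq : (fun y => fderiv ℝ U y (W y)) =ᶠ[𝓝 x] G)
    (hc : ∑ i, V (EuclideanSpace.single i 1) i - 2 * ⟪x, V x⟫ / ‖x‖ ^ 2 = c) :
    HasDiv (fun y => (ψ y / ‖y‖ ^ 2) • outer (V y) (W y)) U x
      (((fderiv ℝ ψ x (V x) + c * ψ x) * G x + ψ x * fderiv ℝ G x (V x)) / ‖x‖ ^ 2) := by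
  have hn : ‖x‖ ^ 2 ≠ 0 := pow_ne_zero 2 (norm_ne_zero_iff.mpr hx)
  have hN : HasFDerivAt (fun y : R4 => ‖y‖ ^ 2) (2 • innerSL ℝ x) x :=
    (hasStrictFDerivAt_norm_sq x).hasFDerivAt
  have hq := hψ.hasFDerivAt.mul ((hasDerivAt_inv hn).comp_hasFDerivAt x hN)
  have hV : ∀ i, HasFDerivAt (fun y : R4 => V y i)
      ((EuclideanSpace.proj i : R4 →L[ℝ] ℝ).comp V) x := fun i =>
    (((EuclideanSpace.proj i : R4 →L[ℝ] ℝ).comp V)).hasFDerivAt
  have e : ∀ i, (fun y => ∑ k, ((ψ y / ‖y‖ ^ 2) • outer (V y) (W y)) i k * pd k U y) =ᶠ[𝓝 x]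
      fun y => ψ y * (‖y‖ ^ 2)⁻¹ * V y i * G y := fun i => by
    filter_upwards [heq] with y hy
    simp only [Matrix.smul_apply, outer, Matrix.of_apply, smul_eq_mul]
    rw [← hy, ← sum_mul_pd, Finset.mul_sum]
    exact Finset.sum_congr rfl fun k _ => by rw [div_eq_mul_inv]; ring
  have hd : ∀ i, HasFDerivAt (fun y => ψ y * (‖y‖ ^ 2)⁻¹ * V y i * G y) _ x :=
    fun i => (hq.mul (hV i)).mul hG.hasFDerivAt
  refine ⟨fun i => (hd i).differentiableAt.congr_of_eventuallyEq (e i), ?_⟩
  have key : ∀ i, pd i (fun y => ∑ k, ((ψ y / ‖y‖ ^ 2) • outer (V y) (W y)) i k * pd k U y) x =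
      (‖x‖ ^ 2)⁻¹ * G x * (V x i * pd i ψ x) -
        2 * ψ x * ((‖x‖ ^ 2) ^ 2)⁻¹ * G x * (x i * V x i) +
        ψ x * (‖x‖ ^ 2)⁻¹ * G x * V (EuclideanSpace.single i 1) i +
        ψ x * (‖x‖ ^ 2)⁻¹ * (V x i * pd i G x) := fun i => by
    rw [pd, (e i).fderiv_eq, (hd i).fderiv]
    simp [pd, EuclideanSpace.inner_single_right]
    ring
  have e1 : ∑ i, x i * V x i = ⟪x, V x⟫ := by
    simp [PiLp.inner_apply, mul_comm]
  rw [Finset.sum_congr rfl fun i _ => key i]
  simp only [Finset.sum_add_distrib, Finset.sum_sub_distrib, ← Finset.mul_sum, sum_mul_pd, e1, ← hc]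
  field_simp
  ring

/-- A radial function times a harmonic on the sphere. -/
theorem scalar_deriv (H : Harm) (d : ℕ) (z : V d) {f : ℝ → ℝ} {f' : ℝ} (hx : x ≠ 0)
    (hf : HasDerivAt f f' (log ‖x‖)) :
    DifferentiableAt ℝ (fun y => f (log ‖y‖) * H.fn d z (rhat y)) x ∧
      fderiv ℝ (fun y => f (log ‖y‖) * H.fn d z (rhat y)) x x = f' * H.fn d z (rhat x) ∧
      ∀ k, fderiv ℝ (fun y => f (log ‖y‖) * H.fn d z (rhat y)) x (qL k x) =
        f (log ‖x‖) * H.fn d (H.EL d k z) (rhat x) := by
  have e : (fun y : R4 => f (log ‖y‖) * H.fn d z (rhat y)) =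
      fun y => H.fn d (f (log ‖y‖) • z) (rhat y) := by
    funext y; rw [fn_smul]
  have h := hasFDerivAt_term H (j := d) (w := fun s => f s • z) (w' := fun _ => f' • z) hx
    (hf.smul_const z)
  rw [← e] at h
  have hn : ‖x‖ ^ 2 ≠ 0 := pow_ne_zero 2 (norm_ne_zero_iff.mpr hx)
  refine ⟨h.differentiableAt, ?_, fun k => ?_⟩
  · rw [h.fderiv]
    simp only [termD, _root_.add_apply, _root_.smul_apply, smul_eq_mul, innerSL_apply_apply,
      real_inner_self_eq_norm_sq, fderiv_fn_self, term_eq H d _ hx, fn_smul]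
    field_simp
    ring
  · rw [h.fderiv]
    simp only [termD, _root_.add_apply, _root_.smul_apply, smul_eq_mul, innerSL_apply_apply,
      inner_qL_self, mul_zero, add_zero]
    have hL : fderiv ℝ (H.fn d (f (log ‖x‖) • z)) x (qL k x) =
        H.fn d (H.EL d k (f (log ‖x‖) • z)) x := H.deriv_left d k _ x
    rw [hL, map_smul, fn_smul, term_eq H d _ hx]
    ring

/-- A radial function. -/
theorem radial_deriv {f : ℝ → ℝ} {f' : ℝ} (hx : x ≠ 0) (hf : HasDerivAt f f' (log ‖x‖)) :
    DifferentiableAt ℝ (fun y : R4 => f (log ‖y‖)) x ∧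
      fderiv ℝ (fun y : R4 => f (log ‖y‖)) x x = f' ∧
      ∀ v : R4, ⟪x, v⟫ = 0 → fderiv ℝ (fun y : R4 => f (log ‖y‖)) x v = 0 := by
  have h : HasFDerivAt (fun y : R4 => f (log ‖y‖)) (f' • ((‖x‖ ^ 2)⁻¹ • innerSL ℝ x)) x :=
    hf.comp_hasFDerivAt x (fderiv_log_norm hx)
  refine ⟨h.differentiableAt, ?_, fun v hv => ?_⟩
  · have hn : ‖x‖ ≠ 0 := norm_ne_zero_iff.mpr hx
    rw [h.fderiv]
    simp [hn]
  · rw [h.fderiv]
    simp [hv]

section

variable {H : Harm} {w w' : Modes}

theorem modeSum_eventually (hd : ∀ j t, HasDerivAt (w j) (w' j t) t) (hw : Decay H w)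
    (hw' : Decay H w') (hx : x ≠ 0) :
    ((fun y => fderiv ℝ (modeSum H w) y y) =ᶠ[𝓝 x] modeSum H w') ∧
    (∀ k, (fun y => fderiv ℝ (modeSum H w) y (qL k y)) =ᶠ[𝓝 x]
      modeSum H fun j t => H.EL j k (w j t)) ∧
    (∀ k, (fun y => fderiv ℝ (modeSum H w) y (qR k y)) =ᶠ[𝓝 x]
      modeSum H fun j t => H.ER j k (w j t)) :=
  ⟨(isOpen_ne.eventually_mem hx).mono fun _ hy => (modeSum_deriv hd hw hw' hy).2.1,
    fun k => (isOpen_ne.eventually_mem hx).mono fun _ hy => (modeSum_deriv hd hw hw' hy).2.2.1 k,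
    fun k => (isOpen_ne.eventually_mem hx).mono fun _ hy => (modeSum_deriv hd hw hw' hy).2.2.2 k⟩

theorem deriv_op (T : (j : ℕ) → Op j j) (hd : ∀ j t, HasDerivAt (w j) (w' j t) t) (j : ℕ) (t : ℝ) :
    HasDerivAt (fun s => T j (w j s)) (T j (w' j t)) t :=
  (T j).hasFDerivAt.comp_hasDerivAt t (hd j t)

theorem deriv_band (d : ℕ) (z : V d) (hd : ∀ j t, HasDerivAt (w j) (w' j t) t) (j' : ℕ) (t : ℝ) :
    HasDerivAt (band H d z w j') (band H d z w' j' t) t :=
  HasDerivAt.fun_sum fun j _ => (H.mul d z j j').hasFDerivAt.comp_hasDerivAt t (hd j t)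

/-- A left field applied to the product with a harmonic. -/
theorem modeSum_left_band (hd : ∀ j t, HasDerivAt (w j) (w' j t) t) (hw : Decay H w)
    (hw' : Decay H w') (d : ℕ) (z : V d) (k : Fin 3) (hx : x ≠ 0) :
    modeSum H (fun j t => H.EL j k (band H d z w j t)) x =
      H.fn d (H.EL d k z) (rhat x) * modeSum H w x +
        H.fn d z (rhat x) * modeSum H (fun j t => H.EL j k (w j t)) x := by
  rw [← (modeSum_deriv (deriv_band d z hd) (hw.band d z) (hw'.band d z) hx).2.2.1 k]
  have he : modeSum H (band H d z w) =ᶠ[𝓝 x]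
      fun y => H.fn d z (rhat y) * modeSum H w y :=
    (isOpen_ne.eventually_mem hx).mono fun y hy => (modeSum_band hw d z hy).symm
  obtain ⟨h1, -, h2⟩ := scalar_deriv H d z hx (hasDerivAt_const (log ‖x‖) (1 : ℝ))
  simp only [one_mul] at h1 h2
  obtain ⟨g1, -, g2, -⟩ := modeSum_deriv hd hw hw' hx
  rw [he.fderiv_eq, fderiv_fun_mul h1 g1]
  simp [h2, g2]
  ring

end

/-- The flux of the round sphere's tangent space. -/
theorem one_sub_outer {y : R4} (hy : y ≠ 0) :
    (1 : Matrix (Fin 4) (Fin 4) ℝ) - outer (rhat y) (rhat y) =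
      (‖y‖ ^ 2)⁻¹ • ∑ k, outer (qL k y) (qL k y) := by
  have hn : ‖y‖ ^ 2 ≠ 0 := pow_ne_zero 2 (norm_ne_zero_iff.mpr hy)
  have hr : ‖y‖ ^ 2 = y 0 * y 0 + y 1 * y 1 + y 2 * y 2 + y 3 * y 3 := by
    rw [EuclideanSpace.real_norm_sq_eq, Fin.sum_univ_four]; ring
  have hro : ∀ i k, rhat y i * rhat y k = (‖y‖ ^ 2)⁻¹ * (y i * y k) := fun i k => by
    simp [rhat, sq]; ring
  ext i k
  simp only [Matrix.sub_apply, Matrix.smul_apply, Matrix.sum_apply, outer, Matrix.of_apply, hro,
    smul_eq_mul, Fin.sum_univ_three, qL]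
  field_simp
  rw [hr]
  fin_cases i <;> fin_cases k <;> simp <;> ring

theorem outer_rhat (T : R4 →L[ℝ] R4) (y : R4) :
    outer (T (rhat y)) (T (rhat y)) = (‖y‖ ^ 2)⁻¹ • outer (T y) (T y) := by
  ext i k
  simp [rhat, outer, sq]
  ring

/-- The coefficient of the tangential part. -/
def coefT (sh : Shape) (t : ℝ) : ℝ :=
  exp (2 * sh.χ t) * (1 + (exp (2 * sh.β t) - 1) + ∑ a, (exp (2 * sh.γ a t) - 1))

/-- The coefficient of the right field. -/
def coefR (sh : Shape) (t : ℝ) : ℝ :=
  exp (2 * sh.χ t) * ((exp (-4 * sh.β t) - 1) - (exp (2 * sh.β t) - 1))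

/-- The coefficient of a left axis field. -/
def coefA (sh : Shape) (a : Fin 6) (t : ℝ) : ℝ :=
  exp (2 * sh.χ t) * ((exp (-4 * sh.γ a t) - 1) - (exp (2 * sh.γ a t) - 1))

/-- The volume factor. -/
def vol (sh : Shape) (t : ℝ) : ℝ := exp (-3 * sh.χ t)

theorem flux_expand (sh : Shape) {y : R4} (hy : y ≠ 0) :
    sh.flux y = (vol sh (log ‖y‖) / ‖y‖ ^ 2) • outer y y +
      ∑ k, (vol sh (log ‖y‖) * coefT sh (log ‖y‖) / ‖y‖ ^ 2) • outer (qL k y) (qL k y) +
      (vol sh (log ‖y‖) * coefR sh (log ‖y‖) / ‖y‖ ^ 2) • outer (qR 0 y) (qR 0 y) +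
      ∑ a, (vol sh (log ‖y‖) * coefA sh a (log ‖y‖) / ‖y‖ ^ 2) • outer (lAxis a y) (lAxis a y) := by
  have e0 : outer (rhat y) (rhat y) = (‖y‖ ^ 2)⁻¹ • outer y y :=
    outer_rhat (ContinuousLinearMap.id ℝ R4) y
  have e1 : outer (qR 0 (rhat y)) (qR 0 (rhat y)) = (‖y‖ ^ 2)⁻¹ • outer (qR 0 y) (qR 0 y) :=
    outer_rhat (lR 0) y
  have e2 : ∀ a, outer (eLAxis a y) (eLAxis a y) = (‖y‖ ^ 2)⁻¹ • outer (lAxis a y) (lAxis a y) :=
    fun a => by rw [eLAxis, ← lAxis_apply]; exact outer_rhat (lAxis a) y
  simp only [Shape.flux, squash, one_sub_outer hy, e1, e2]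
  rw [e0]
  ext i l
  simp only [vol, coefT, coefR, coefA, Matrix.add_apply, Matrix.sub_apply, Matrix.smul_apply,
    Matrix.sum_apply, smul_eq_mul, Fin.sum_univ_six, Fin.sum_univ_three]
  ring

/-- Minus `lam`, as the tangential part of the flux produces it. -/
theorem tangent_eq (H : Harm) (sh : Shape) (j : ℕ) (t : ℝ) (v : V j) :
    coefT sh t • ∑ k, H.EL j k (H.EL j k v) + coefR sh t • H.ER j 0 (H.ER j 0 v) +
      ∑ a, coefA sh a t • Shape.elAxis H j a (Shape.elAxis H j a v) = -(sh.lam H j t v) := by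
  rw [H.casimir_left, Shape.lam]
  simp only [coefT, coefR, coefA, _root_.smul_apply, _root_.add_apply, _root_.neg_apply,
    _root_.sum_apply, ContinuousLinearMap.comp_apply, ContinuousLinearMap.id_apply,
    Fin.sum_univ_six]
  module

/-- The forcing of one pulse through the banded products. -/
def bandForce (H : Harm) (p : Pulse) (s τ : ℝ) (u du : Modes) (j : ℕ) (t : ℝ) : V j :=
  match p.kind with
  | some k =>
      (deriv p.prof τ + (2 + s) * p.prof τ) • band H p.deg p.vec (fun i r => H.EL i k (u i r)) j t +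
        p.prof τ • band H p.deg p.vec (fun i r => H.EL i k (du i r)) j t +
        p.prof τ • H.EL j k (band H p.deg p.vec du j t)
  | none => p.prof τ • ∑ k, H.EL j k (band H p.deg p.vec (fun i r => H.EL i k (u i r)) j t)

theorem sum_force (H : Harm) (p : Pulse) (s τ : ℝ) (u du : Modes) (j' : ℕ) (t : ℝ) :
    ∑ j ∈ Finset.range (j' + p.deg + 1), p.force H s τ j j' (u j t) (du j t) =
      bandForce H p s τ u du j' t := by
  unfold Pulse.force bandForce
  cases p.kind with
  | some k => simp only [band, map_sum, Finset.smul_sum, Finset.sum_add_distrib]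
  | none =>
    simp only [band, map_sum, Finset.smul_sum]
    exact Finset.sum_comm

theorem bandForce_zero (H : Harm) (p : Pulse) (s : ℝ) {τ : ℝ} (hτ : τ < 0) (u du : Modes) (j : ℕ)
    (t : ℝ) : bandForce H p s τ u du j t = 0 := by
  have h0 : p.prof =ᶠ[𝓝 τ] fun _ => (0 : ℝ) :=
    (Iio_mem_nhds hτ : Set.Iio (0 : ℝ) ∈ 𝓝 τ) |> fun hm =>
      Filter.mem_of_superset hm fun r hr => p.supp r fun h => absurd h.1 (not_lt.2 (le_of_lt hr))
  have h1 : p.prof τ = 0 := h0.eq_of_nhds
  have h2 : deriv p.prof τ = 0 := by rw [h0.deriv_eq, deriv_const]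
  unfold bandForce
  cases p.kind <;> simp [h1, h2]

theorem slot_pos_ge {P : Pulses} (A : Amps P) (n : ℕ) : (n : ℝ) + 1 ≤ A.pos n := by
  induction n with
  | zero => simpa using A.pos_start
  | succ n ih => push_cast; linarith [A.pos_gap n]

/-- Before time `N`, only the first `N` slots act. -/
theorem force_eq (H : Harm) (sh : Shape) {P : Pulses} (A : Amps P) (u du : Modes) (j : ℕ) {t : ℝ}
    {N : ℕ} (ht : t ≤ N) :
    A.force H sh u du j t = ∑ n ∈ Finset.range N, ∑ l, A.θ n l •
      bandForce H (P.item l) (sh.drift t) (t - A.pos n) u du j t := by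
  unfold Amps.force
  simp only [sum_force]
  refine tsum_eq_sum fun n hn => Finset.sum_eq_zero fun l _ => ?_
  rw [Finset.mem_range, not_lt] at hn
  have hN : (N : ℝ) ≤ n := Nat.cast_le.2 hn
  rw [bandForce_zero H _ _ (by linarith [slot_pos_ge A n]), smul_zero]

theorem continuous_drift (sh : Shape) : Continuous sh.drift :=
  continuous_const.mul (sh.smooth_χ.continuous_deriv (by simp))

theorem continuous_coefT (sh : Shape) : Continuous (coefT sh) := by
  have h1 := sh.smooth_χ.continuous
  have h2 := sh.smooth_β.continuous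
  have h3 := fun a => (sh.smooth_γ a).continuous
  unfold coefT
  fun_prop

theorem continuous_coefR (sh : Shape) : Continuous (coefR sh) := by
  have h1 := sh.smooth_χ.continuous
  have h2 := sh.smooth_β.continuous
  unfold coefR
  fun_prop

theorem continuous_coefA (sh : Shape) (a : Fin 6) : Continuous (coefA sh a) := by
  have h1 := sh.smooth_χ.continuous
  have h3 := (sh.smooth_γ a).continuous
  unfold coefA
  fun_prop

theorem Decay.axis {H : Harm} {w : Modes} (hw : Decay H w) (a : Fin 6) :
    Decay H fun j t => Shape.elAxis H j a (w j t) := by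
  have h := Decay.sum Finset.univ (fun k j t => axisVec a k • H.EL j k (w j t))
    fun k _ => (hw.left k).smul continuous_const
  simpa [Shape.elAxis] using h

theorem decay_bandForce {H : Harm} (sh : Shape) (p : Pulse) (c : ℝ) {u du : Modes}
    (hu : Decay H u) (hdu : Decay H du) :
    Decay H fun j t => bandForce H p (sh.drift t) (t - c) u du j t := by
  have hp : Continuous fun t => p.prof (t - c) := p.smooth.continuous.comp (continuous_id.sub continuous_const)
  have hp' : Continuous fun t => deriv p.prof (t - c) :=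
    (p.smooth.continuous_deriv (by simp)).comp (continuous_id.sub continuous_const)
  have hs := continuous_drift sh
  unfold bandForce
  cases p.kind with
  | some k =>
    exact ((((hu.left k).band _ _).smul (f := fun t => deriv p.prof (t - c) +
      (2 + sh.drift t) * p.prof (t - c)) (by fun_prop)).add
      (((hdu.left k).band _ _).smul hp)).add (((hdu.band _ _).left k).smul hp)
  | none =>
    exact (Decay.sum Finset.univ (fun k j t => H.EL j k (band H p.deg p.vec
      (fun i r => H.EL i k (u i r)) j t)) fun k _ => ((hu.left k).band _ _).left k).smul hp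

theorem decay_force {H : Harm} (sh : Shape) {P : Pulses} (A : Amps P) {u du : Modes}
    (hu : Decay H u) (hdu : Decay H du) : Decay H fun j t => A.force H sh u du j t := by
  intro a b
  obtain ⟨K, ρ, h0, h1, h⟩ := Decay.sum (H := H) (Finset.range ⌈b⌉₊)
    (fun n j t => ∑ l, A.θ n l • bandForce H (P.item l) (sh.drift t) (t - A.pos n) u du j t)
    (fun n _ => Decay.sum Finset.univ _ fun l _ =>
      (decay_bandForce sh (P.item l) (A.pos n) hu hdu).smul continuous_const) a b
  refine ⟨K, ρ, h0, h1, fun j t ht => ?_⟩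
  dsimp only
  rw [force_eq H sh A u du j (ht.2.trans (Nat.le_ceil b))]
  exact h j t ht

section Main

variable {H : Harm} {sh : Shape} {P : Pulses} {A : Amps P} {u du : Modes}

/-- The second derivative of a mode solution. -/
def ddu (H : Harm) (sh : Shape) {P : Pulses} (A : Amps P) (u du : Modes) : Modes := fun j t =>
  -(2 + sh.drift t) • du j t + sh.lam H j t (u j t) - A.force H sh u du j t

theorem decay_ddu (hu : Decay H u) (hdu : Decay H du) : Decay H (ddu H sh A u du) := by
  have h1 := hdu.smul (f := fun t => -(2 + sh.drift t))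
    ((continuous_const.add (continuous_drift sh)).neg)
  have hT := (((Decay.sum Finset.univ (fun k j t => H.EL j k (H.EL j k (u j t)))
    fun k _ => (hu.left k).left k).smul (continuous_coefT sh)).add
    (((hu.right 0).right 0).smul (continuous_coefR sh))).add
    (Decay.sum Finset.univ (fun a j t => coefA sh a t • Shape.elAxis H j a
      (Shape.elAxis H j a (u j t))) fun a _ => ((hu.axis a).axis a).smul (continuous_coefA sh a))
  have h2 := hT.smul (f := fun _ => (-1 : ℝ)) continuous_const
  have h3 := (decay_force sh A hu hdu).smul (f := fun _ => (-1 : ℝ)) continuous_const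
  have e : ddu H sh A u du = fun j t => -(2 + sh.drift t) • du j t +
      (-1 : ℝ) • (coefT sh t • (∑ k, H.EL j k (H.EL j k (u j t))) +
        coefR sh t • H.ER j 0 (H.ER j 0 (u j t)) +
        ∑ a, coefA sh a t • Shape.elAxis H j a (Shape.elAxis H j a (u j t))) +
      (-1 : ℝ) • A.force H sh u du j t := by
    funext j t
    rw [tangent_eq, ddu]
    module
  rw [e]
  exact (h1.add h2).add h3

/-- The divergence of the perturbed flux of a decaying mode solution vanishes. -/
theorem flux_div (hsol : IsModeSolution H sh A u du) (hu : Decay H u) (hdu : Decay H du)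
    (hx : x ≠ 0) :
    ∑ i, pd i (fun y => ∑ k, fullFlux H sh A y i k * pd k (modeSum H u) y) x = 0 := by
  set t := log ‖x‖ with ht
  set U := modeSum H u
  have hd1 := hsol.deriv_u
  have hd2 : ∀ j t, HasDerivAt (du j) (ddu H sh A u du j t) t := hsol.deriv_du
  have hdd := decay_ddu (sh := sh) (A := A) hu hdu
  have hn : ‖x‖ ^ 2 ≠ 0 := pow_ne_zero 2 (norm_ne_zero_iff.mpr hx)
  obtain ⟨eE, eL, eR⟩ := modeSum_eventually hd1 hu hdu hx
  obtain ⟨dE, vE, vEL, -⟩ := modeSum_deriv hd2 hdu hdd hx
  have dL := fun k => modeSum_deriv (deriv_op (fun j => H.EL j k) hd1) (hu.left k) (hdu.left k) hx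
  have dR := modeSum_deriv (deriv_op (fun j => H.ER j 0) hd1) (hu.right 0) (hdu.right 0) hx
  have dA := fun a => modeSum_deriv (deriv_op (fun j => Shape.elAxis H j a) hd1) (hu.axis a)
    (hdu.axis a) hx
  have cE : ∑ i, ContinuousLinearMap.id ℝ R4 (EuclideanSpace.single i 1) i -
      2 * ⟪x, ContinuousLinearMap.id ℝ R4 x⟫ / ‖x‖ ^ 2 = 2 := by
    simp only [ContinuousLinearMap.id_apply, real_inner_self_eq_norm_sq, mul_div_assoc, div_self hn]
    simp
    norm_num
  have cT : ∀ V : R4 →L[ℝ] R4, ∑ i, V (EuclideanSpace.single i 1) i = 0 → ⟪x, V x⟫ = 0 →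
      ∑ i, V (EuclideanSpace.single i 1) i - 2 * ⟪x, V x⟫ / ‖x‖ ^ 2 = 0 :=
    fun V h h' => by simp [h, h']
  have hvol : HasDerivAt (vol sh) (sh.drift t * vol sh t) t := by
    have h := (((sh.smooth_χ.differentiable (by simp)) t).hasDerivAt.const_mul (-3)).exp
    exact h.congr_deriv (by rw [vol, Shape.drift]; ring)
  have hdiff : ∀ f : ℝ → ℝ, Differentiable ℝ f → HasDerivAt f (deriv f t) t :=
    fun f hf => (hf t).hasDerivAt
  have dχ : Differentiable ℝ sh.χ := sh.smooth_χ.differentiable (by simp)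
  have dβ : Differentiable ℝ sh.β := sh.smooth_β.differentiable (by simp)
  have dγ : ∀ a, Differentiable ℝ (sh.γ a) := fun a => (sh.smooth_γ a).differentiable (by simp)
  -- the radial term
  obtain ⟨p0, p0x, -⟩ := radial_deriv hx hvol
  have T0 := hasDiv_term (U := U) (.id ℝ R4) (.id ℝ R4) hx p0 dE eE cE
  simp only [ContinuousLinearMap.id_apply, p0x, vE, ← ht] at T0
  -- the tangential terms
  have TL : ∀ k, HasDiv (fun y => (vol sh (log ‖y‖) * coefT sh (log ‖y‖) / ‖y‖ ^ 2) •
      outer (qL k y) (qL k y)) U x (vol sh t * coefT sh t *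
        modeSum H (fun j r => H.EL j k (H.EL j k (u j r))) x / ‖x‖ ^ 2) := fun k => by
    obtain ⟨p, -, pv⟩ := radial_deriv hx (hdiff (fun r => vol sh r * coefT sh r)
      (by unfold vol coefT; fun_prop))
    have h := hasDiv_term (U := U) (lL k) (lL k) hx p (dL k).1 (eL k)
      (cT _ (trace_lL k) (inner_qL_self k x))
    simp only [lL_apply, pv _ (inner_qL_self k x), (dL k).2.2.1 k, zero_mul, add_zero,
      zero_add] at h
    exact h
  have TR : HasDiv (fun y => (vol sh (log ‖y‖) * coefR sh (log ‖y‖) / ‖y‖ ^ 2) •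
      outer (qR 0 y) (qR 0 y)) U x (vol sh t * coefR sh t *
        modeSum H (fun j r => H.ER j 0 (H.ER j 0 (u j r))) x / ‖x‖ ^ 2) := by
    obtain ⟨p, -, pv⟩ := radial_deriv hx (hdiff (fun r => vol sh r * coefR sh r)
      (by unfold vol coefR; fun_prop))
    have h := hasDiv_term (U := U) (lR 0) (lR 0) hx p dR.1 (eR 0)
      (cT _ (trace_lR 0) (inner_qR_self 0 x))
    simp only [lR_apply, pv _ (inner_qR_self 0 x), dR.2.2.2 0, zero_mul, add_zero, zero_add] at h
    exact h
  have axis_eq : ∀ (a : Fin 6) (v : Modes), Decay H v → ∀ y : R4, y ≠ 0 →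
      ∑ k, axisVec a k * modeSum H (fun j r => H.EL j k (v j r)) y =
        modeSum H (fun j r => Shape.elAxis H j a (v j r)) y := fun a v hv y hy => by
    have h := modeSum_sum (H := H) Finset.univ (fun k j r => axisVec a k • H.EL j k (v j r))
      (fun k _ => (hv.left k).smul continuous_const) hy
    simp only [modeSum_smul] at h
    rw [← h]
    simp [Shape.elAxis]
  have TA : ∀ a, HasDiv (fun y => (vol sh (log ‖y‖) * coefA sh a (log ‖y‖) / ‖y‖ ^ 2) •
      outer (lAxis a y) (lAxis a y)) U x (vol sh t * coefA sh a t *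
        modeSum H (fun j r => Shape.elAxis H j a (Shape.elAxis H j a (u j r))) x / ‖x‖ ^ 2) := by
    intro a
    obtain ⟨p, -, pv⟩ := radial_deriv hx (hdiff (fun r => vol sh r * coefA sh a r)
      (by unfold vol coefA; fun_prop))
    have e : (fun y => fderiv ℝ U y (lAxis a y)) =ᶠ[𝓝 x]
        modeSum H fun j r => Shape.elAxis H j a (u j r) := by
      filter_upwards [isOpen_ne.eventually_mem hx] with y hy
      rw [← axis_eq a u hu y hy, lAxis_apply, map_sum]
      exact Finset.sum_congr rfl fun k _ => by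
        rw [map_smul, (modeSum_deriv hd1 hu hdu hy).2.2.1 k, smul_eq_mul]
    have h := hasDiv_term (U := U) (lAxis a) (lAxis a) hx p (dA a).1 e
      (cT _ (trace_lAxis a) (inner_lAxis a x))
    have hv : fderiv ℝ (modeSum H fun j r => Shape.elAxis H j a (u j r)) x (lAxis a x) =
        modeSum H (fun j r => Shape.elAxis H j a (Shape.elAxis H j a (u j r))) x := by
      rw [← axis_eq a _ (hu.axis a) x hx, lAxis_apply, map_sum]
      exact Finset.sum_congr rfl fun k _ => by rw [map_smul, (dA a).2.2.1 k, smul_eq_mul]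
    simp only [pv _ (inner_lAxis a x), hv, zero_mul, add_zero, zero_add] at h
    exact h
  -- the pulses
  have hcomm : ∀ (T : R4 →L[ℝ] R4) (y : R4), outer (rhat y) (T (rhat y)) =
      (‖y‖ ^ 2)⁻¹ • outer y (T y) := fun T y => by
    ext i k; simp [rhat, outer, sq]; ring
  have hcomm' : ∀ (T : R4 →L[ℝ] R4) (y : R4), outer (T (rhat y)) (rhat y) =
      (‖y‖ ^ 2)⁻¹ • outer (T y) y := fun T y => by
    ext i k; simp [rhat, outer, sq]; ring
  have TP : ∀ n l, HasDiv (fun y => vol sh (log ‖y‖) •
      ((A.θ n l * (P.item l).prof (log ‖y‖ - A.pos n) *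
        H.fn (P.item l).deg (P.item l).vec (rhat y)) • kindMatrix y (P.item l).kind)) U x
      (vol sh t * (A.θ n l * modeSum H (fun j r =>
        bandForce H (P.item l) (sh.drift r) (r - A.pos n) u du j r) x) / ‖x‖ ^ 2) := by
    intro n l
    set p := P.item l
    set c := A.pos n
    set θ := A.θ n l
    set h := H.fn p.deg p.vec (rhat x) with hh
    have hp : HasDerivAt (fun r => p.prof (r - c)) (deriv p.prof (t - c)) t := by
      have h0 := ((p.smooth.differentiable (by simp)) (t - c)).hasDerivAt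
      exact h0.comp_sub_const t c
    obtain ⟨q, qx, qL'⟩ := scalar_deriv H p.deg p.vec hx ((hvol.mul (hp.const_mul θ)))
    simp only [Pi.mul_apply, ← ht] at qx qL'
    rcases hk : p.kind with _ | k
    · have T : ∀ k, HasDiv (fun y => ((vol sh (log ‖y‖) * (θ * p.prof (log ‖y‖ - c))) *
          H.fn p.deg p.vec (rhat y) / ‖y‖ ^ 2) • outer (qL k y) (qL k y)) U x
          (vol sh t * (θ * p.prof (t - c)) * modeSum H (fun j r => H.EL j k (band H p.deg p.vec
            (fun i s => H.EL i k (u i s)) j r)) x / ‖x‖ ^ 2) := fun k => by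
        have h1 := hasDiv_term (U := U) (lL k) (lL k) hx q (dL k).1 (eL k)
          (cT _ (trace_lL k) (inner_qL_self k x))
        simp only [lL_apply, Pi.mul_apply, qL', (dL k).2.2.1 k, zero_mul, add_zero] at h1
        rw [modeSum_left_band (deriv_op (fun j => H.EL j k) hd1) (hu.left k) (hdu.left k) _ _ k hx]
        convert h1 using 2
        simp only [← hh]
        ring
      have hs := HasDiv.sum Finset.univ fun k _ => T k
      rw [← Finset.sum_div, ← Finset.mul_sum] at hs
      have hval : (fun j r => bandForce H p (sh.drift r) (r - c) u du j r) =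
          fun j r => p.prof (r - c) • ∑ k, H.EL j k (band H p.deg p.vec
            (fun i s => H.EL i k (u i s)) j r) := by
        funext j r
        unfold bandForce
        rw [hk]
      rw [hval, modeSum_smul, modeSum_sum (H := H) Finset.univ
        (fun k j r => H.EL j k (band H p.deg p.vec (fun i s => H.EL i k (u i s)) j r))
        (fun k _ => ((hu.left k).band _ _).left k) hx, ← ht]
      refine (HasDiv.congr hs ?_).imp id fun e => e.trans (by ring)
      refine Filter.Eventually.of_forall fun y => ?_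
      ext i k
      simp only [kindMatrix, Matrix.smul_apply, Matrix.sum_apply, smul_eq_mul, Finset.mul_sum]
      refine Finset.sum_congr rfl fun m _ => ?_
      simp [outer, rhat, qL_smul, sq]
      ring
    · have h1 := hasDiv_term (U := U) (.id ℝ R4) (lL k) hx q (dL k).1 (eL k) cE
      have h2 := hasDiv_term (U := U) (lL k) (.id ℝ R4) hx q dE eE
        (cT _ (trace_lL k) (inner_qL_self k x))
      simp only [lL_apply, ContinuousLinearMap.id_apply, Pi.mul_apply, qx, qL', (dL k).2.1, vEL,
        zero_mul, add_zero] at h1 h2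
      have hval : (fun j r => bandForce H p (sh.drift r) (r - c) u du j r) = fun j r =>
          (deriv p.prof (r - c) + (2 + sh.drift r) * p.prof (r - c)) •
              band H p.deg p.vec (fun i s => H.EL i k (u i s)) j r +
            p.prof (r - c) • band H p.deg p.vec (fun i s => H.EL i k (du i s)) j r +
            p.prof (r - c) • H.EL j k (band H p.deg p.vec du j r) := by
        funext j r
        unfold bandForce
        rw [hk]
      have hpc : Continuous fun r => p.prof (r - c) :=
        p.smooth.continuous.comp (continuous_id.sub continuous_const)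
      have hpc' : Continuous fun r => deriv p.prof (r - c) :=
        (p.smooth.continuous_deriv (by simp)).comp (continuous_id.sub continuous_const)
      have hsd := continuous_drift sh
      have D1 := ((hu.left k).band p.deg p.vec).smul
        (f := fun r => deriv p.prof (r - c) + (2 + sh.drift r) * p.prof (r - c)) (by fun_prop)
      have D2 := ((hdu.left k).band p.deg p.vec).smul hpc
      have D3 := ((hdu.band p.deg p.vec).left k).smul hpc
      rw [hval, modeSum_add (D1.add D2) D3 hx, modeSum_add D1 D2 hx, modeSum_smul, modeSum_smul,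
        modeSum_smul, ← modeSum_band (hu.left k) _ _ hx, ← modeSum_band (hdu.left k) _ _ hx,
        modeSum_left_band hd2 hdu hdd _ _ k hx, ← ht, ← hh]
      refine (HasDiv.congr (h1.add h2) ?_).imp id fun e => e.trans (by
        simp only [← hh]
        ring)
      refine Filter.Eventually.of_forall fun y => ?_
      ext i m
      simp [kindMatrix, outer, rhat, qL_smul, sq]
      ring
  set N := ⌈t + 1⌉₊ with hN
  have htot := ((((T0.add (HasDiv.sum Finset.univ fun k _ => TL k)).add TR).add
    (HasDiv.sum Finset.univ fun a _ => TA a)).add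
      (HasDiv.sum (Finset.range N) fun n _ => HasDiv.sum Finset.univ fun l _ => TP n l))
  have hev : fullFlux H sh A =ᶠ[𝓝 x] fun y =>
      (((vol sh (log ‖y‖) / ‖y‖ ^ 2) • outer y y +
        ∑ k, (vol sh (log ‖y‖) * coefT sh (log ‖y‖) / ‖y‖ ^ 2) • outer (qL k y) (qL k y)) +
        (vol sh (log ‖y‖) * coefR sh (log ‖y‖) / ‖y‖ ^ 2) • outer (qR 0 y) (qR 0 y) +
        ∑ a, (vol sh (log ‖y‖) * coefA sh a (log ‖y‖) / ‖y‖ ^ 2) •
          outer (lAxis a y) (lAxis a y)) +
        ∑ n ∈ Finset.range N, ∑ l, vol sh (log ‖y‖) •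
          ((A.θ n l * (P.item l).prof (log ‖y‖ - A.pos n) *
            H.fn (P.item l).deg (P.item l).vec (rhat y)) • kindMatrix y (P.item l).kind) := by
    have hc : ContinuousAt (fun z : R4 => log ‖z‖) x :=
      continuous_norm.continuousAt.log (norm_ne_zero_iff.mpr hx)
    filter_upwards [isOpen_ne.eventually_mem hx, hc.eventually (gt_mem_nhds (lt_add_one t))]
      with y hy hty
    rw [fullFlux, flux_expand sh hy]
    congr 1
    rw [tsum_eq_sum (s := Finset.range N), Finset.smul_sum]
    · exact Finset.sum_congr rfl fun n _ => Finset.smul_sum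
    · intro n hn
      rw [Finset.mem_range, not_lt] at hn
      refine Finset.sum_eq_zero fun l _ => ?_
      have h1 : (N : ℝ) ≤ n := Nat.cast_le.2 hn
      have h2 : t + 1 ≤ N := Nat.le_ceil _
      rw [(P.item l).supp _ fun hm => absurd hm.1 (not_lt.2 (by linarith [slot_pos_ge A n]))]
      simp
  rw [(htot.congr hev).2]
  have hT1 := Decay.sum (H := H) Finset.univ (fun k j r => H.EL j k (H.EL j k (u j r)))
    fun k _ => (hu.left k).left k
  have hT2 := Decay.sum (H := H) Finset.univ (fun a j r => coefA sh a r • Shape.elAxis H j a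
    (Shape.elAxis H j a (u j r))) fun a _ => ((hu.axis a).axis a).smul (continuous_coefA sh a)
  have sT : modeSum H (fun j r => coefT sh r • (∑ k, H.EL j k (H.EL j k (u j r))) +
      coefR sh r • H.ER j 0 (H.ER j 0 (u j r)) +
      ∑ a, coefA sh a r • Shape.elAxis H j a (Shape.elAxis H j a (u j r))) x =
      coefT sh t * ∑ k, modeSum H (fun j r => H.EL j k (H.EL j k (u j r))) x +
      coefR sh t * modeSum H (fun j r => H.ER j 0 (H.ER j 0 (u j r))) x +
      ∑ a, coefA sh a t *
        modeSum H (fun j r => Shape.elAxis H j a (Shape.elAxis H j a (u j r))) x := by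
    rw [modeSum_add ((hT1.smul (continuous_coefT sh)).add
      (((hu.right 0).right 0).smul (continuous_coefR sh))) hT2 hx,
      modeSum_add (hT1.smul (continuous_coefT sh)) (((hu.right 0).right 0).smul
        (continuous_coefR sh)) hx, modeSum_smul, modeSum_smul,
      modeSum_sum (H := H) Finset.univ (fun k j r => H.EL j k (H.EL j k (u j r)))
        (fun k _ => (hu.left k).left k) hx,
      modeSum_sum (H := H) Finset.univ (fun a j r => coefA sh a r • Shape.elAxis H j a
        (Shape.elAxis H j a (u j r))) (fun a _ => ((hu.axis a).axis a).smul (continuous_coefA sh a))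
        hx, ← ht]
    simp only [modeSum_smul, ← ht]
  have sF : modeSum H (fun j r => ∑ n ∈ Finset.range N, ∑ l, A.θ n l •
      bandForce H (P.item l) (sh.drift r) (r - A.pos n) u du j r) x =
      ∑ n ∈ Finset.range N, ∑ l, A.θ n l * modeSum H (fun j r =>
        bandForce H (P.item l) (sh.drift r) (r - A.pos n) u du j r) x := by
    rw [modeSum_sum (H := H) (Finset.range N) (fun n j r => ∑ l, A.θ n l •
      bandForce H (P.item l) (sh.drift r) (r - A.pos n) u du j r) (fun n _ =>
        Decay.sum Finset.univ _ fun l _ => (decay_bandForce sh (P.item l) (A.pos n) hu hdu).smul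
          continuous_const) hx]
    refine Finset.sum_congr rfl fun n _ => ?_
    rw [modeSum_sum (H := H) Finset.univ (fun l j r => A.θ n l •
      bandForce H (P.item l) (sh.drift r) (r - A.pos n) u du j r) (fun l _ =>
        (decay_bandForce sh (P.item l) (A.pos n) hu hdu).smul continuous_const) hx]
    simp only [modeSum_smul]
  have htN : t ≤ N := by
    have := Nat.le_ceil (t + 1)
    rw [← hN] at this
    linarith
  have key : modeSum H (ddu H sh A u du) x + (2 + sh.drift t) * modeSum H du x +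
      modeSum H (fun j r => coefT sh r • (∑ k, H.EL j k (H.EL j k (u j r))) +
        coefR sh r • H.ER j 0 (H.ER j 0 (u j r)) +
        ∑ a, coefA sh a r • Shape.elAxis H j a (Shape.elAxis H j a (u j r))) x +
      modeSum H (fun j r => ∑ n ∈ Finset.range N, ∑ l, A.θ n l •
        bandForce H (P.item l) (sh.drift r) (r - A.pos n) u du j r) x = 0 := by
    unfold modeSum
    rw [← ht, ← tsum_mul_left]
    have s1 := summable_terms hdd hx
    have s2 := (summable_terms hdu hx).mul_left (2 + sh.drift t)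
    have s3 := summable_terms ((hT1.smul (continuous_coefT sh)).add
      (((hu.right 0).right 0).smul (continuous_coefR sh)) |>.add hT2) hx
    have s4 := summable_terms (Decay.sum (H := H) (Finset.range N) (fun n j r => ∑ l, A.θ n l •
      bandForce H (P.item l) (sh.drift r) (r - A.pos n) u du j r) (fun n _ =>
        Decay.sum Finset.univ _ fun l _ => (decay_bandForce sh (P.item l) (A.pos n) hu hdu).smul
          continuous_const)) hx
    rw [← ht] at s1 s2 s3 s4
    rw [← s1.tsum_add s2, ← (s1.add s2).tsum_add s3, ← ((s1.add s2).add s3).tsum_add s4]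
    refine (tsum_congr fun j => ?_).trans tsum_zero
    simp only [← fn_smul, ← fn_add]
    have e : ddu H sh A u du j t + (2 + sh.drift t) • du j t +
        (coefT sh t • (∑ k, H.EL j k (H.EL j k (u j t))) + coefR sh t • H.ER j 0 (H.ER j 0 (u j t)) +
          ∑ a, coefA sh a t • Shape.elAxis H j a (Shape.elAxis H j a (u j t))) +
        ∑ n ∈ Finset.range N, ∑ l, A.θ n l •
          bandForce H (P.item l) (sh.drift t) (t - A.pos n) u du j t = 0 := by
      rw [tangent_eq, ← force_eq H sh A u du j htN, ddu]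
      module
    rw [e]
    simp [Harm.fn]
  rw [sT, sF] at key
  have hz : ∀ a, vol sh t * coefA sh a t * modeSum H
      (fun j r => Shape.elAxis H j a (Shape.elAxis H j a (u j r))) x / ‖x‖ ^ 2 =
      vol sh t / ‖x‖ ^ 2 * (coefA sh a t * modeSum H
        (fun j r => Shape.elAxis H j a (Shape.elAxis H j a (u j r))) x) := fun a => by ring
  have hz' : ∀ (n : ℕ) (l : Fin P.n) (z : ℝ), vol sh t * z / ‖x‖ ^ 2 =
      vol sh t / ‖x‖ ^ 2 * z := fun n l z => by ring
  have hz'' : ∀ k, vol sh t * coefT sh t * modeSum H (fun j r => H.EL j k (H.EL j k (u j r))) x /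
      ‖x‖ ^ 2 = vol sh t / ‖x‖ ^ 2 * (coefT sh t *
        modeSum H (fun j r => H.EL j k (H.EL j k (u j r))) x) := fun k => by ring
  simp only [hz, hz'', ← Finset.mul_sum, ← Finset.sum_div]
  linear_combination (vol sh t / ‖x‖ ^ 2) * key

/-- A decaying mode solution gives a harmonic function of the perturbed metric. -/
theorem laplacian_theMetric (hA : IsMetric (fullFlux H sh A))
    (hsol : IsModeSolution H sh A u du) (hu : Decay H u) (hdu : Decay H du)
    (hU : ContDiff ℝ ∞ (modeSum H u)) (x : R4) :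
    laplacian (theMetric H sh A) (modeSum H u) x = 0 := by
  rw [theMetric, laplacian_metricOfFlux_eq_zero_iff hA]
  have hpd : ∀ {f : R4 → ℝ}, ContDiff ℝ ∞ f → ∀ i, ContDiff ℝ ∞ (pd i f) := fun hf i => by
    unfold pd
    exact (hf.fderiv_right (m := ∞) (by simp)).clm_apply contDiff_const
  have hc : Continuous fun y : R4 =>
      ∑ i, pd i (fun y => ∑ k, fullFlux H sh A y i k * pd k (modeSum H u) y) y :=
    continuous_finsetSum _ fun i _ => (hpd (ContDiff.sum fun k _ =>
      (hA.smooth i k).mul (hpd hU k)) i).continuous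
  exact congrFun (hc.ext_on (dense_compl_singleton (0 : R4)) continuous_const
    fun y hy => flux_div hsol hu hdu hy) x

/-- The divergence equation at every point. -/
theorem flux_div_all (hA : IsMetric (fullFlux H sh A))
    (hsol : IsModeSolution H sh A u du) (hu : Decay H u) (hdu : Decay H du)
    (hU : ContDiff ℝ ∞ (modeSum H u)) (x : R4) :
    ∑ i, pd i (fun y => ∑ k, fullFlux H sh A y i k * pd k (modeSum H u) y) x = 0 :=
  (laplacian_metricOfFlux_eq_zero_iff hA _ x).1 (laplacian_theMetric hA hsol hu hdu hU x)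

/-- A weighted bound gives decay. -/
theorem decay_of_weight {w : Modes} {W : ℝ} (hW : H.C < W) {M : ℝ → ℝ} (hM : Continuous M)
    (h : ∀ j t, W ^ j * ‖w j t‖ ≤ M t) : Decay H w := by
  intro a b
  obtain ⟨K, hK⟩ := (isCompact_Icc (a := a) (b := b)).exists_bound_of_continuousOn hM.continuousOn
  have hC := C_pos H
  have hW0 : 0 < W := hC.trans hW
  refine ⟨K, H.C / W, div_pos hC hW0, (div_lt_one hW0).2 hW, fun j t ht => ?_⟩
  calc H.C ^ j * ‖w j t‖ = (H.C / W) ^ j * (W ^ j * ‖w j t‖) := by
        rw [div_pow]; field_simp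
    _ ≤ (H.C / W) ^ j * K := mul_le_mul_of_nonneg_left
        ((h j t).trans ((le_abs_self _).trans ((Real.norm_eq_abs _).symm.trans_le (hK t ht))))
        (pow_nonneg (div_pos hC hW0).le j)
    _ = _ := mul_comm _ _

end Main

end

end Vale.Agent.P225.Geo
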