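import Vale.Agent.P225.Geo.Ricci
import Vale.Agent.P225.Sched.ShapeFacts

/-!
P225: the schedule's shapes have uniform bounds, and pulses of size at most a small multiple of the
tail at their slot give a metric of nonnegative Ricci curvature.
-/

namespace Vale.Agent.P225.Geo

open scoped ContDiff Topology
open Filter Real Sched

noncomputable section

variable {p : Params}

theorem risePart_nonneg (t : ℝ) : 0 ≤ Params.risePart t :=
  mul_nonneg (smoothTransition.nonneg t) (exp_pos _).le

theorem tailPart_nonneg (p : Params) (t : ℝ) : 0 ≤ p.tailPart t := by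
  rcases le_or_gt t 0 with ht | ht
  · simp [Params.tailPart, smoothTransition.zero_of_nonpos ht]
  · exact mul_nonneg (smoothTransition.nonneg t) (p.tail_pos ht.le).le

theorem tail_antitone (p : Params) {s t : ℝ} (hs : 0 ≤ s) (hst : s ≤ t) :
    p.tail t ≤ p.tail s :=
  rpow_le_rpow_of_nonpos (by linarith [p.N0_le_pow, p.one_le_N0]) (by linarith) (by norm_num)

theorem abs_deriv_rate_le (h : p.Ok) (t : ℝ) : |deriv p.rate t| ≤ stepBound := by
  have hB := one_le_stepBound
  have hr := h.rate_le t
  rw [abs_le]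
  refine ⟨by linarith [h.deriv_rate_ge t, h.rate_nonneg t], ?_⟩
  rcases le_or_gt t 0 with ht | ht
  · have hmin : IsLocalMin p.rate t := Eventually.of_forall fun y => by
      rw [p.rate_of_nonpos ht]; exact h.rate_nonneg y
    rw [hmin.deriv_eq_zero]
    linarith
  · rw [(Params.hasDerivAt_rate (p := p) ht.le).deriv]
    have hσ := abs_deriv_sigma_le t
    have a1 : p.A * exp (-t / 4) ≤ 1 / 21 * 1 :=
      mul_le_mul h.A_le (exp_le_one_iff.2 (by linarith)) (exp_pos _).le (by norm_num)
    have a2 : p.C * p.tail t ≤ p.C * (1 / p.N0) :=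
      mul_le_mul_of_nonneg_left (p.tail_le ht.le) (by linarith [p.one_le_C])
    have a3 : p.C * (1 / p.N0) = p.C / p.N0 := by ring
    have b1 : 0 ≤ p.A * exp (-t / 4) := (mul_pos h.A_pos (exp_pos _)).le
    have b2 : 0 ≤ p.C * p.tail t :=
      mul_nonneg (by linarith [p.one_le_C]) (p.tail_pos ht.le).le
    have b3 : 0 ≤ p.C * (3 / 2) * p.tail t / (t + (p.N0 : ℝ) ^ 8) :=
      div_nonneg (mul_nonneg (by linarith [p.one_le_C]) (p.tail_pos ht.le).le)
        (by linarith [p.N0_le_pow, p.one_le_N0])
    have c1 : deriv smoothTransition t * (p.A * exp (-t / 4) + p.C * p.tail t) ≤ stepBound * 1 :=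
      mul_le_mul (le_of_abs_le hσ) (by linarith [h.C_div]) (by linarith) (by linarith)
    have c2 : 0 ≤ smoothTransition t * (p.A * exp (-t / 4) / 4 +
        p.C * (3 / 2) * p.tail t / (t + (p.N0 : ℝ) ^ 8)) :=
      mul_nonneg (smoothTransition.nonneg t) (by linarith)
    linarith

/-- The shapes of admissible schedules have one bound. -/
theorem shapeBdd_sched (h : p.Ok) : ShapeBdd p.shape stepBound := by
  have hB := one_le_stepBound
  refine ⟨⟨fun t => ?_, fun t => ?_, fun t => ?_⟩, fun o => ?_⟩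
  · obtain ⟨a, b⟩ := h.chi_bounds t
    show |p.chi t| ≤ _
    rw [abs_of_nonneg a]
    linarith [Params.log_87.2]
  · show |deriv p.chi t| ≤ _
    rw [p.deriv_chi, abs_of_nonneg (h.rate_nonneg t)]
    linarith [h.rate_le t]
  · show |deriv (deriv p.chi) t| ≤ _
    rw [p.deriv_chi]
    exact abs_deriv_rate_le h t
  · have hs : squashOn p.shape o = p.comp o := by cases o <;> rfl
    rw [hs]
    refine ⟨fun t => ?_, fun t => ?_, fun t => ?_⟩
    · obtain ⟨a, b⟩ := h.comp_range o t
      rw [abs_le]
      constructor <;> linarith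
    · rcases h.deriv_comp_small o t with ⟨a, -, -⟩ | e
      · linarith
      · rw [e.deriv_eq]; simp; linarith
    · rcases h.deriv_comp_small o t with ⟨-, a, -⟩ | e
      · linarith
      · rw [e.deriv.deriv_eq]; simp; linarith

theorem alOf_sched (p : Params) (o : Option (Fin 6)) : alOf p.shape o = p.la o := by
  cases o <;> rfl

theorem beOf_sched (p : Params) (o : Option (Fin 6)) : beOf p.shape o = p.lb o := by
  cases o <;> rfl

/-- Everywhere all three Ricci terms are at least `C/4` times the smoothed tail. -/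
theorem ric_ge_tailPart (h : p.Ok) (o : Option (Fin 6)) (t : ℝ) :
    p.C / 4 * p.tailPart t ≤ Sched.ric0 (p.la o) (p.lb o) t ∧
      p.C / 4 * p.tailPart t ≤ Sched.ric1 (p.la o) (p.lb o) t ∧
      p.C / 4 * p.tailPart t ≤ Sched.ric2 (p.la o) (p.lb o) t := by
  rcases lt_or_ge t 1 with ht | ht
  · have e : p.comp o =ᶠ[𝓝 t] fun _ => 0 := by
      filter_upwards [Iio_mem_nhds ht] with s hs
      exact p.comp_eq_zero_early (by linarith [Set.mem_Iio.1 hs, p.one_le_N0]) o
    obtain ⟨a, b, c⟩ := h.ric_round e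
    have : p.C * p.tailPart t ≤ p.rate t := by
      have := mul_nonneg h.A_pos.le (risePart_nonneg t)
      unfold Params.rate
      linarith
    exact ⟨by linarith, by linarith, by linarith⟩
  · have e : p.tailPart t = p.tail t := by
      simp [Params.tailPart, smoothTransition.one_of_one_le ht]
    rw [e]
    exact h.ric_ge o ht

/-- Pulses at most a small multiple of the tail give a metric with nonnegative Ricci curvature. -/
theorem exists_sched_glue (H : Harm) (P : Pulses) :
    ∃ d a b : ℝ, 0 < d ∧ 0 < a ∧ 0 < b ∧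
      ∀ p : Params, p.Ok → ∀ (hne : p.slotList ≠ []) (θ : ℕ → Fin P.n → ℝ),
        (∀ n l, |θ n l| ≤ d * p.tail (p.slotPos n + 1)) →
        IsMetric (fullFlux H p.shape (p.amps hne P θ)) ∧
        (∀ x v, a * ∑ i, v i ^ 2 ≤ quad (fullFlux H p.shape (p.amps hne P θ) x) v) ∧
        (∀ x v, quad (fullFlux H p.shape (p.amps hne P θ) x) v ≤ b * ∑ i, v i ^ 2) ∧
        RicciNonneg (theMetric H p.shape (p.amps hne P θ)) := by
  obtain ⟨δ₀, C, a, b, hδ₀, hC, ha, hb, hglue⟩ := exists_glue H P stepBound
  refine ⟨min δ₀ (1 / (4 * C)), a, b, lt_min hδ₀ (by positivity), ha, hb, ?_⟩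
  intro p hp hne θ hθ
  set d := min δ₀ (1 / (4 * C)) with hd
  have hd0 : 0 < d := lt_min hδ₀ (by positivity)
  have hpos : ∀ n, 1 ≤ p.slotPos n := p.slotPos_start
  have htail : ∀ n, p.tail (p.slotPos n + 1) ≤ 1 := fun n =>
    (p.tail_le (by linarith [hpos n])).trans
      ((div_le_one (by linarith [p.one_le_N0])).2 p.one_le_N0)
  have hsmall : ∀ n, d * p.tail (p.slotPos n + 1) ≤ δ₀ := fun n =>
    calc d * p.tail (p.slotPos n + 1) ≤ d * 1 := mul_le_mul_of_nonneg_left (htail n) hd0.le
      _ ≤ δ₀ := by rw [mul_one]; exact min_le_left _ _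
  obtain ⟨h1, h2, h3, h4⟩ := hglue p.shape (shapeBdd_sched hp) (p.amps hne P θ)
    (fun n => d * p.tail (p.slotPos n + 1)) hθ hsmall
  refine ⟨h1, h2, h3, h4 (fun t => p.C / 4 * p.tailPart t)
    (continuous_const.mul p.contDiff_tailPart.continuous)
    (fun t => mul_nonneg (by linarith [p.one_le_C]) (tailPart_nonneg p t))
    (fun t o => by rw [alOf_sched, beOf_sched]; exact ric_ge_tailPart hp o t) ?_⟩
  intro n t ht1 ht2
  change p.slotPos n < t at ht1
  change t < p.slotPos n + 1 at ht2
  have h1t : 1 ≤ t := by linarith [hpos n]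
  have e : p.tailPart t = p.tail t := by
    simp [Params.tailPart, smoothTransition.one_of_one_le h1t]
  have hT : p.tail (p.slotPos n + 1) ≤ p.tail t := tail_antitone p (by linarith) ht2.le
  have hT0 : 0 ≤ p.tail (p.slotPos n + 1) := (p.tail_pos (by linarith [hpos n])).le
  have hdC : C * d ≤ 1 / 4 := by
    calc C * d ≤ C * (1 / (4 * C)) := mul_le_mul_of_nonneg_left (min_le_right _ _) hC.le
      _ = 1 / 4 := by field_simp
  rw [e]
  calc C * (d * p.tail (p.slotPos n + 1)) = C * d * p.tail (p.slotPos n + 1) := by ring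
    _ ≤ 1 / 4 * p.tail (p.slotPos n + 1) := mul_le_mul_of_nonneg_right hdC hT0
    _ ≤ p.C / 4 * p.tail t :=
      mul_le_mul (by linarith [p.one_le_C]) hT hT0 (by linarith [p.one_le_C])

end

end Vale.Agent.P225.Geo
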