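import Vale.Agent.P225.Defs

/-!
P225: squashed sphere metrics in Cartesian coordinates, algebra.

For a complex structure `J` on `ℝ⁴` the metric `q 1 + F x xᵀ + H (J x)(J x)ᵀ`, with `q, F, H`
functions of `|x|²`, has Christoffel symbols spanned by six tensors; this file contains the
contractions of these tensors.
-/

namespace Vale.Agent.P225.Geo

open Finset Matrix

noncomputable section

/-- An orthogonal complex structure. -/
structure IsAxis (J : Matrix (Fin 4) (Fin 4) ℝ) : Prop where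
  skew : Jᵀ = -J
  sq : J * J = -1

/-- The squared norm. -/
def rho (x : R4) : ℝ := ⇑x ⬝ᵥ ⇑x

/-- The axis field. -/
def ev (J : Matrix (Fin 4) (Fin 4) ℝ) (x : R4) : Fin 4 → ℝ := J *ᵥ ⇑x

/-- The tensor `q 1 + F x xᵀ + H e eᵀ`. -/
def form (J : Matrix (Fin 4) (Fin 4) ℝ) (q F H : ℝ) (x : R4) : Matrix (Fin 4) (Fin 4) ℝ :=
  q • 1 + F • vecMulVec ⇑x ⇑x + H • vecMulVec (ev J x) (ev J x)

theorem form_apply (J : Matrix (Fin 4) (Fin 4) ℝ) (q F H : ℝ) (x : R4) (i k : Fin 4) :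
    form J q F H x i k =
      q * (if i = k then 1 else 0) + F * (x i * x k) + H * (ev J x i * ev J x k) := by
  simp [form, vecMulVec_apply, Matrix.one_apply]

/-- Six coefficients of the Christoffel symbols. -/
structure Coef where
  a : ℝ
  b : ℝ
  c : ℝ
  d : ℝ
  f : ℝ
  h : ℝ

/-- The Christoffel symbols with given coefficients. -/
def chr (J : Matrix (Fin 4) (Fin 4) ℝ) (A : Coef) (x : R4) (i k l : Fin 4) : ℝ :=
  A.a * (x i * (if k = l then 1 else 0)) +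
  A.b * (x k * (if i = l then 1 else 0) + x l * (if i = k then 1 else 0)) +
  A.c * (x i * (x k * x l)) + A.d * (x i * (ev J x k * ev J x l)) +
  A.f * (ev J x i * (x k * ev J x l + x l * ev J x k)) +
  A.h * (J i k * ev J x l + J i l * ev J x k)

/-- The Christoffel symbols contracted twice with a vector. -/
def chrV (J : Matrix (Fin 4) (Fin 4) ℝ) (A : Coef) (x : R4) (v : Fin 4 → ℝ) (i : Fin 4) : ℝ :=
  A.a * (x i * (v ⬝ᵥ v)) + 2 * A.b * ((⇑x ⬝ᵥ v) * v i) + A.c * (x i * (⇑x ⬝ᵥ v) ^ 2) +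
  A.d * (x i * (ev J x ⬝ᵥ v) ^ 2) +
  2 * A.f * (ev J x i * ((⇑x ⬝ᵥ v) * (ev J x ⬝ᵥ v))) +
  2 * A.h * ((J *ᵥ v) i * (ev J x ⬝ᵥ v))

/-- The Christoffel symbols contracted once with a vector. -/
def chrM (J : Matrix (Fin 4) (Fin 4) ℝ) (A : Coef) (x : R4) (v : Fin 4 → ℝ) :
    Matrix (Fin 4) (Fin 4) ℝ :=
  A.a • vecMulVec ⇑x v + A.b • ((⇑x ⬝ᵥ v) • 1 + vecMulVec v ⇑x) +
  (A.c * (⇑x ⬝ᵥ v)) • vecMulVec ⇑x ⇑x + (A.d * (ev J x ⬝ᵥ v)) • vecMulVec ⇑x (ev J x) +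
  A.f • ((⇑x ⬝ᵥ v) • vecMulVec (ev J x) (ev J x) + (ev J x ⬝ᵥ v) • vecMulVec (ev J x) ⇑x) +
  A.h • (vecMulVec (J *ᵥ v) (ev J x) + (ev J x ⬝ᵥ v) • J)

/-- The coefficient of the divergence of the volume. -/
def Coef.vol (A : Coef) (r : ℝ) : ℝ := A.a + 5 * A.b + r * A.c + r * A.f + A.h

variable {J : Matrix (Fin 4) (Fin 4) ℝ}

namespace IsAxis

variable (hJ : IsAxis J)
include hJ

theorem mul_mulVec (v : Fin 4 → ℝ) : J *ᵥ (J *ᵥ v) = -v := by
  rw [mulVec_mulVec, hJ.sq, neg_mulVec, one_mulVec]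

theorem vec_mul (v : Fin 4 → ℝ) : v ᵥ* J = -(J *ᵥ v) := by
  rw [← mulVec_transpose, hJ.skew, neg_mulVec]

theorem dot_left (v w : Fin 4 → ℝ) : (J *ᵥ v) ⬝ᵥ w = -(v ⬝ᵥ (J *ᵥ w)) := by
  rw [dotProduct_comm v, dotProduct_comm, dotProduct_mulVec, hJ.vec_mul, neg_dotProduct]

theorem dot_self (v : Fin 4 → ℝ) : v ⬝ᵥ (J *ᵥ v) = 0 := by
  have h := hJ.dot_left v v
  rw [dotProduct_comm] at h
  linarith

theorem dot_both (v w : Fin 4 → ℝ) : (J *ᵥ v) ⬝ᵥ (J *ᵥ w) = v ⬝ᵥ w := by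
  rw [hJ.dot_left, hJ.mul_mulVec, dotProduct_neg, neg_neg]

theorem apply_swap (i k : Fin 4) : J k i = -J i k := by
  have h := congrFun (congrFun hJ.skew i) k
  simpa using h

theorem apply_self (i : Fin 4) : J i i = 0 := by
  have h := hJ.apply_swap i i
  linarith

theorem trace_eq : J.trace = 0 := by
  simp [Matrix.trace, hJ.apply_self]

theorem x_dot_ev (x : R4) : ⇑x ⬝ᵥ ev J x = 0 := hJ.dot_self _

theorem ev_dot_x (x : R4) : ev J x ⬝ᵥ ⇑x = 0 := by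
  rw [dotProduct_comm]
  exact hJ.x_dot_ev x

theorem ev_dot_ev (x : R4) : ev J x ⬝ᵥ ev J x = rho x := hJ.dot_both _ _

theorem mulVec_ev (x : R4) : J *ᵥ ev J x = -⇑x := hJ.mul_mulVec _

/-- The trace of the square of a contracted Christoffel symbol. -/
theorem trace_chrM_sq (A : Coef) (x : R4) (v : Fin 4 → ℝ) :
    (chrM J A x v * chrM J A x v).trace =
      2 * rho x * A.a * A.b * (v ⬝ᵥ v) +
      (A.a ^ 2 + 2 * A.a * A.b + 2 * rho x * A.a * A.c + 7 * A.b ^ 2 + 4 * rho x * A.b * A.c +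
        2 * rho x * A.b * A.f + 2 * A.b * A.h + rho x ^ 2 * A.c ^ 2 + rho x ^ 2 * A.f ^ 2 +
        2 * rho x * A.f * A.h + A.h ^ 2) * (⇑x ⬝ᵥ v) ^ 2 +
      (2 * rho x * A.a * A.f + 2 * A.a * A.h + 2 * rho x * A.b * A.d - 4 * A.b * A.h +
        2 * rho x ^ 2 * A.d * A.f + 2 * rho x * A.d * A.h - 4 * rho x * A.f * A.h -
        6 * A.h ^ 2) * (ev J x ⬝ᵥ v) ^ 2 := by
  have h1 : v ⬝ᵥ ⇑x = ⇑x ⬝ᵥ v := dotProduct_comm _ _
  have h2 : v ⬝ᵥ ev J x = ev J x ⬝ᵥ v := dotProduct_comm _ _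
  have h3 : ⇑x ⬝ᵥ (J *ᵥ v) = -(ev J x ⬝ᵥ v) := by
    rw [dotProduct_mulVec, hJ.vec_mul, neg_dotProduct, ev]
  have h4 : ev J x ⬝ᵥ (J *ᵥ v) = ⇑x ⬝ᵥ v := hJ.dot_both _ _
  have h5 : v ⬝ᵥ (J *ᵥ v) = 0 := hJ.dot_self _
  have h6 : (J *ᵥ v) ⬝ᵥ ⇑x = -(ev J x ⬝ᵥ v) := by rw [dotProduct_comm, h3]
  have h7 : (J *ᵥ v) ⬝ᵥ ev J x = ⇑x ⬝ᵥ v := by rw [dotProduct_comm, h4]
  have h8 : (J *ᵥ v) ⬝ᵥ v = 0 := by rw [dotProduct_comm, h5]
  have h9 : J *ᵥ ⇑x = ev J x := rfl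
  have h10 : ⇑x ⬝ᵥ ⇑x = rho x := rfl
  have hl : ∀ u w : Fin 4 → ℝ, J * vecMulVec u w = vecMulVec (J *ᵥ u) w :=
    fun u w => mul_vecMulVec J u w
  have hr : ∀ u w : Fin 4 → ℝ, vecMulVec u w * J = vecMulVec u (w ᵥ* J) :=
    fun u w => vecMulVec_mul u w J
  simp only [chrM, smul_add, add_mul, mul_add, smul_mul_assoc, mul_smul_comm,
    trace_add, trace_smul, smul_eq_mul, vecMulVec_mul_vecMulVec, hl, hr,
    one_mul, mul_one, hJ.vec_mul, hJ.sq, hJ.trace_eq, hJ.mul_mulVec, trace_vecMulVec,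
    trace_one, trace_neg, hJ.x_dot_ev, hJ.ev_dot_x, hJ.ev_dot_ev, hJ.mulVec_ev,
    hJ.dot_both, h1, h2, h3, h4, h5, h6, h7, h8, h9, h10, smul_dotProduct, dotProduct_smul,
    dotProduct_neg, neg_dotProduct, Fintype.card_fin, Nat.cast_ofNat, smul_vecMulVec,
    vecMulVec_smul]
  ring

end IsAxis

/-- Contraction of the Christoffel symbols in both lower indices. -/
theorem sum_chr_vv (A : Coef) (x : R4) (v : Fin 4 → ℝ) (i : Fin 4) :
    ∑ k, ∑ l, chr J A x i k l * v k * v l = chrV J A x v i := by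
  simp only [chr, chrV, dotProduct, Matrix.mulVec, Fin.sum_univ_four]
  fin_cases i <;> simp <;> ring

/-- Contraction of the Christoffel symbols in the middle index. -/
theorem sum_chr_mid (A : Coef) (x : R4) (v : Fin 4 → ℝ) (i a : Fin 4) :
    ∑ k, chr J A x i k a * v k = chrM J A x v i a := by
  simp only [chr, chrM, dotProduct, Matrix.mulVec, Matrix.add_apply, Matrix.smul_apply,
    vecMulVec_apply, Matrix.one_apply, smul_eq_mul, Fin.sum_univ_four]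
  fin_cases i <;> fin_cases a <;> simp <;> ring

theorem chr_comm (A : Coef) (x : R4) (i k l : Fin 4) : chr J A x i k l = chr J A x i l k := by
  rcases eq_or_ne k l with rfl | h
  · rfl
  · simp only [chr, if_neg h, if_neg h.symm]
    ring

/-- The trace of the Christoffel symbols. -/
theorem sum_chr_trace (hJ : IsAxis J) (A : Coef) (x : R4) (l : Fin 4) :
    ∑ i, chr J A x i i l = A.vol (rho x) * x l := by
  have e0 : ∑ i, x i * ev J x i = 0 := hJ.x_dot_ev x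
  have e1 : ∑ i, x i * x i = rho x := rfl
  have e2 : ∑ i, ev J x i * J i l = x l := by
    have h : ev J x ᵥ* J = ⇑x := by rw [hJ.vec_mul, hJ.mulVec_ev, neg_neg]
    exact congrFun h l
  have e3 : ∑ i, (if i = l then (1 : ℝ) else 0) * x i = x l := by simp
  have key : ∀ i, chr J A x i i l =
      A.a * ((if i = l then (1 : ℝ) else 0) * x i) +
      A.b * ((if i = l then (1 : ℝ) else 0) * x i) + A.b * x l + A.c * x l * (x i * x i) +
      A.d * ev J x l * (x i * ev J x i) + A.f * ev J x l * (x i * ev J x i) +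
      A.f * x l * (ev J x i * ev J x i) + A.h * (ev J x i * J i l) := by
    intro i
    simp only [chr, hJ.apply_self, if_pos]
    ring
  rw [sum_congr rfl fun i _ => key i]
  simp only [sum_add_distrib, ← mul_sum, e0, e1, e2, e3, sum_const, card_univ, Fintype.card_fin,
    show ∑ i, ev J x i * ev J x i = rho x from hJ.ev_dot_ev x, Coef.vol]
  ring

end

end Vale.Agent.P225.Geo
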