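import Vale.Agent.P225.Geo.Axis

/-!
P225: Christoffel symbols and Ricci curvature of `q 1 + F x xᵀ + H (J x)(J x)ᵀ`.
-/

namespace Vale.Agent.P225.Geo

open Finset Matrix

noncomputable section

/-- The coefficients of the Christoffel symbols of `form J q F H`. -/
def coef (r q F H qd Fd Hd : ℝ) : Coef where
  a := (F - qd) / (q + r * F)
  b := qd / q
  c := Fd / (q + r * F) + 2 * qd * (-F / (q * (q + r * F)))
  d := -Hd / (q + r * F) - 2 * H * (-F / (q * (q + r * F)))
  f := Hd / (q + r * H) + (qd + H) * (-H / (q * (q + r * H)))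
  h := H / q

/-- The coefficient of the metric in the Ricci tensor. -/
def ricI (r : ℝ) (A A' : Coef) : ℝ :=
  4 * A.a + 2 * r * A'.a + 2 * A.b - 2 * A.h - A.vol r + A.vol r * r * A.a -
    2 * r * A.a * A.b

/-- The radial coefficient of the Ricci tensor; `A'` is the derivative of `A`. -/
def ricX (r : ℝ) (A A' : Coef) : ℝ :=
  4 * A'.b + 2 * r * A'.c + 6 * A.c - 2 * A.f -
    2 * (A'.a + 5 * A'.b + A.c + r * A'.c + A.f + r * A'.f + A'.h) +
    A.vol r * (2 * A.b + r * A.c) -
    (A.a ^ 2 + 2 * A.a * A.b + 2 * r * A.a * A.c + 7 * A.b ^ 2 + 4 * r * A.b * A.c +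
      2 * r * A.b * A.f + 2 * A.b * A.h + r ^ 2 * A.c ^ 2 + r ^ 2 * A.f ^ 2 +
      2 * r * A.f * A.h + A.h ^ 2)

/-- The axial coefficient of the Ricci tensor. -/
def ricE (r : ℝ) (A A' : Coef) : ℝ :=
  2 * r * A'.d + 6 * A.d + 2 * A.f - 4 * A'.h + A.vol r * (r * A.d - 2 * A.h) -
    (2 * r * A.a * A.f + 2 * A.a * A.h + 2 * r * A.b * A.d - 4 * A.b * A.h +
      2 * r ^ 2 * A.d * A.f + 2 * r * A.d * A.h - 4 * r * A.f * A.h - 6 * A.h ^ 2)

/-- Componentwise derivative of the coefficients. -/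
structure Coef.HasDeriv (A : ℝ → Coef) (A' : Coef) (r : ℝ) : Prop where
  ha : HasDerivAt (fun s => (A s).a) A'.a r
  hb : HasDerivAt (fun s => (A s).b) A'.b r
  hc : HasDerivAt (fun s => (A s).c) A'.c r
  hd : HasDerivAt (fun s => (A s).d) A'.d r
  hf : HasDerivAt (fun s => (A s).f) A'.f r
  hh : HasDerivAt (fun s => (A s).h) A'.h r

variable {J : Matrix (Fin 4) (Fin 4) ℝ} {x : R4}

@[fun_prop]
theorem differentiable_coord (i : Fin 4) : Differentiable ℝ fun y : R4 => y i :=
  (EuclideanSpace.proj i : R4 →L[ℝ] ℝ).differentiable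

theorem pd_coord (i j : Fin 4) (x : R4) :
    pd i (fun y => y j) x = if j = i then 1 else 0 := by
  have h : HasFDerivAt (fun y : R4 => y j) (EuclideanSpace.proj j : R4 →L[ℝ] ℝ) x :=
    (EuclideanSpace.proj j : R4 →L[ℝ] ℝ).hasFDerivAt
  rw [pd, h.fderiv]
  simp

theorem pd_add (i : Fin 4) {f g : R4 → ℝ} (hf : DifferentiableAt ℝ f x)
    (hg : DifferentiableAt ℝ g x) : pd i (fun y => f y + g y) x = pd i f x + pd i g x := by
  simp [pd, fderiv_fun_add hf hg]

theorem pd_mul (i : Fin 4) {f g : R4 → ℝ} (hf : DifferentiableAt ℝ f x)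
    (hg : DifferentiableAt ℝ g x) :
    pd i (fun y => f y * g y) x = pd i f x * g x + f x * pd i g x := by
  simp [pd, fderiv_fun_mul hf hg]
  ring

theorem pd_const (i : Fin 4) (c : ℝ) : pd i (fun _ => c) x = 0 := by
  simp [pd]

theorem pd_sum {ι : Type*} (i : Fin 4) (s : Finset ι) {f : ι → R4 → ℝ}
    (hf : ∀ a ∈ s, DifferentiableAt ℝ (f a) x) :
    pd i (fun y => ∑ a ∈ s, f a y) x = ∑ a ∈ s, pd i (f a) x := by
  simp [pd, fderiv_fun_sum hf]

theorem pd_congr (i : Fin 4) {f g : R4 → ℝ} (h : f =ᶠ[nhds x] g) : pd i f x = pd i g x := by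
  rw [pd, pd, h.fderiv_eq]

theorem rho_eq (y : R4) : rho y = ∑ a, y a * y a := rfl

@[fun_prop]
theorem differentiable_rho : Differentiable ℝ rho := by
  unfold rho dotProduct; fun_prop

theorem pd_rho (i : Fin 4) : pd i rho x = 2 * x i := by
  rw [show rho = fun y => ∑ a, y a * y a from funext rho_eq, pd_sum i _ (by fun_prop)]
  simp only [pd_mul i (differentiable_coord _ x) (differentiable_coord _ x), pd_coord, mul_ite,
    ite_mul, one_mul, zero_mul, mul_one, mul_zero, sum_add_distrib, sum_ite_eq', mem_univ, if_true]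
  ring

theorem pd_radial (i : Fin 4) {G : ℝ → ℝ} {G' : ℝ} (hG : HasDerivAt G G' (rho x)) :
    pd i (fun y => G (rho y)) x = 2 * x i * G' := by
  have h : HasFDerivAt (fun y => G (rho y)) (G' • fderiv ℝ rho x) x :=
    hG.comp_hasFDerivAt x (differentiable_rho x).hasFDerivAt
  have h2 := pd_rho (x := x) i
  simp only [pd] at h2 ⊢
  rw [h.fderiv, _root_.smul_apply, h2, smul_eq_mul]
  ring

theorem differentiableAt_radial {G : ℝ → ℝ} {G' : ℝ} (hG : HasDerivAt G G' (rho x)) :
    DifferentiableAt ℝ (fun y => G (rho y)) x :=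
  hG.differentiableAt.comp x (differentiable_rho x)

@[fun_prop]
theorem differentiable_ev (k : Fin 4) : Differentiable ℝ fun y : R4 => ev J y k := by
  unfold ev Matrix.mulVec dotProduct; fun_prop

theorem pd_ev (i k : Fin 4) : pd i (fun y => ev J y k) x = J k i := by
  rw [show (fun y : R4 => ev J y k) = fun y => ∑ a, J k a * y a from rfl, pd_sum i _ (by fun_prop)]
  simp [pd_mul i (differentiableAt_const _) (differentiable_coord _ x), pd_coord, pd_const]

@[fun_prop]
theorem differentiableAt_dotProduct {f g : R4 → Fin 4 → ℝ} (hf : DifferentiableAt ℝ f x)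
    (hg : DifferentiableAt ℝ g x) : DifferentiableAt ℝ (fun y => f y ⬝ᵥ g y) x := by
  have hf' := differentiableAt_pi.mp hf
  have hg' := differentiableAt_pi.mp hg
  unfold dotProduct
  fun_prop

@[fun_prop]
theorem differentiableAt_ofLp : DifferentiableAt ℝ (fun y : R4 => ⇑y) x :=
  differentiableAt_pi.mpr fun i => differentiable_coord i x

@[fun_prop]
theorem differentiableAt_ev : DifferentiableAt ℝ (fun y : R4 => ev J y) x :=
  differentiableAt_pi.mpr fun i => differentiable_ev i x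

theorem pd_dot (i : Fin 4) (v : Fin 4 → ℝ) : pd i (fun y => ⇑y ⬝ᵥ v) x = v i := by
  rw [show (fun y : R4 => ⇑y ⬝ᵥ v) = fun y => ∑ a, y a * v a from rfl, pd_sum i _ (by fun_prop)]
  simp [pd_mul i (differentiable_coord _ x) (differentiableAt_const _), pd_coord, pd_const]

theorem pd_ev_dot (hJ : IsAxis J) (i : Fin 4) (v : Fin 4 → ℝ) :
    pd i (fun y => ev J y ⬝ᵥ v) x = -(J *ᵥ v) i := by
  rw [show (fun y : R4 => ev J y ⬝ᵥ v) = fun y => ∑ a, ev J y a * v a from rfl,
    pd_sum i _ (by fun_prop)]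
  simp [pd_mul i (differentiable_ev _ x) (differentiableAt_const _), pd_ev, pd_const,
    Matrix.mulVec, dotProduct, ← sum_neg_distrib, hJ.apply_swap i]

/-- The divergence of the Christoffel symbols. -/
theorem sum_pd_chrV (hJ : IsAxis J) {A : ℝ → Coef} {A' : Coef}
    (hA : Coef.HasDeriv A A' (rho x)) (v : Fin 4 → ℝ) :
    ∑ i, pd i (fun y => chrV J (A (rho y)) y v i) x =
      (4 * (A (rho x)).a + 2 * rho x * A'.a + 2 * (A (rho x)).b - 2 * (A (rho x)).h) * (v ⬝ᵥ v) +
      (4 * A'.b + 2 * rho x * A'.c + 6 * (A (rho x)).c - 2 * (A (rho x)).f) * (⇑x ⬝ᵥ v) ^ 2 +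
      (2 * rho x * A'.d + 6 * (A (rho x)).d + 2 * (A (rho x)).f - 4 * A'.h) *
        (ev J x ⬝ᵥ v) ^ 2 := by
  have hea := differentiableAt_radial hA.ha
  have heb := differentiableAt_radial hA.hb
  have hec := differentiableAt_radial hA.hc
  have hed := differentiableAt_radial hA.hd
  have hef := differentiableAt_radial hA.hf
  have heh := differentiableAt_radial hA.hh
  have key : ∀ i, pd i (fun y => chrV J (A (rho y)) y v i) x =
      (2 * A'.a * (v ⬝ᵥ v)) * (x i * x i) + (A (rho x)).a * (v ⬝ᵥ v) +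
      (4 * A'.b * (⇑x ⬝ᵥ v)) * (x i * v i) + 2 * (A (rho x)).b * (v i * v i) +
      (2 * A'.c * (⇑x ⬝ᵥ v) ^ 2) * (x i * x i) + (A (rho x)).c * (⇑x ⬝ᵥ v) ^ 2 +
      (2 * (A (rho x)).c * (⇑x ⬝ᵥ v)) * (x i * v i) +
      (2 * A'.d * (ev J x ⬝ᵥ v) ^ 2) * (x i * x i) + (A (rho x)).d * (ev J x ⬝ᵥ v) ^ 2 -
      (2 * (A (rho x)).d * (ev J x ⬝ᵥ v)) * (x i * (J *ᵥ v) i) +
      (4 * A'.f * ((⇑x ⬝ᵥ v) * (ev J x ⬝ᵥ v))) * (x i * ev J x i) +
      2 * (A (rho x)).f * (ev J x ⬝ᵥ v) * (ev J x i * v i) -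
      2 * (A (rho x)).f * (⇑x ⬝ᵥ v) * (ev J x i * (J *ᵥ v) i) +
      (4 * A'.h * (ev J x ⬝ᵥ v)) * (x i * (J *ᵥ v) i) -
      2 * (A (rho x)).h * ((J *ᵥ v) i * (J *ᵥ v) i) := by
    intro i
    simp (disch := fun_prop) only [chrV, sq, pd_add, pd_mul, pd_const, pd_coord, pd_ev,
      pd_dot, pd_ev_dot hJ, pd_radial i hA.ha, pd_radial i hA.hb, pd_radial i hA.hc,
      pd_radial i hA.hd, pd_radial i hA.hf, pd_radial i hA.hh, if_true, hJ.apply_self]
    ring
  have e0 : ∑ i, x i * ev J x i = 0 := hJ.x_dot_ev x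
  have e1 : ∑ i, x i * x i = rho x := rfl
  have e2 : ∑ i, v i * v i = v ⬝ᵥ v := rfl
  have e3 : ∑ i, x i * v i = ⇑x ⬝ᵥ v := rfl
  have e4 : ∑ i, x i * (J *ᵥ v) i = -(ev J x ⬝ᵥ v) := by
    change ⇑x ⬝ᵥ (J *ᵥ v) = _
    rw [ev, hJ.dot_left, neg_neg]
  have e5 : ∑ i, ev J x i * v i = ev J x ⬝ᵥ v := rfl
  have e6 : ∑ i, ev J x i * (J *ᵥ v) i = ⇑x ⬝ᵥ v := hJ.dot_both _ _
  have e7 : ∑ i, (J *ᵥ v) i * (J *ᵥ v) i = v ⬝ᵥ v := hJ.dot_both _ _
  rw [sum_congr rfl fun i _ => key i]
  simp only [sum_add_distrib, sum_sub_distrib, ← mul_sum, e0, e1, e2, e3, e4, e5, e6, e7,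
    sum_const, card_univ, Fintype.card_fin]
  ring

/-- Ricci curvature from closed Christoffel symbols. -/
theorem ricci_of_chr (hJ : IsAxis J) {g : R4 → Matrix (Fin 4) (Fin 4) ℝ} {A : ℝ → Coef}
    {A' : Coef} (hA : Coef.HasDeriv A A' (rho x))
    (hg : ∀ i k l, (fun y => christoffel g i k l y) =ᶠ[nhds x] fun y => chr J (A (rho y)) y i k l)
    (v : Fin 4 → ℝ) :
    ∑ k, ∑ l, ricci g x k l * v k * v l =
      ricI (rho x) (A (rho x)) A' * (v ⬝ᵥ v) +
      ricX (rho x) (A (rho x)) A' * (⇑x ⬝ᵥ v) ^ 2 +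
      ricE (rho x) (A (rho x)) A' * (ev J x ⬝ᵥ v) ^ 2 := by
  have hea := differentiableAt_radial hA.ha
  have heb := differentiableAt_radial hA.hb
  have hec := differentiableAt_radial hA.hc
  have hed := differentiableAt_radial hA.hd
  have hef := differentiableAt_radial hA.hf
  have heh := differentiableAt_radial hA.hh
  have hd : ∀ i k l, DifferentiableAt ℝ (fun y => chr J (A (rho y)) y i k l) x := by
    intro i k l
    unfold chr
    fun_prop
  have hv : ∀ i k l, christoffel g i k l x = chr J (A (rho x)) x i k l :=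
    fun i k l => (hg i k l).eq_of_nhds
  have hp : ∀ j i k l, pd j (christoffel g i k l) x =
      pd j (fun y => chr J (A (rho y)) y i k l) x := fun j i k l => pd_congr j (hg i k l)
  -- the four contractions
  have T1 : ∑ i, ∑ k, ∑ l, pd i (fun y => chr J (A (rho y)) y i k l) x * v k * v l =
      ∑ i, pd i (fun y => chrV J (A (rho y)) y v i) x := by
    refine sum_congr rfl fun i _ => ?_
    simp only [← sum_chr_vv]
    rw [pd_sum i _ (by fun_prop)]
    refine sum_congr rfl fun k _ => ?_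
    rw [pd_sum i _ (by fun_prop)]
    refine sum_congr rfl fun l _ => ?_
    simp (disch := fun_prop) [pd_mul, pd_const]
  have hvol : HasDerivAt (fun s => (A s).vol s) (A'.a + 5 * A'.b + (A (rho x)).c + rho x * A'.c +
      (A (rho x)).f + rho x * A'.f + A'.h) (rho x) := by
    have h := (((hA.ha.add (hA.hb.const_mul 5)).add ((hasDerivAt_id' (rho x)).mul hA.hc)).add
      ((hasDerivAt_id' (rho x)).mul hA.hf)).add hA.hh
    exact h.congr_deriv (by ring)
  have hev := differentiableAt_radial hvol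
  have T2 : ∀ k l, ∑ i, pd k (fun y => chr J (A (rho y)) y i i l) x =
      2 * x k * (A'.a + 5 * A'.b + (A (rho x)).c + rho x * A'.c + (A (rho x)).f + rho x * A'.f +
        A'.h) * x l + (A (rho x)).vol (rho x) * (if l = k then 1 else 0) := by
    intro k l
    rw [← pd_sum k _ fun i _ => hd i i l]
    simp only [sum_chr_trace hJ]
    rw [pd_mul k hev (differentiable_coord l x), pd_radial k hvol, pd_coord]
  have T3 : ∀ k l, ∑ i, ∑ a, chr J (A (rho x)) x i i a * chr J (A (rho x)) x a k l =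
      (A (rho x)).vol (rho x) * ∑ a, x a * chr J (A (rho x)) x a k l := by
    intro k l
    rw [sum_comm, mul_sum]
    refine sum_congr rfl fun a _ => ?_
    rw [← sum_mul, sum_chr_trace hJ]
    ring
  have T4 : ∑ k, ∑ l, (∑ i, ∑ a, chr J (A (rho x)) x i k a * chr J (A (rho x)) x a i l) *
      v k * v l = (chrM J (A (rho x)) x v * chrM J (A (rho x)) x v).trace := by
    simp only [Matrix.trace, Matrix.diag_apply, Matrix.mul_apply, ← sum_chr_mid, sum_mul]
    simp only [chr_comm (J := J) (A (rho x)) x _ _ _, mul_sum]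
    rw [sum_congr rfl fun k _ => sum_comm, sum_comm]
    refine sum_congr rfl fun i _ => ?_
    rw [sum_congr rfl fun k _ => sum_comm, sum_comm]
    refine sum_congr rfl fun a _ => sum_congr rfl fun k _ => sum_congr rfl fun l _ => ?_
    rw [chr_comm (A (rho x)) x a i l, chr_comm (A (rho x)) x i k a]
    ring
  have T5 : ∑ k, ∑ l, (∑ a, x a * chr J (A (rho x)) x a k l) * v k * v l =
      ∑ a, x a * chrV J (A (rho x)) x v a := by
    simp only [← sum_chr_vv, mul_sum, sum_mul]
    rw [sum_congr rfl fun k _ => sum_comm, sum_comm]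
    exact sum_congr rfl fun a _ => sum_congr rfl fun k _ => sum_congr rfl fun l _ => by ring
  have T6 : ∑ a, x a * chrV J (A (rho x)) x v a =
      rho x * (A (rho x)).a * (v ⬝ᵥ v) +
      (2 * (A (rho x)).b + rho x * (A (rho x)).c) * (⇑x ⬝ᵥ v) ^ 2 +
      (rho x * (A (rho x)).d - 2 * (A (rho x)).h) * (ev J x ⬝ᵥ v) ^ 2 := by
    have e0 : ∑ i, x i * ev J x i = 0 := hJ.x_dot_ev x
    have e1 : ∑ i, x i * x i = rho x := rfl
    have e3 : ∑ i, x i * v i = ⇑x ⬝ᵥ v := rfl
    have e4 : ∑ i, x i * (J *ᵥ v) i = -(ev J x ⬝ᵥ v) := by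
      change ⇑x ⬝ᵥ (J *ᵥ v) = _
      rw [ev, hJ.dot_left, neg_neg]
    have key : ∀ a, x a * chrV J (A (rho x)) x v a =
        ((A (rho x)).a * (v ⬝ᵥ v) + (A (rho x)).c * (⇑x ⬝ᵥ v) ^ 2 +
          (A (rho x)).d * (ev J x ⬝ᵥ v) ^ 2) * (x a * x a) +
        (2 * (A (rho x)).b * (⇑x ⬝ᵥ v)) * (x a * v a) +
        (2 * (A (rho x)).f * ((⇑x ⬝ᵥ v) * (ev J x ⬝ᵥ v))) * (x a * ev J x a) +
        (2 * (A (rho x)).h * (ev J x ⬝ᵥ v)) * (x a * (J *ᵥ v) a) := by
      intro a; simp only [chrV]; ring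
    rw [sum_congr rfl fun a _ => key a]
    simp only [sum_add_distrib, ← mul_sum, e0, e1, e3, e4]
    ring
  have T7 : ∑ k, ∑ l, (2 * x k * (A'.a + 5 * A'.b + (A (rho x)).c + rho x * A'.c +
      (A (rho x)).f + rho x * A'.f + A'.h) * x l +
      (A (rho x)).vol (rho x) * (if l = k then 1 else 0)) * v k * v l =
      2 * (A'.a + 5 * A'.b + (A (rho x)).c + rho x * A'.c + (A (rho x)).f + rho x * A'.f +
        A'.h) * (⇑x ⬝ᵥ v) ^ 2 + (A (rho x)).vol (rho x) * (v ⬝ᵥ v) := by
    simp only [dotProduct, Fin.sum_univ_four]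
    simp
    ring
  have main : ∀ k l, ricci g x k l * v k * v l =
      (∑ i, pd i (fun y => chr J (A (rho y)) y i k l) x * v k * v l) -
      (∑ i, pd k (fun y => chr J (A (rho y)) y i i l) x) * v k * v l +
      ((∑ i, ∑ a, chr J (A (rho x)) x i i a * chr J (A (rho x)) x a k l) * v k * v l -
      (∑ i, ∑ a, chr J (A (rho x)) x i k a * chr J (A (rho x)) x a i l) * v k * v l) := by
    intro k l
    simp only [ricci, hp, hv, sum_sub_distrib, sub_mul, add_mul, sum_mul]
  simp only [main, T2, T3, sum_sub_distrib, sum_add_distrib]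
  rw [sum_congr rfl fun k _ => sum_comm (s := univ) (t := univ)
      (f := fun l i => pd i (fun y => chr J (A (rho y)) y i k l) x * v k * v l), sum_comm, T1,
    sum_pd_chrV hJ hA, T7, T4, hJ.trace_chrM_sq]
  simp only [mul_assoc ((A (rho x)).vol (rho x)), ← mul_sum]
  rw [T5, T6]
  simp only [ricI, ricX, ricE]
  ring

/-- The Christoffel symbols of the tensor `form J q F H`. -/
theorem christoffel_form (hJ : IsAxis J) {g : R4 → Matrix (Fin 4) (Fin 4) ℝ} {q F H : ℝ → ℝ}
    {qd Fd Hd : ℝ} (hg : g =ᶠ[nhds x] fun y => form J (q (rho y)) (F (rho y)) (H (rho y)) y)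
    (hq : HasDerivAt q qd (rho x)) (hF : HasDerivAt F Fd (rho x))
    (hH : HasDerivAt H Hd (rho x)) (h0 : q (rho x) ≠ 0)
    (hP : q (rho x) + rho x * F (rho x) ≠ 0) (hS : q (rho x) + rho x * H (rho x) ≠ 0)
    (i k l : Fin 4) :
    christoffel g i k l x =
      chr J (coef (rho x) (q (rho x)) (F (rho x)) (H (rho x)) qd Fd Hd) x i k l := by
  have h1 := differentiableAt_radial hq
  have h2 := differentiableAt_radial hF
  have h3 := differentiableAt_radial hH
  have hq' := hq.differentiableAt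
  have hF' := hF.differentiableAt
  have hH' := hH.differentiableAt
  have hP' : q (rho x) + F (rho x) * rho x ≠ 0 := by rwa [mul_comm]
  have hS' : q (rho x) + H (rho x) * rho x ≠ 0 := by rwa [mul_comm]
  have hd : ∀ m a b, pd m (fun y => g y a b) x =
      2 * x m * qd * (if a = b then 1 else 0) + 2 * x m * Fd * (x a * x b) +
      F (rho x) * ((if a = m then 1 else 0) * x b + x a * (if b = m then 1 else 0)) +
      2 * x m * Hd * (ev J x a * ev J x b) +
      H (rho x) * (J a m * ev J x b + ev J x a * J b m) := by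
    intro m a b
    rw [pd_congr m (show (fun y => g y a b) =ᶠ[nhds x]
      fun y => form J (q (rho y)) (F (rho y)) (H (rho y)) y a b from
      hg.mono fun y hy => congrFun (congrFun hy a) b)]
    simp only [form_apply]
    rw [pd_add m, pd_add m, pd_mul m, pd_mul m, pd_mul m, pd_mul m, pd_mul m, pd_radial m hq, pd_radial m hF,
      pd_radial m hH, pd_const, pd_coord, pd_coord, pd_ev, pd_ev]
    all_goals try fun_prop
    ring
  have hinv : (g x)⁻¹ = form J (1 / q (rho x))
      (-F (rho x) / (q (rho x) * (q (rho x) + rho x * F (rho x))))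
      (-H (rho x) / (q (rho x) * (q (rho x) + rho x * H (rho x)))) x := by
    rw [hg.eq_of_nhds]
    apply Matrix.inv_eq_right_inv
    simp only [form, mul_add, add_mul, smul_mul_assoc, mul_smul_comm, one_mul, mul_one,
      vecMulVec_mul_vecMulVec, smul_smul, hJ.x_dot_ev, hJ.ev_dot_x, hJ.ev_dot_ev,
      show ⇑x ⬝ᵥ ⇑x = rho x from rfl, zero_smul, smul_zero, vecMulVec_zero, zero_vecMulVec,
      smul_vecMulVec, vecMulVec_smul]
    ext a b
    simp only [Matrix.add_apply, Matrix.smul_apply, vecMulVec_apply, Matrix.one_apply,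
      smul_eq_mul, Matrix.zero_apply, Pi.zero_apply, add_zero, mul_zero, zero_add, zero_mul]
    field_simp
    ring
  -- the lowered symbols are combinations of six vectors
  have low : ∀ a, pd k (fun y => g y a l) x + pd l (fun y => g y a k) x -
      pd a (fun y => g y k l) x =
      2 * ((F (rho x) - qd) * (if k = l then 1 else 0) + Fd * (x k * x l) -
          Hd * (ev J x k * ev J x l)) * x a +
      2 * (qd * x k) * (if a = l then 1 else 0) + 2 * (qd * x l) * (if a = k then 1 else 0) +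
      2 * (Hd * (x k * ev J x l + x l * ev J x k)) * ev J x a +
      2 * (H (rho x) * ev J x l) * J a k + 2 * (H (rho x) * ev J x k) * J a l := by
    intro a
    rw [hd, hd, hd, hJ.apply_swap a k, hJ.apply_swap a l]
    rcases eq_or_ne k l with rfl | h
    · rcases eq_or_ne a k with rfl | h'
      · simp [hJ.apply_self]; ring
      · simp [h', h'.symm, hJ.apply_self]; ring
    · rw [hJ.apply_swap k l]
      simp only [if_neg h, if_neg h.symm, @eq_comm _ k a, @eq_comm _ l a]
      ring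
  set G := form J (1 / q (rho x))
      (-F (rho x) / (q (rho x) * (q (rho x) + rho x * F (rho x))))
      (-H (rho x) / (q (rho x) * (q (rho x) + rho x * H (rho x)))) x with hG
  set cF := -F (rho x) / (q (rho x) * (q (rho x) + rho x * F (rho x))) with hcF
  set cH := -H (rho x) / (q (rho x) * (q (rho x) + rho x * H (rho x))) with hcH
  have hrow : ∀ w : Fin 4 → ℝ, ∑ a, G i a * w a =
      1 / q (rho x) * w i + cF * x i * (⇑x ⬝ᵥ w) + cH * ev J x i * (ev J x ⬝ᵥ w) := by
    intro w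
    simp only [hG, form_apply, dotProduct, mul_sum, ← sum_add_distrib]
    rw [show (1 / q (rho x) * w i) = ∑ a, if i = a then 1 / q (rho x) * w a else 0 by simp,
      ← sum_add_distrib, ← sum_add_distrib]
    refine sum_congr rfl fun a _ => ?_
    split_ifs <;> ring
  have wx : ∑ a, G i a * x a = (1 / q (rho x) + cF * rho x) * x i := by
    rw [hrow, hJ.ev_dot_x, show ⇑x ⬝ᵥ ⇑x = rho x from rfl]; ring
  have we : ∑ a, G i a * ev J x a = (1 / q (rho x) + cH * rho x) * ev J x i := by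
    rw [hrow, hJ.x_dot_ev, hJ.ev_dot_ev]; ring
  have wd : ∀ m, ∑ a, G i a * (if a = m then 1 else 0) =
      1 / q (rho x) * (if i = m then 1 else 0) + cF * (x i * x m) +
        cH * (ev J x i * ev J x m) := by
    intro m
    simp [hG, form_apply]
  have wJ : ∀ m, ∑ a, G i a * J a m =
      1 / q (rho x) * J i m - cF * (x i * ev J x m) + cH * (ev J x i * x m) := by
    intro m
    rw [hrow]
    have j1 : ⇑x ⬝ᵥ (fun a => J a m) = -ev J x m := congrFun (hJ.vec_mul ⇑x) m
    have j2 : ev J x ⬝ᵥ (fun a => J a m) = x m := by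
      have h : ev J x ᵥ* J = ⇑x := by rw [hJ.vec_mul, hJ.mulVec_ev, neg_neg]
      exact congrFun h m
    rw [j1, j2]; ring
  have e : ∀ (a : Fin 4) (S z : ℝ), G i a * (S * z) = S * (G i a * z) := fun a S z => by ring
  rw [christoffel, hinv]
  simp only [low, mul_add, e, sum_add_distrib, ← mul_sum, wx, we, wd, wJ]
  simp only [chr, coef, hcF, hcH]
  field_simp
  ring

end

end Vale.Agent.P225.Geo
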