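import Vale.Agent.P225.Defs

/-!
P225: global facts about metrics on `ℝ⁴` in coordinates.

* a metric bounded below by a positive multiple of the Euclidean one is complete, and Euclidean
  polynomial growth implies polynomial growth in the Riemannian distance;
* the metric `√(det A) • A⁻¹` of a positive flux matrix `A` satisfies `√(det g) g⁻¹ = A`, so that its
  Laplace equation is the divergence equation `∂_i (A_ik ∂_k u) = 0`.
-/

namespace Vale.Agent.P225

open scoped ContDiff
open Filter Topology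

noncomputable section

/-- The quadratic form of a coefficient matrix. -/
def quad (g : Matrix (Fin 4) (Fin 4) ℝ) (v : Fin 4 → ℝ) : ℝ := ∑ i, ∑ k, g i k * v i * v k

lemma quad_eq_dotProduct (g : Matrix (Fin 4) (Fin 4) ℝ) (v : Fin 4 → ℝ) :
    quad g v = dotProduct v (g.mulVec v) := by
  simp only [quad, dotProduct, Matrix.mulVec, Finset.mul_sum]
  exact Finset.sum_congr rfl fun i _ => Finset.sum_congr rfl fun k _ => by ring

lemma sum_sq_eq_norm_sq (v : R4) : ∑ i, v i ^ 2 = ‖v‖ ^ 2 :=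
  (EuclideanSpace.real_norm_sq_eq v).symm

/-- The speed integrand of `curveLength`. -/
lemma curveLength_eq (g : R4 → Matrix (Fin 4) (Fin 4) ℝ) (γ : ℝ → R4) :
    curveLength g γ = ∫ t in (0 : ℝ)..1, Real.sqrt (quad (g (γ t)) fun i => deriv γ t i) :=
  rfl

section LowerBound

variable {g : R4 → Matrix (Fin 4) (Fin 4) ℝ} {c : ℝ}

lemma speed_continuous (hg : IsMetric g) {γ : ℝ → R4} (hγ : ContDiff ℝ 1 γ) :
    Continuous fun t => Real.sqrt (quad (g (γ t)) fun i => deriv γ t i) := by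
  have hd : ∀ i, Continuous fun t => deriv γ t i := fun i =>
    (PiLp.continuous_apply 2 (fun _ : Fin 4 => ℝ) i).comp (hγ.continuous_deriv le_rfl)
  refine Real.continuous_sqrt.comp ?_
  unfold quad
  exact continuous_finsetSum _ fun i _ => continuous_finsetSum _ fun k _ =>
    (((hg.smooth i k).continuous.comp hγ.continuous).mul (hd i)).mul (hd k)

lemma mul_norm_sub_le_curveLength (hg : IsMetric g) (hc : 0 ≤ c)
    (hlow : ∀ x (v : Fin 4 → ℝ), c * ∑ i, v i ^ 2 ≤ quad (g x) v)
    {γ : ℝ → R4} (hγ : ContDiff ℝ 1 γ) :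
    Real.sqrt c * ‖γ 1 - γ 0‖ ≤ curveLength g γ := by
  have hd : Continuous (deriv γ) := hγ.continuous_deriv le_rfl
  have h1 : γ 1 - γ 0 = ∫ t in (0 : ℝ)..1, deriv γ t :=
    (intervalIntegral.integral_deriv_eq_sub
      (fun x _ => (hγ.differentiable one_ne_zero) x) (hd.intervalIntegrable 0 1)).symm
  rw [h1, curveLength_eq]
  calc Real.sqrt c * ‖∫ t in (0 : ℝ)..1, deriv γ t‖
      ≤ Real.sqrt c * ∫ t in (0 : ℝ)..1, ‖deriv γ t‖ :=
        mul_le_mul_of_nonneg_left
          (intervalIntegral.norm_integral_le_integral_norm zero_le_one) (Real.sqrt_nonneg _)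
    _ = ∫ t in (0 : ℝ)..1, Real.sqrt c * ‖deriv γ t‖ :=
        (intervalIntegral.integral_const_mul _ _).symm
    _ ≤ _ := by
        refine intervalIntegral.integral_mono_on zero_le_one
          ((continuous_const.mul hd.norm).intervalIntegrable _ _)
          ((speed_continuous hg hγ).intervalIntegrable _ _) fun t _ => ?_
        have h := hlow (γ t) fun i => deriv γ t i
        rw [sum_sq_eq_norm_sq] at h
        calc Real.sqrt c * ‖deriv γ t‖ = Real.sqrt (c * ‖deriv γ t‖ ^ 2) := by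
              rw [Real.sqrt_mul hc, Real.sqrt_sq (norm_nonneg _)]
          _ ≤ _ := Real.sqrt_le_sqrt h

/-- The straight segment from `x` to `y`. -/
def segmentCurve (x y : R4) (t : ℝ) : R4 := x + t • (y - x)

lemma segmentCurve_contDiff (x y : R4) : ContDiff ℝ 1 (segmentCurve x y) :=
  contDiff_const.add (contDiff_id.smul contDiff_const)

lemma deriv_segmentCurve (x y : R4) (t : ℝ) : deriv (segmentCurve x y) t = y - x := by
  have h := ((hasDerivAt_id t).smul_const (y - x)).const_add x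
  rw [one_smul] at h
  exact h.deriv

/-- The lengths whose infimum is `dist`. -/
def lengths (g : R4 → Matrix (Fin 4) (Fin 4) ℝ) (x y : R4) : Set ℝ :=
  {L | ∃ γ : ℝ → R4, ContDiff ℝ 1 γ ∧ γ 0 = x ∧ γ 1 = y ∧ L = curveLength g γ}

lemma segment_mem_lengths (g : R4 → Matrix (Fin 4) (Fin 4) ℝ) (x y : R4) :
    curveLength g (segmentCurve x y) ∈ lengths g x y :=
  ⟨segmentCurve x y, segmentCurve_contDiff x y, by simp [segmentCurve],
    by simp [segmentCurve], rfl⟩

lemma lengths_bddBelow (g : R4 → Matrix (Fin 4) (Fin 4) ℝ) (x y : R4) :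
    BddBelow (lengths g x y) := by
  refine ⟨0, ?_⟩
  rintro L ⟨γ, _, _, _, rfl⟩
  exact intervalIntegral.integral_nonneg zero_le_one fun t _ => Real.sqrt_nonneg _

lemma dist_le_segment (g : R4 → Matrix (Fin 4) (Fin 4) ℝ) (x y : R4) :
    dist g x y ≤ curveLength g (segmentCurve x y) :=
  csInf_le (lengths_bddBelow g x y) (segment_mem_lengths g x y)

/-- A uniform lower bound on the metric bounds the distance below. -/
theorem sqrt_mul_norm_sub_le_dist (hg : IsMetric g) (hc : 0 ≤ c)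
    (hlow : ∀ x (v : Fin 4 → ℝ), c * ∑ i, v i ^ 2 ≤ quad (g x) v) (x y : R4) :
    Real.sqrt c * ‖x - y‖ ≤ dist g x y := by
  refine le_csInf ⟨_, segment_mem_lengths g x y⟩ ?_
  rintro L ⟨γ, hγ, h0, h1, rfl⟩
  have h := mul_norm_sub_le_curveLength hg hc hlow hγ
  rwa [h0, h1, norm_sub_rev] at h

lemma quad_le_of_entry_le (G : Matrix (Fin 4) (Fin 4) ℝ) {K : ℝ} (hK : ∀ i k, |G i k| ≤ K)
    (v : R4) : quad G (fun i => v i) ≤ 16 * K * ‖v‖ ^ 2 := by
  have hv : ∀ i, |v i| ≤ ‖v‖ := fun i => (Real.norm_eq_abs _).symm.trans_le (PiLp.norm_apply_le v i)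
  have hterm : ∀ i k, G i k * v i * v k ≤ K * ‖v‖ ^ 2 := fun i k => by
    refine (le_abs_self _).trans ?_
    have hK0 : 0 ≤ K := (abs_nonneg _).trans (hK i k)
    rw [abs_mul, abs_mul, sq, ← mul_assoc]
    gcongr
    · exact hK i k
    · exact hv i
    · exact hv k
  calc quad G (fun i => v i) ≤ ∑ _i : Fin 4, ∑ _k : Fin 4, K * ‖v‖ ^ 2 :=
        Finset.sum_le_sum fun i _ => Finset.sum_le_sum fun k _ => hterm i k
    _ = 16 * K * ‖v‖ ^ 2 := by simp; ring

/-- Locally the distance is bounded by a multiple of the Euclidean one. -/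
lemma exists_dist_le_mul_norm (hg : IsMetric g) (a : R4) :
    ∃ K : ℝ, 0 ≤ K ∧ ∀ x, ‖x - a‖ ≤ 1 → dist g x a ≤ K * ‖x - a‖ := by
  have hb : ∀ i k, ∃ K, ∀ x ∈ Metric.closedBall a 1, |g x i k| ≤ K := fun i k => by
    obtain ⟨K, hK⟩ := (isCompact_closedBall a (1 : ℝ)).exists_bound_of_continuousOn
      (hg.smooth i k).continuous.continuousOn
    exact ⟨K, fun x hx => (Real.norm_eq_abs _).symm.trans_le (hK x hx)⟩
  choose K hK using hb
  obtain ⟨K0, hK0⟩ : ∃ K0, ∀ i k, K i k ≤ K0 :=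
    ⟨∑ i, ∑ k, |K i k|, fun i k => (le_abs_self _).trans
      ((Finset.single_le_sum (f := fun k => |K i k|) (fun j _ => abs_nonneg _)
        (Finset.mem_univ k)).trans (Finset.single_le_sum (f := fun i => ∑ k, |K i k|)
          (fun j _ => Finset.sum_nonneg fun l _ => abs_nonneg _) (Finset.mem_univ i)))⟩
  refine ⟨Real.sqrt (16 * K0), Real.sqrt_nonneg _, fun x hx => ?_⟩
  refine (dist_le_segment g x a).trans ?_
  have hball : ∀ t ∈ Set.Icc (0 : ℝ) 1, segmentCurve x a t ∈ Metric.closedBall a 1 := by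
    intro t ht
    have : segmentCurve x a t - a = (1 - t) • (x - a) := by
      simp [segmentCurve, sub_smul, smul_sub]; abel
    rw [Metric.mem_closedBall, dist_eq_norm, this, norm_smul, Real.norm_eq_abs,
      abs_of_nonneg (by linarith [ht.2])]
    exact mul_le_one₀ (by linarith [ht.1]) (norm_nonneg _) hx
  have hK00 : 0 ≤ K0 := by
    have h := hK 0 0 a (Metric.mem_closedBall_self zero_le_one)
    exact le_trans (le_trans (abs_nonneg _) h) (hK0 0 0)
  rw [curveLength_eq]
  calc _ ≤ ∫ _t in (0 : ℝ)..1, Real.sqrt (16 * K0) * ‖x - a‖ := by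
        refine intervalIntegral.integral_mono_on zero_le_one
          ((speed_continuous hg (segmentCurve_contDiff x a)).intervalIntegrable _ _)
          intervalIntegrable_const fun t ht => ?_
        rw [deriv_segmentCurve]
        refine (Real.sqrt_le_sqrt (quad_le_of_entry_le _
          (fun i k => (hK i k _ (hball t ht)).trans (hK0 i k)) (a - x))).trans_eq ?_
        rw [Real.sqrt_mul (by positivity), Real.sqrt_sq (norm_nonneg _), norm_sub_rev]
    _ = _ := by simp

/-- A metric with a positive uniform lower bound is complete. -/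
theorem isComplete_of_lower (hg : IsMetric g) (hc : 0 < c)
    (hlow : ∀ x (v : Fin 4 → ℝ), c * ∑ i, v i ^ 2 ≤ quad (g x) v) : IsComplete g := by
  intro x hx
  have hs : 0 < Real.sqrt c := Real.sqrt_pos.2 hc
  have hcau : CauchySeq x := by
    refine Metric.cauchySeq_iff.2 fun ε hε => ?_
    obtain ⟨N, hN⟩ := hx (Real.sqrt c * ε) (by positivity)
    refine ⟨N, fun m hm n hn => ?_⟩
    rw [dist_eq_norm]
    exact lt_of_mul_lt_mul_left
      ((sqrt_mul_norm_sub_le_dist hg hc.le hlow _ _).trans_lt (hN m hm n hn)) hs.le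
  obtain ⟨a, ha⟩ := cauchySeq_tendsto_of_complete hcau
  obtain ⟨K, hK0, hK⟩ := exists_dist_le_mul_norm hg a
  refine ⟨a, fun ε hε => ?_⟩
  obtain ⟨N, hN⟩ := Metric.tendsto_atTop.1 ha (min 1 (ε / (K + 1))) (by positivity)
  refine ⟨N, fun n hn => ?_⟩
  have h := hN n hn
  rw [dist_eq_norm] at h
  have h1 : ‖x n - a‖ ≤ 1 := h.le.trans (min_le_left _ _)
  have h2 : ‖x n - a‖ < ε / (K + 1) := h.trans_le (min_le_right _ _)
  rw [lt_div_iff₀ (by positivity)] at h2
  nlinarith [hK (x n) h1, norm_nonneg (x n - a)]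

/-- Euclidean polynomial growth gives polynomial growth in the distance. -/
theorem growth_of_norm_growth (hg : IsMetric g) (hc : 0 < c)
    (hlow : ∀ x (v : Fin 4 → ℝ), c * ∑ i, v i ^ 2 ≤ quad (g x) v)
    {k : ℕ} {u : R4 → ℝ} {C : ℝ} (hu : ∀ x, |u x| ≤ C * (1 + ‖x‖) ^ k) :
    ∃ C' : ℝ, ∀ x, |u x| ≤ C' * (1 + dist g 0 x) ^ k := by
  have hs : 0 < Real.sqrt c := Real.sqrt_pos.2 hc
  have hC : 0 ≤ C := by
    have h := hu 0
    simp only [norm_zero, add_zero, one_pow, mul_one] at h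
    exact (abs_nonneg _).trans h
  refine ⟨C * (1 + (Real.sqrt c)⁻¹) ^ k, fun x => ?_⟩
  have hd : Real.sqrt c * ‖x‖ ≤ dist g 0 x := by
    simpa using sqrt_mul_norm_sub_le_dist hg hc.le hlow 0 x
  have hd0 : 0 ≤ dist g 0 x := le_trans (by positivity) hd
  have hx : ‖x‖ ≤ dist g 0 x * (Real.sqrt c)⁻¹ := by
    rw [← div_eq_mul_inv, le_div_iff₀ hs]; linarith
  have hinv : 0 < (Real.sqrt c)⁻¹ := inv_pos.2 hs
  calc |u x| ≤ C * (1 + ‖x‖) ^ k := hu x
    _ ≤ C * ((1 + (Real.sqrt c)⁻¹) * (1 + dist g 0 x)) ^ k := by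
        gcongr
        nlinarith [mul_nonneg hinv.le hd0]
    _ = _ := by rw [mul_pow]; ring

/-- Assembling `InH` from Euclidean growth. -/
theorem inH_of_norm_growth (hg : IsMetric g) (hc : 0 < c)
    (hlow : ∀ x (v : Fin 4 → ℝ), c * ∑ i, v i ^ 2 ≤ quad (g x) v)
    {k : ℕ} {u : R4 → ℝ} {C : ℝ} (hsm : ContDiff ℝ ∞ u) (hharm : ∀ x, laplacian g u x = 0)
    (hu : ∀ x, |u x| ≤ C * (1 + ‖x‖) ^ k) : InH g k u :=
  ⟨hsm, hharm, growth_of_norm_growth hg hc hlow hu⟩

end LowerBound

section Flux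

/-- The metric `√(det A) • A⁻¹` whose flux matrix `√(det g) g⁻¹` is `A`. -/
def metricOfFlux (A : R4 → Matrix (Fin 4) (Fin 4) ℝ) (x : R4) : Matrix (Fin 4) (Fin 4) ℝ :=
  Real.sqrt (A x).det • (A x)⁻¹

variable {A : R4 → Matrix (Fin 4) (Fin 4) ℝ}

lemma IsMetric.posDef (hA : IsMetric A) (x : R4) : (A x).PosDef := by
  refine Matrix.PosDef.of_dotProduct_mulVec_pos ?_ fun v hv => ?_
  · exact Matrix.IsHermitian.ext fun i k => by simpa using hA.symm x k i
  · have h := hA.pos x v hv
    rw [star_trivial, ← quad_eq_dotProduct]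
    exact h

lemma contDiff_det {m : WithTop ℕ∞} {B : R4 → Matrix (Fin 4) (Fin 4) ℝ}
    (hB : ∀ i k, ContDiff ℝ m fun x => B x i k) : ContDiff ℝ m fun x => (B x).det := by
  simp only [Matrix.det_apply']
  exact ContDiff.sum fun σ _ => contDiff_const.mul (contDiff_prod fun i _ => hB (σ i) i)

lemma contDiff_inv_apply (hA : IsMetric A) (i k : Fin 4) :
    ContDiff ℝ ∞ fun x => (A x)⁻¹ i k := by
  have hadj : ContDiff ℝ ∞ fun x => (A x).adjugate i k := by
    simp only [Matrix.adjugate_apply]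
    refine contDiff_det fun a b => ?_
    simp only [Matrix.updateRow_apply]
    by_cases h : a = k
    · simp only [if_pos h]; exact contDiff_const
    · simp only [if_neg h]; exact hA.smooth a b
  have h : (fun x => (A x)⁻¹ i k) = fun x => ((A x).det)⁻¹ * (A x).adjugate i k := by
    funext x
    simp [Matrix.inv_def, Ring.inverse_eq_inv']
  rw [h]
  exact ((contDiff_det hA.smooth).inv fun x => (hA.posDef x).det_pos.ne').mul hadj

/-- `√(det A) • A⁻¹` is a smooth metric. -/
theorem isMetric_metricOfFlux (hA : IsMetric A) : IsMetric (metricOfFlux A) where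
  smooth i k := by
    simp only [metricOfFlux, Matrix.smul_apply, smul_eq_mul]
    exact ((contDiff_det hA.smooth).sqrt fun x => (hA.posDef x).det_pos.ne').mul
      (contDiff_inv_apply hA i k)
  symm x i k := by
    have h := (hA.posDef x).inv.isHermitian
    have h' := congrFun (congrFun h i) k
    simp only [Matrix.conjTranspose_apply, star_trivial] at h'
    simp [metricOfFlux, h']
  pos x v hv := by
    have h := (hA.posDef x).inv.dotProduct_mulVec_pos hv
    rw [star_trivial] at h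
    calc (0 : ℝ) < Real.sqrt (A x).det * dotProduct v ((A x)⁻¹.mulVec v) :=
          mul_pos (Real.sqrt_pos.2 (hA.posDef x).det_pos) h
      _ = _ := by
          rw [← quad_eq_dotProduct, quad, Finset.mul_sum]
          exact Finset.sum_congr rfl fun i _ => by
            rw [Finset.mul_sum]
            exact Finset.sum_congr rfl fun k _ => by
              simp [metricOfFlux, Matrix.smul_apply]; ring

lemma det_metricOfFlux (hA : IsMetric A) (x : R4) : (metricOfFlux A x).det = (A x).det := by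
  have hp := (hA.posDef x).det_pos
  rw [metricOfFlux, Matrix.det_smul, Fintype.card_fin, Matrix.det_nonsing_inv,
    Ring.inverse_eq_inv', show Real.sqrt (A x).det ^ 4 = (Real.sqrt (A x).det ^ 2) ^ 2 by ring,
    Real.sq_sqrt hp.le]
  field_simp

lemma inv_metricOfFlux (hA : IsMetric A) (x : R4) :
    (metricOfFlux A x)⁻¹ = (Real.sqrt (A x).det)⁻¹ • A x := by
  have hp := (hA.posDef x).det_pos
  refine Matrix.inv_eq_right_inv ?_
  rw [metricOfFlux, Matrix.smul_mul, Matrix.mul_smul, smul_smul,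
    mul_inv_cancel₀ (Real.sqrt_pos.2 hp).ne', one_smul,
    Matrix.nonsing_inv_mul _ (isUnit_iff_ne_zero.2 hp.ne')]

/-- `√(det g) g⁻¹ = A` for `g = metricOfFlux A`. -/
theorem sqrt_det_smul_inv_metricOfFlux (hA : IsMetric A) (x : R4) :
    Real.sqrt (metricOfFlux A x).det • (metricOfFlux A x)⁻¹ = A x := by
  rw [det_metricOfFlux hA, inv_metricOfFlux hA, smul_smul,
    mul_inv_cancel₀ (Real.sqrt_pos.2 (hA.posDef x).det_pos).ne', one_smul]

/-- The Laplacian of `metricOfFlux A`. -/
theorem laplacian_metricOfFlux (hA : IsMetric A) (u : R4 → ℝ) (x : R4) :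
    laplacian (metricOfFlux A) u x = (Real.sqrt (A x).det)⁻¹ *
      ∑ i, pd i (fun y => ∑ k, A y i k * pd k u y) x := by
  rw [laplacian, det_metricOfFlux hA]
  refine congrArg _ (Finset.sum_congr rfl fun i _ => congrArg (fun f => pd i f x) ?_)
  funext y
  rw [Finset.mul_sum]
  refine Finset.sum_congr rfl fun k _ => ?_
  have h := congrFun (congrFun (sqrt_det_smul_inv_metricOfFlux hA y) i) k
  rw [Matrix.smul_apply, smul_eq_mul] at h
  rw [← h, mul_assoc]

/-- Harmonicity for `metricOfFlux A` is the divergence equation. -/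
theorem laplacian_metricOfFlux_eq_zero_iff (hA : IsMetric A) (u : R4 → ℝ) (x : R4) :
    laplacian (metricOfFlux A) u x = 0 ↔
      ∑ i, pd i (fun y => ∑ k, A y i k * pd k u y) x = 0 := by
  rw [laplacian_metricOfFlux hA]
  simp [(Real.sqrt_pos.2 (hA.posDef x).det_pos).ne']

lemma quad_smul (r : ℝ) (G : Matrix (Fin 4) (Fin 4) ℝ) (v : Fin 4 → ℝ) :
    quad (r • G) v = r * quad G v := by
  simp only [quad, Matrix.smul_apply, smul_eq_mul, Finset.mul_sum, mul_assoc]

/-- A lower bound on the flux matrix bounds its determinant below. -/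
lemma pow_four_le_det (hA : IsMetric A) {a : ℝ} (ha : 0 ≤ a)
    (hlow : ∀ x (v : Fin 4 → ℝ), a * ∑ i, v i ^ 2 ≤ quad (A x) v) (x : R4) :
    a ^ 4 ≤ (A x).det := by
  have hH := (hA.posDef x).isHermitian
  rw [hH.det_eq_prod_eigenvalues]
  calc a ^ 4 = ∏ _i : Fin 4, a := by simp
    _ ≤ ∏ i, hH.eigenvalues i := Finset.prod_le_prod (fun _ _ => ha) fun i _ => by
        have h := hlow x (⇑(hH.eigenvectorBasis i))
        rw [sum_sq_eq_norm_sq, hH.eigenvectorBasis.orthonormal.1 i, one_pow, mul_one,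
          quad_eq_dotProduct] at h
        rw [hH.eigenvalues_eq i]
        simpa using h

/-- Two sided bounds on the flux matrix bound the metric below. -/
theorem metricOfFlux_lower (hA : IsMetric A) {a b : ℝ} (ha : 0 ≤ a) (hb : 0 < b)
    (hlow : ∀ x (v : Fin 4 → ℝ), a * ∑ i, v i ^ 2 ≤ quad (A x) v)
    (hup : ∀ x (v : Fin 4 → ℝ), quad (A x) v ≤ b * ∑ i, v i ^ 2)
    (x : R4) (v : Fin 4 → ℝ) :
    a ^ 2 / b * ∑ i, v i ^ 2 ≤ quad (metricOfFlux A x) v := by
  have hdet : IsUnit (A x).det := isUnit_iff_ne_zero.2 (hA.posDef x).det_pos.ne'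
  set w := ((A x)⁻¹).mulVec v with hw
  have hAw : (A x).mulVec w = v := by
    rw [hw, Matrix.mulVec_mulVec, Matrix.mul_nonsing_inv _ hdet, Matrix.one_mulVec]
  have hsym : dotProduct w ((A x).mulVec v) = dotProduct v v := by
    have hT : (A x).transpose = A x := by
      ext i k; exact hA.symm x k i
    rw [Matrix.dotProduct_mulVec, ← Matrix.mulVec_transpose, hT, hAw]
  have hvv : dotProduct v v = ∑ i, v i ^ 2 := by simp [dotProduct, sq]
  have hwq : quad (A x) w = dotProduct v w := by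
    rw [quad_eq_dotProduct, hAw, dotProduct_comm]
  have hvq : quad (A x)⁻¹ v = dotProduct v w := quad_eq_dotProduct _ _
  -- completing the square at `w - b⁻¹ v`
  have hnn : 0 ≤ quad (A x) (w - b⁻¹ • v) := by
    refine le_trans ?_ (hlow x _)
    exact mul_nonneg ha (Finset.sum_nonneg fun i _ => sq_nonneg _)
  have hkey : (∑ i, v i ^ 2) / b ≤ quad (A x)⁻¹ v := by
    have hexp : quad (A x) (w - b⁻¹ • v) =
        quad (A x) w - 2 * b⁻¹ * dotProduct v v + b⁻¹ ^ 2 * quad (A x) v := by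
      simp only [quad_eq_dotProduct, Matrix.mulVec_sub, Matrix.mulVec_smul, dotProduct_sub,
        sub_dotProduct, dotProduct_smul, smul_dotProduct, smul_eq_mul, hsym, hAw]
      ring
    rw [hexp, hwq, hvv, ← hvq] at hnn
    have h2 : b⁻¹ ^ 2 * quad (A x) v ≤ b⁻¹ * ∑ i, v i ^ 2 := by
      refine (mul_le_mul_of_nonneg_left (hup x v) (sq_nonneg _)).trans_eq ?_
      field_simp
    rw [div_eq_inv_mul]
    linarith
  have hsq : a ^ 2 ≤ Real.sqrt (A x).det := by
    rw [Real.le_sqrt (by positivity) (hA.posDef x).det_pos.le]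
    calc (a ^ 2) ^ 2 = a ^ 4 := by ring
      _ ≤ _ := pow_four_le_det hA ha hlow x
  rw [metricOfFlux, quad_smul, div_mul_eq_mul_div, mul_div_assoc]
  exact mul_le_mul hsq hkey (div_nonneg (Finset.sum_nonneg fun i _ => sq_nonneg _) hb.le)
    (Real.sqrt_nonneg _)

/-- A flux matrix with two sided bounds gives a complete metric. -/
theorem isComplete_metricOfFlux (hA : IsMetric A) {a b : ℝ} (ha : 0 < a) (hb : 0 < b)
    (hlow : ∀ x (v : Fin 4 → ℝ), a * ∑ i, v i ^ 2 ≤ quad (A x) v)
    (hup : ∀ x (v : Fin 4 → ℝ), quad (A x) v ≤ b * ∑ i, v i ^ 2) :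
    IsComplete (metricOfFlux A) :=
  isComplete_of_lower (isMetric_metricOfFlux hA) (c := a ^ 2 / b) (by positivity)
    (metricOfFlux_lower hA ha.le hb hlow hup)

/-- A harmonic function of Euclidean growth `k` for a flux matrix with two sided bounds. -/
theorem inH_metricOfFlux (hA : IsMetric A) {a b : ℝ} (ha : 0 < a) (hb : 0 < b)
    (hlow : ∀ x (v : Fin 4 → ℝ), a * ∑ i, v i ^ 2 ≤ quad (A x) v)
    (hup : ∀ x (v : Fin 4 → ℝ), quad (A x) v ≤ b * ∑ i, v i ^ 2)
    {k : ℕ} {u : R4 → ℝ} {C : ℝ} (hsm : ContDiff ℝ ∞ u)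
    (hdiv : ∀ x, ∑ i, pd i (fun y => ∑ j, A y i j * pd j u y) x = 0)
    (hu : ∀ x, |u x| ≤ C * (1 + ‖x‖) ^ k) : InH (metricOfFlux A) k u :=
  inH_of_norm_growth (isMetric_metricOfFlux hA) (c := a ^ 2 / b) (by positivity)
    (metricOfFlux_lower hA ha.le hb hlow hup) hsm
    (fun x => (laplacian_metricOfFlux_eq_zero_iff hA u x).2 (hdiv x)) hu

end Flux

end

end Vale.Agent.P225
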