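import Vale.Agent.P225.Defs

/-!
P225: bounds on a function and its first two derivatives in units of a radius, and the passage
from a flux `A = √det g · g⁻¹` to the metric.
-/

namespace Vale.Agent.P225.Geo

noncomputable section

/-- The metric with flux `A`: `√det A · A⁻¹`. -/
def fromFlux (A : Matrix (Fin 4) (Fin 4) ℝ) : Matrix (Fin 4) (Fin 4) ℝ :=
  Real.sqrt A.det • A⁻¹

/-- Bounds on `f` and its first two derivatives at `x`, in units of the radius `r`. -/
structure JetBound (f : R4 → ℝ) (x : R4) (r K : ℝ) : Prop where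
  zero : |f x| ≤ K
  one : ∀ i, r * |pd i f x| ≤ K
  two : ∀ i j, r ^ 2 * |pd i (pd j f) x| ≤ K

/-- A field of fluxes that is symmetric, uniformly elliptic and bounded with two derivatives, at
the point `x`, in units of `r`. -/
structure FluxClass (A : R4 → Matrix (Fin 4) (Fin 4) ℝ) (x : R4) (r c K : ℝ) : Prop where
  smooth : ∀ i k, ContDiffAt ℝ 2 (fun y => A y i k) x
  symm : ∀ i k, A x i k = A x k i
  lower : ∀ v : Fin 4 → ℝ, c * ∑ i, v i ^ 2 ≤ ∑ i, ∑ k, A x i k * v i * v k
  bound : ∀ i k, JetBound (fun y => A y i k) x r K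

end

end Vale.Agent.P225.Geo
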