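import Vale.Agent.P225.Geo.Model

/-!
P225: series of modes with geometric decay in the degree: sums, images, products with a harmonic,
and derivatives along the radial, left and right fields.
-/

namespace Vale.Agent.P225.Geo

open Filter Topology
open scoped RealInnerProductSpace ContDiff

noncomputable section

/-- A family of mode coefficients. -/
abbrev Modes := (j : ℕ) → ℝ → V j

/-- Locally uniform geometric decay beyond the growth of the harmonics. -/
def Decay (H : Harm) (w : Modes) : Prop :=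
  ∀ a b : ℝ, ∃ K ρ : ℝ, 0 < ρ ∧ ρ < 1 ∧ ∀ j, ∀ t ∈ Set.Icc a b, H.C ^ j * ‖w j t‖ ≤ K * ρ ^ j

variable {H : Harm}

theorem C_pos (H : Harm) : 0 < H.C := lt_of_lt_of_le one_pos H.one_le_C

theorem exists_geom {ρ : ℝ} (hρ : 0 < ρ) (hρ1 : ρ < 1) (m : ℕ) :
    ∃ B ρ' : ℝ, 0 < ρ' ∧ ρ' < 1 ∧ ∀ j : ℕ, ((j : ℝ) + 1) ^ m * ρ ^ j ≤ B * ρ' ^ j := by
  refine ⟨?_, (1 + ρ) / 2, by linarith, by linarith, ?_⟩
  · exact ∑' j : ℕ, ((j : ℝ) + 1) ^ m * (ρ / ((1 + ρ) / 2)) ^ j
  · intro j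
    have hq0 : 0 < ρ / ((1 + ρ) / 2) := by positivity
    have hq1 : ρ / ((1 + ρ) / 2) < 1 := by rw [div_lt_one (by linarith)]; linarith
    have hs : Summable fun j : ℕ => ((j : ℝ) + 1) ^ m * (ρ / ((1 + ρ) / 2)) ^ j := by
      have h := summable_pow_mul_geometric_of_norm_lt_one (R := ℝ) m
        (r := ρ / ((1 + ρ) / 2)) (by rwa [Real.norm_eq_abs, abs_of_pos hq0])
      have h' := ((summable_nat_add_iff 1).2 h).mul_left (ρ / ((1 + ρ) / 2))⁻¹
      refine h'.congr fun j => ?_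
      generalize ρ / ((1 + ρ) / 2) = q at hq0 ⊢
      push_cast
      rw [pow_succ]
      field_simp
    have h := hs.le_tsum j fun i _ => by positivity
    calc ((j : ℝ) + 1) ^ m * ρ ^ j =
          ((j : ℝ) + 1) ^ m * (ρ / ((1 + ρ) / 2)) ^ j * ((1 + ρ) / 2) ^ j := by
          rw [mul_assoc, ← mul_pow, div_mul_cancel₀ _ (by linarith)]
      _ ≤ _ := mul_le_mul_of_nonneg_right h (by positivity)

namespace Decay

variable {w w' : Modes}

theorem nonneg_const {K ρ a b : ℝ} (h : ∀ j, ∀ t ∈ Set.Icc a b, H.C ^ j * ‖w j t‖ ≤ K * ρ ^ j)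
    {t : ℝ} (ht : t ∈ Set.Icc a b) : 0 ≤ K := by
  have := h 0 t ht
  simp only [pow_zero, one_mul, mul_one] at this
  exact (norm_nonneg _).trans this

theorem add (hw : Decay H w) (hw' : Decay H w') : Decay H fun j t => w j t + w' j t := by
  intro a b
  obtain ⟨K, ρ, h0, h1, h⟩ := hw a b
  obtain ⟨K', ρ', h0', h1', h'⟩ := hw' a b
  refine ⟨K + K', max ρ ρ', lt_max_of_lt_left h0, max_lt h1 h1', fun j t ht => ?_⟩
  have hC : 0 ≤ H.C ^ j := pow_nonneg (C_pos H).le j
  calc H.C ^ j * ‖w j t + w' j t‖ ≤ H.C ^ j * (‖w j t‖ + ‖w' j t‖) :=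
        mul_le_mul_of_nonneg_left (norm_add_le _ _) hC
    _ ≤ K * ρ ^ j + K' * ρ' ^ j := by rw [mul_add]; exact add_le_add (h j t ht) (h' j t ht)
    _ ≤ K * max ρ ρ' ^ j + K' * max ρ ρ' ^ j := by
        refine add_le_add (mul_le_mul_of_nonneg_left ?_ (nonneg_const h ht))
          (mul_le_mul_of_nonneg_left ?_ (nonneg_const h' ht))
        · exact pow_le_pow_left₀ h0.le (le_max_left _ _) j
        · exact pow_le_pow_left₀ h0'.le (le_max_right _ _) j
    _ = _ := by ring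

/-- Images under maps of polynomial growth in the degree. -/
theorem map (hw : Decay H w) (T : (j : ℕ) → ℝ → V j → V j) {c : ℝ → ℝ} (hc : Continuous c)
    (m : ℕ) (hT : ∀ j t v, ‖T j t v‖ ≤ c t * ((j : ℝ) + 1) ^ m * ‖v‖) :
    Decay H fun j t => T j t (w j t) := by
  intro a b
  obtain ⟨K, ρ, h0, h1, h⟩ := hw a b
  obtain ⟨c0, hc0⟩ := (isCompact_Icc (a := a) (b := b)).exists_bound_of_continuousOn hc.continuousOn
  obtain ⟨B, ρ', h0', h1', hB⟩ := exists_geom h0 h1 m
  refine ⟨|c0| * (|K| * B), ρ', h0', h1', fun j t ht => ?_⟩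
  have hC : 0 ≤ H.C ^ j := pow_nonneg (C_pos H).le j
  have hct : c t ≤ |c0| := ((le_abs_self _).trans ((Real.norm_eq_abs _).symm.trans_le (hc0 t ht))).trans
    (le_abs_self _)
  calc H.C ^ j * ‖T j t (w j t)‖ ≤ H.C ^ j * (c t * ((j : ℝ) + 1) ^ m * ‖w j t‖) :=
        mul_le_mul_of_nonneg_left (hT _ _ _) hC
    _ ≤ H.C ^ j * (|c0| * ((j : ℝ) + 1) ^ m * ‖w j t‖) := by gcongr
    _ = |c0| * ((j : ℝ) + 1) ^ m * (H.C ^ j * ‖w j t‖) := by ring
    _ ≤ |c0| * ((j : ℝ) + 1) ^ m * (|K| * ρ ^ j) := by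
        refine mul_le_mul_of_nonneg_left ((h j t ht).trans ?_) (by positivity)
        exact mul_le_mul_of_nonneg_right (le_abs_self _) (by positivity)
    _ = |c0| * (|K| * (((j : ℝ) + 1) ^ m * ρ ^ j)) := by ring
    _ ≤ |c0| * (|K| * (B * ρ' ^ j)) :=
        mul_le_mul_of_nonneg_left (mul_le_mul_of_nonneg_left (hB j) (abs_nonneg _)) (abs_nonneg _)
    _ = _ := by ring

theorem smul (hw : Decay H w) {f : ℝ → ℝ} (hf : Continuous f) :
    Decay H fun j t => f t • w j t :=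
  hw.map (fun _ t v => f t • v) hf.abs 0 fun j t v => by simp [norm_smul]

theorem zero : Decay H fun _ _ => 0 := fun _ _ =>
  ⟨0, 1 / 2, by norm_num, by norm_num, fun j t _ => by simp⟩

theorem sum {ι : Type*} (s : Finset ι) (f : ι → Modes) (hf : ∀ i ∈ s, Decay H (f i)) :
    Decay H fun j t => ∑ i ∈ s, f i j t := by
  classical
  induction s using Finset.induction_on with
  | empty => simpa using zero
  | insert i s hi ih =>
    have h := (hf i (by simp)).add (ih fun k hk => hf k (by simp [hk]))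
    simpa [Finset.sum_insert hi] using h

end Decay

theorem norm_EL_le (H : Harm) (j : ℕ) (k : Fin 3) (v : V j) :
    ‖H.EL j k v‖ ≤ ((j : ℝ) + 1) * ‖v‖ := by
  have h : ∑ l, ‖H.EL j l v‖ ^ 2 = (j : ℝ) * (j + 2) * ‖v‖ ^ 2 := by
    have h1 : ∀ l, ‖H.EL j l v‖ ^ 2 = -⟪v, H.EL j l (H.EL j l v)⟫ := fun l => by
      rw [← real_inner_self_eq_norm_sq, H.skew_left]
    rw [Finset.sum_congr rfl fun l _ => h1 l, Finset.sum_neg_distrib, ← inner_sum,
      H.casimir_left, real_inner_smul_right, real_inner_self_eq_norm_sq]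
    ring
  have hk := (Finset.single_le_sum (f := fun l => ‖H.EL j l v‖ ^ 2) (fun l _ => sq_nonneg _)
    (Finset.mem_univ k)).trans_eq h
  refine (sq_le_sq₀ (norm_nonneg _) (by positivity)).1 (hk.trans ?_)
  nlinarith [sq_nonneg ‖v‖]

theorem norm_ER_le (H : Harm) (j : ℕ) (k : Fin 3) (v : V j) :
    ‖H.ER j k v‖ ≤ ((j : ℝ) + 1) * ‖v‖ := by
  have h : ∑ l, ‖H.ER j l v‖ ^ 2 = (j : ℝ) * (j + 2) * ‖v‖ ^ 2 := by
    have h1 : ∀ l, ‖H.ER j l v‖ ^ 2 = -⟪v, H.ER j l (H.ER j l v)⟫ := fun l => by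
      rw [← real_inner_self_eq_norm_sq, H.skew_right]
    rw [Finset.sum_congr rfl fun l _ => h1 l, Finset.sum_neg_distrib, ← inner_sum,
      H.casimir_right, real_inner_smul_right, real_inner_self_eq_norm_sq]
    ring
  have hk := (Finset.single_le_sum (f := fun l => ‖H.ER j l v‖ ^ 2) (fun l _ => sq_nonneg _)
    (Finset.mem_univ k)).trans_eq h
  refine (sq_le_sq₀ (norm_nonneg _) (by positivity)).1 (hk.trans ?_)
  nlinarith [sq_nonneg ‖v‖]

theorem Decay.left {w : Modes} (hw : Decay H w) (k : Fin 3) :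
    Decay H fun j t => H.EL j k (w j t) :=
  hw.map (fun j _ v => H.EL j k v) (c := fun _ => 1) continuous_const 1 fun j t v => by
    simpa using norm_EL_le H j k v

theorem Decay.right {w : Modes} (hw : Decay H w) (k : Fin 3) :
    Decay H fun j t => H.ER j k (w j t) :=
  hw.map (fun j _ v => H.ER j k v) (c := fun _ => 1) continuous_const 1 fun j t v => by
    simpa using norm_ER_le H j k v

/-- Multiplication by a harmonic, in coefficients. -/
def band (H : Harm) (d : ℕ) (z : V d) (w : Modes) : Modes :=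
  fun j' t => ∑ j ∈ Finset.range (j' + d + 1), H.mul d z j j' (w j t)

theorem Decay.band {w : Modes} (hw : Decay H w) (d : ℕ) (z : V d) :
    Decay H (Geo.band H d z w) := by
  intro a b
  obtain ⟨K, ρ, h0, h1, h⟩ := hw a b
  obtain ⟨B, ρ', h0', h1', hB⟩ := exists_geom h0 h1 1
  refine ⟨((d : ℝ) + 1) * (H.C ^ d * ‖z‖) * H.C ^ d * |K| * ρ⁻¹ ^ d * B, ρ', h0', h1',
    fun j' t ht => ?_⟩
  have hC := C_pos H
  have hterm : ∀ j ∈ Finset.range (j' + d + 1), H.C ^ j' * ‖H.mul d z j j' (w j t)‖ ≤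
      H.C ^ d * ‖z‖ * H.C ^ d * |K| * ρ⁻¹ ^ d * ρ ^ j' := by
    intro j _
    by_cases hj : j + d < j'
    · rw [H.mul_band d z j j' (Or.inr hj)]
      simp only [_root_.zero_apply, norm_zero, mul_zero]
      positivity
    · push Not at hj
      have e1 : H.C ^ j' ≤ H.C ^ d * H.C ^ j := by
        rw [← pow_add]; exact pow_le_pow_right₀ H.one_le_C (by omega)
      have e2 : ρ ^ j ≤ ρ⁻¹ ^ d * ρ ^ j' := by
        rw [inv_pow, ← div_eq_inv_mul, le_div_iff₀ (pow_pos h0 d), ← pow_add]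
        exact pow_le_pow_of_le_one h0.le h1.le hj
      calc H.C ^ j' * ‖H.mul d z j j' (w j t)‖
          ≤ (H.C ^ d * H.C ^ j) * (H.C ^ d * ‖z‖ * ‖w j t‖) := by
            refine mul_le_mul e1 (((H.mul d z j j').le_opNorm _).trans ?_) (norm_nonneg _) (by positivity)
            exact mul_le_mul_of_nonneg_right (H.mul_norm d z j j') (norm_nonneg _)
        _ = H.C ^ d * ‖z‖ * H.C ^ d * (H.C ^ j * ‖w j t‖) := by ring
        _ ≤ H.C ^ d * ‖z‖ * H.C ^ d * (|K| * (ρ⁻¹ ^ d * ρ ^ j')) := by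
            refine mul_le_mul_of_nonneg_left ((h j t ht).trans ?_) (by positivity)
            exact mul_le_mul (le_abs_self _) e2 (by positivity) (abs_nonneg _)
        _ = _ := by ring
  calc H.C ^ j' * ‖Geo.band H d z w j' t‖
      ≤ ∑ j ∈ Finset.range (j' + d + 1), H.C ^ j' * ‖H.mul d z j j' (w j t)‖ := by
        rw [← Finset.mul_sum]
        exact mul_le_mul_of_nonneg_left (norm_sum_le _ _) (by positivity)
    _ ≤ ∑ _j ∈ Finset.range (j' + d + 1),
          H.C ^ d * ‖z‖ * H.C ^ d * |K| * ρ⁻¹ ^ d * ρ ^ j' := Finset.sum_le_sum hterm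
    _ = ((j' : ℝ) + d + 1) * (H.C ^ d * ‖z‖ * H.C ^ d * |K| * ρ⁻¹ ^ d * ρ ^ j') := by simp
    _ ≤ (((d : ℝ) + 1) * ((j' : ℝ) + 1)) *
          (H.C ^ d * ‖z‖ * H.C ^ d * |K| * ρ⁻¹ ^ d * ρ ^ j') := by
        refine mul_le_mul_of_nonneg_right ?_ (by positivity)
        nlinarith [mul_nonneg (Nat.cast_nonneg (α := ℝ) j') (Nat.cast_nonneg (α := ℝ) d)]
    _ = ((d : ℝ) + 1) * (H.C ^ d * ‖z‖ * H.C ^ d * |K| * ρ⁻¹ ^ d) *
          (((j' : ℝ) + 1) ^ 1 * ρ ^ j') := by ring
    _ ≤ ((d : ℝ) + 1) * (H.C ^ d * ‖z‖ * H.C ^ d * |K| * ρ⁻¹ ^ d) * (B * ρ' ^ j') :=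
        mul_le_mul_of_nonneg_left (hB j') (by positivity)
    _ = _ := by ring

theorem norm_rhat {x : R4} (hx : x ≠ 0) : ‖rhat x‖ = 1 := by
  rw [rhat, norm_smul, norm_inv, norm_norm, inv_mul_cancel₀ (norm_ne_zero_iff.mpr hx)]

theorem fn_homog (H : Harm) (j : ℕ) (v : V j) (c : ℝ) (x : R4) :
    H.fn j v (c • x) = c ^ j * H.fn j v x := by
  simp only [Harm.fn, H.homog, Finset.mul_sum]
  exact Finset.sum_congr rfl fun i _ => by ring

theorem fn_smooth (H : Harm) (j : ℕ) (v : V j) : ContDiff ℝ ∞ (H.fn j v) := by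
  unfold Harm.fn
  exact ContDiff.sum fun i _ => contDiff_const.mul (H.smooth j i)

theorem fn_smul (H : Harm) (j : ℕ) (c : ℝ) (v : V j) (y : R4) :
    H.fn j (c • v) y = c * H.fn j v y := by
  simp [Harm.fn, Finset.mul_sum, mul_assoc]

theorem fn_add (H : Harm) (j : ℕ) (v v' : V j) (y : R4) :
    H.fn j (v + v') y = H.fn j v y + H.fn j v' y := by
  simp [Harm.fn, add_mul, Finset.sum_add_distrib]

theorem fn_sum {ι : Type*} (H : Harm) (j : ℕ) (s : Finset ι) (v : ι → V j) (y : R4) :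
    H.fn j (∑ i ∈ s, v i) y = ∑ i ∈ s, H.fn j (v i) y := by
  simp only [Harm.fn, WithLp.ofLp_sum, Finset.sum_apply, Finset.sum_mul]
  exact Finset.sum_comm

theorem abs_fn_le {j : ℕ} {v : V j} {y : R4} (hy : ‖y‖ = 1) :
    |H.fn j v y| ≤ H.C ^ j * ‖v‖ := by
  have := H.bound j v y
  rwa [hy, one_pow, mul_one] at this

/-- The terms of a decaying series are summable. -/
theorem summable_terms {w : Modes} (hw : Decay H w) {x : R4} (hx : x ≠ 0) :
    Summable fun j => H.fn j (w j (Real.log ‖x‖)) (rhat x) := by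
  obtain ⟨K, ρ, h0, h1, h⟩ := hw (Real.log ‖x‖) (Real.log ‖x‖)
  refine Summable.of_norm_bounded ((summable_geometric_of_lt_one h0.le h1).mul_left K) fun j => ?_
  rw [Real.norm_eq_abs]
  exact (abs_fn_le (norm_rhat hx)).trans (h j _ (by simp))

theorem modeSum_add {w w' : Modes} (hw : Decay H w) (hw' : Decay H w') {x : R4} (hx : x ≠ 0) :
    modeSum H (fun j t => w j t + w' j t) x = modeSum H w x + modeSum H w' x := by
  simp only [modeSum, fn_add]
  exact (summable_terms hw hx).tsum_add (summable_terms hw' hx)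

theorem modeSum_smul (w : Modes) (f : ℝ → ℝ) (x : R4) :
    modeSum H (fun j t => f t • w j t) x = f (Real.log ‖x‖) * modeSum H w x := by
  simp only [modeSum, fn_smul, tsum_mul_left]

theorem modeSum_sum {ι : Type*} (s : Finset ι) (f : ι → Modes) (hf : ∀ i ∈ s, Decay H (f i))
    {x : R4} (hx : x ≠ 0) :
    modeSum H (fun j t => ∑ i ∈ s, f i j t) x = ∑ i ∈ s, modeSum H (f i) x := by
  simp only [modeSum, fn_sum]
  exact Summable.tsum_finsetSum fun i hi => summable_terms (hf i hi) hx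

theorem fn_mul (H : Harm) (d : ℕ) (z : V d) (i : ℕ) (v : V i) {y : R4} (hy : ‖y‖ = 1) :
    H.fn d z y * H.fn i v y = ∑ j ∈ Finset.range (i + d + 1), H.fn j (H.mul d z i j v) y :=
  H.mul_eq d z i v y hy

/-- The product of a series with a harmonic. -/
theorem modeSum_band {w : Modes} (hw : Decay H w) (d : ℕ) (z : V d) {x : R4} (hx : x ≠ 0) :
    H.fn d z (rhat x) * modeSum H w x = modeSum H (band H d z w) x := by
  set t := Real.log ‖x‖ with ht
  set y := rhat x with hy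
  have hy1 : ‖y‖ = 1 := norm_rhat hx
  set f : ℕ → ℕ → ℝ := fun j j' => H.fn j' (H.mul d z j j' (w j t)) y with hf
  have hfz : ∀ j j', (j' + d < j ∨ j + d < j') → f j j' = 0 := fun j j' h => by
    simp [hf, H.mul_band d z j j' h, Harm.fn]
  have hl : ∀ j, ∑' j', f j j' = H.fn d z y * H.fn j (w j t) y := fun j => by
    rw [fn_mul H d z j _ hy1, tsum_eq_sum (s := Finset.range (j + d + 1))]
    intro j' hj'
    rw [Finset.mem_range] at hj'
    exact hfz _ _ (Or.inr (by omega))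
  have hr : ∀ j', ∑' j, f j j' = H.fn j' (band H d z w j' t) y := fun j' => by
    rw [band, fn_sum, tsum_eq_sum (s := Finset.range (j' + d + 1))]
    intro j hj
    rw [Finset.mem_range] at hj
    exact hfz _ _ (Or.inl (by omega))
  have hsum : Summable (Function.uncurry f) := by
    obtain ⟨K, ρ, h0, h1, h⟩ := hw t t
    obtain ⟨B, ρ', h0', h1', hB⟩ := exists_geom h0 h1 1
    set g : ℕ → ℕ → ℝ := fun j j' => |f j j'| with hg
    have hgb : ∀ j j', g j j' ≤ H.C ^ d * ‖z‖ * H.C ^ d * (H.C ^ j * ‖w j t‖) := by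
      intro j j'
      by_cases hj : j + d < j'
      · simp only [hg, hfz j j' (Or.inr hj), abs_zero]
        exact mul_nonneg (mul_nonneg (mul_nonneg (pow_nonneg (C_pos H).le _) (norm_nonneg _))
          (pow_nonneg (C_pos H).le _)) (mul_nonneg (pow_nonneg (C_pos H).le _) (norm_nonneg _))
      · push Not at hj
        calc g j j' ≤ H.C ^ j' * ‖H.mul d z j j' (w j t)‖ := abs_fn_le hy1
          _ ≤ (H.C ^ d * H.C ^ j) * (H.C ^ d * ‖z‖ * ‖w j t‖) := by
            refine mul_le_mul ?_ (((H.mul d z j j').le_opNorm _).trans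
              (mul_le_mul_of_nonneg_right (H.mul_norm d z j j') (norm_nonneg _))) (norm_nonneg _)
              (mul_nonneg (pow_nonneg (C_pos H).le _) (pow_nonneg (C_pos H).le _))
            rw [← pow_add]; exact pow_le_pow_right₀ H.one_le_C (by omega)
          _ = _ := by ring
    refine Summable.of_abs ?_
    refine (summable_prod_of_nonneg fun p => abs_nonneg _).2 ⟨fun j => ?_, ?_⟩
    · exact summable_of_ne_finset_zero (s := Finset.range (j + d + 1)) fun j' hj' => by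
        rw [Finset.mem_range] at hj'
        simp [Function.uncurry, hfz j j' (Or.inr (by omega))]
    · refine Summable.of_nonneg_of_le (fun j => tsum_nonneg fun j' => abs_nonneg _) (fun j => ?_)
        (((summable_geometric_of_lt_one h0'.le h1').mul_left
          (((d : ℝ) + 1) * (H.C ^ d * ‖z‖ * H.C ^ d * |K|) * B)))
      rw [tsum_eq_sum (s := Finset.range (j + d + 1)) fun j' hj' => by
        rw [Finset.mem_range] at hj'
        simp [Function.uncurry, hfz j j' (Or.inr (by omega))]]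
      have hC := C_pos H
      calc ∑ j' ∈ Finset.range (j + d + 1), |Function.uncurry f (j, j')|
          ≤ ∑ _j' ∈ Finset.range (j + d + 1), H.C ^ d * ‖z‖ * H.C ^ d * (|K| * ρ ^ j) :=
            Finset.sum_le_sum fun j' _ => (hgb j j').trans (mul_le_mul_of_nonneg_left
              ((h j t (by simp)).trans (mul_le_mul_of_nonneg_right (le_abs_self _) (by positivity)))
              (by positivity))
        _ = ((j : ℝ) + d + 1) * (H.C ^ d * ‖z‖ * H.C ^ d * (|K| * ρ ^ j)) := by simp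
        _ ≤ (((d : ℝ) + 1) * ((j : ℝ) + 1)) * (H.C ^ d * ‖z‖ * H.C ^ d * (|K| * ρ ^ j)) := by
            refine mul_le_mul_of_nonneg_right ?_ (by positivity)
            nlinarith [mul_nonneg (Nat.cast_nonneg (α := ℝ) j) (Nat.cast_nonneg (α := ℝ) d)]
        _ = ((d : ℝ) + 1) * (H.C ^ d * ‖z‖ * H.C ^ d * |K|) * (((j : ℝ) + 1) ^ 1 * ρ ^ j) := by
            ring
        _ ≤ ((d : ℝ) + 1) * (H.C ^ d * ‖z‖ * H.C ^ d * |K|) * (B * ρ' ^ j) :=
            mul_le_mul_of_nonneg_left (hB j) (by positivity)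
        _ = _ := by ring
  calc H.fn d z y * modeSum H w x = ∑' j, H.fn d z y * H.fn j (w j t) y := tsum_mul_left.symm
    _ = ∑' j, ∑' j', f j j' := by simp only [hl]
    _ = ∑' j', ∑' j, f j j' := hsum.tsum_comm.symm
    _ = _ := by simp only [hr]; rfl

/-- The derivative of `y ↦ fn v y` scales. -/
theorem fderiv_fn_scale (H : Harm) (j : ℕ) (v : V j) {y : R4} (hy : y ≠ 0) :
    ‖fderiv ℝ (H.fn j v) y‖ = ‖y‖ ^ j * ‖y‖⁻¹ * ‖fderiv ℝ (H.fn j v) (rhat y)‖ := by
  set c := ‖y‖ with hc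
  have hc0 : c ≠ 0 := norm_ne_zero_iff.mpr hy
  have hl : HasFDerivAt (fun z : R4 => c⁻¹ • z) (c⁻¹ • ContinuousLinearMap.id ℝ R4) y :=
    (hasFDerivAt_id y).const_smul c⁻¹
  have h1 : HasFDerivAt (H.fn j v) (fderiv ℝ (H.fn j v) (rhat y)) (c⁻¹ • y) :=
    ((fn_smooth H j v).differentiable (by simp) _).hasFDerivAt
  have h2 := ((h1.comp y hl).const_mul (c ^ j))
  have e : (fun z => c ^ j * H.fn j v (c⁻¹ • z)) = H.fn j v := by
    funext z
    rw [fn_homog, ← mul_assoc, ← mul_pow, mul_inv_cancel₀ hc0, one_pow, one_mul]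
  simp only [Function.comp_def, e] at h2
  rw [h2.fderiv, ContinuousLinearMap.comp_smul, ContinuousLinearMap.comp_id, smul_smul, norm_smul,
    Real.norm_eq_abs, abs_of_nonneg (mul_nonneg (pow_nonneg (norm_nonneg _) _)
      (inv_nonneg.2 (norm_nonneg _)))]

theorem fderiv_log_norm {y : R4} (hy : y ≠ 0) :
    HasFDerivAt (fun z : R4 => Real.log ‖z‖) ((‖y‖ ^ 2)⁻¹ • innerSL ℝ y) y := by
  have h2 : HasFDerivAt (fun z : R4 => ‖z‖ ^ 2) (2 • innerSL ℝ y) y :=
    (hasStrictFDerivAt_norm_sq y).hasFDerivAt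
  have h3 := (h2.log (pow_ne_zero 2 (norm_ne_zero_iff.mpr hy))).const_mul (1 / 2)
  have e : (fun z : R4 => 1 / 2 * Real.log (‖z‖ ^ 2)) = fun z => Real.log ‖z‖ := by
    funext z; rw [Real.log_pow]; ring
  rw [e] at h3
  refine h3.congr_fderiv ?_
  ext v
  simp
  ring

/-- A term in homogeneous form. -/
theorem term_eq (H : Harm) (j : ℕ) (v : V j) {y : R4} (hy : y ≠ 0) :
    H.fn j v (rhat y) = Real.exp (-((j : ℝ) * Real.log ‖y‖)) * H.fn j v y := by
  rw [rhat, fn_homog, inv_pow, Real.exp_neg, Real.exp_nat_mul,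
    Real.exp_log (norm_pos_iff.mpr hy)]

theorem fderiv_fn_self (H : Harm) (j : ℕ) (v : V j) (y : R4) :
    fderiv ℝ (H.fn j v) y y = (j : ℝ) * H.fn j v y := by
  have hz : HasDerivAt (fun c : ℝ => c • y) y 1 := by
    simpa using (hasDerivAt_id (1 : ℝ)).smul_const y
  have h1 : HasDerivAt (fun c : ℝ => H.fn j v (c • y)) (fderiv ℝ (H.fn j v) y y) 1 := by
    have hf : HasFDerivAt (H.fn j v) (fderiv ℝ (H.fn j v) y) ((1 : ℝ) • y) := by
      rw [one_smul]; exact ((fn_smooth H j v).differentiable (by simp) _).hasFDerivAt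
    exact hf.comp_hasDerivAt 1 hz
  have h2 : HasDerivAt (fun c : ℝ => H.fn j v (c • y)) ((j : ℝ) * H.fn j v y) 1 := by
    simp only [fn_homog]
    simpa using (hasDerivAt_pow j (1 : ℝ)).mul_const (H.fn j v y)
  exact h1.unique h2

/-- The derivative of a term. -/
def termD (H : Harm) (j : ℕ) (v v' : V j) (y : R4) : R4 →L[ℝ] ℝ :=
  Real.exp (-((j : ℝ) * Real.log ‖y‖)) • fderiv ℝ (H.fn j v) y +
    (H.fn j v' (rhat y) - (j : ℝ) * H.fn j v (rhat y)) • ((‖y‖ ^ 2)⁻¹ • innerSL ℝ y)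

theorem hasFDerivAt_term (H : Harm) {j : ℕ} {w w' : ℝ → V j} {y : R4} (hy : y ≠ 0)
    (hw : HasDerivAt w (w' (Real.log ‖y‖)) (Real.log ‖y‖)) :
    HasFDerivAt (fun z => H.fn j (w (Real.log ‖z‖)) (rhat z))
      (termD H j (w (Real.log ‖y‖)) (w' (Real.log ‖y‖)) y) y := by
  have hL := fderiv_log_norm hy
  have he := ((hL.const_mul (j : ℝ)).neg).exp
  have hwi : ∀ i, HasFDerivAt (fun z => w (Real.log ‖z‖) i)
      ((w' (Real.log ‖y‖) i) • ((‖y‖ ^ 2)⁻¹ • innerSL ℝ y)) y := fun i => by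
    have hp : HasDerivAt (fun t => w t i) (w' (Real.log ‖y‖) i) (Real.log ‖y‖) :=
      (EuclideanSpace.proj i : V j →L[ℝ] ℝ).hasFDerivAt.comp_hasDerivAt _ hw
    exact hp.comp_hasFDerivAt y hL
  have hY : ∀ i, HasFDerivAt (H.Y j i) (fderiv ℝ (H.Y j i) y) y := fun i =>
    ((H.smooth j i).differentiable (by simp) _).hasFDerivAt
  have hsum : HasFDerivAt (fun z => H.fn j (w (Real.log ‖z‖)) z)
      (∑ i, (w (Real.log ‖y‖) i • fderiv ℝ (H.Y j i) y +
        H.Y j i y • ((w' (Real.log ‖y‖) i) • ((‖y‖ ^ 2)⁻¹ • innerSL ℝ y)))) y :=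
    HasFDerivAt.fun_sum fun i _ => (hwi i).mul (hY i)
  have hfd : fderiv ℝ (H.fn j (w (Real.log ‖y‖))) y =
      ∑ i, w (Real.log ‖y‖) i • fderiv ℝ (H.Y j i) y :=
    (HasFDerivAt.fun_sum fun i _ => (hY i).const_mul (w (Real.log ‖y‖) i)).fderiv
  refine ((he.mul hsum).congr_fderiv ?_).congr_of_eventuallyEq ?_
  · ext v
    simp only [termD, term_eq H j _ hy, hfd, _root_.add_apply, _root_.smul_apply, _root_.neg_apply,
      _root_.sum_apply, smul_eq_mul, Finset.sum_add_distrib, Pi.neg_apply]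
    rw [show H.fn j (w' (Real.log ‖y‖)) y = ∑ i, w' (Real.log ‖y‖) i * H.Y j i y from rfl,
      show ∑ i, H.Y j i y * (w' (Real.log ‖y‖) i * ((‖y‖ ^ 2)⁻¹ * innerSL ℝ y v)) =
        (∑ i, w' (Real.log ‖y‖) i * H.Y j i y) * ((‖y‖ ^ 2)⁻¹ * innerSL ℝ y v) by
        rw [Finset.sum_mul]; exact Finset.sum_congr rfl fun i _ => by ring]
    ring
  · filter_upwards [isOpen_ne.mem_nhds hy] with z hz
    exact term_eq H j _ hz

theorem inner_qL_self (k : Fin 3) (x : R4) : ⟪x, qL k x⟫ = 0 := by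
  fin_cases k <;> simp [qL, PiLp.inner_apply, Fin.sum_univ_four] <;> ring

theorem inner_qR_self (k : Fin 3) (x : R4) : ⟪x, qR k x⟫ = 0 := by
  fin_cases k <;> simp [qR, PiLp.inner_apply, Fin.sum_univ_four] <;> ring

/-- A decaying series with decaying derivative is differentiable, with the expected derivatives
along the fields. -/
theorem modeSum_deriv {w w' : Modes} (hd : ∀ j t, HasDerivAt (w j) (w' j t) t)
    (hw : Decay H w) (hw' : Decay H w') {x : R4} (hx : x ≠ 0) :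
    DifferentiableAt ℝ (modeSum H w) x ∧ fderiv ℝ (modeSum H w) x x = modeSum H w' x ∧
      (∀ k, fderiv ℝ (modeSum H w) x (qL k x) = modeSum H (fun j t => H.EL j k (w j t)) x) ∧
      ∀ k, fderiv ℝ (modeSum H w) x (qR k x) = modeSum H (fun j t => H.ER j k (w j t)) x := by
  obtain ⟨K1, hK1⟩ := H.deriv_bound 1
  set T := Real.log ‖x‖ with hT
  obtain ⟨Ka, ρa, ha0, ha1, ha⟩ := (hw.map (fun j _ v => ((j : ℝ) + 1) • v) (c := fun _ => 1) continuous_const 1 fun j t v => by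
      rw [norm_smul, Real.norm_eq_abs, abs_of_nonneg (by positivity)]; simp) (T - 1) (T + 1)
  obtain ⟨Kb, ρb, hb0, hb1, hb⟩ := hw' (T - 1) (T + 1)
  set S : Set R4 := {y | y ≠ 0 ∧ |Real.log ‖y‖ - T| < 1 ∧ ‖x‖ / 2 < ‖y‖} with hS
  have hxS : x ∈ S := ⟨hx, by simp [hT], by linarith [norm_pos_iff.mpr hx]⟩
  have hSopen : IsOpen S := by
    rw [isOpen_iff_mem_nhds]
    rintro y ⟨h1, h2, h3⟩
    have hc : ContinuousAt (fun z : R4 => |Real.log ‖z‖ - T|) y :=
      ((continuous_norm.continuousAt.log (norm_ne_zero_iff.mpr h1)).sub continuousAt_const).abs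
    filter_upwards [isOpen_ne.mem_nhds h1, hc.eventually_lt continuousAt_const h2,
      continuous_norm.continuousAt.eventually (lt_mem_nhds h3)] with z ha hb' hc'
    exact ⟨ha, hb', hc'⟩
  obtain ⟨ε, hε, hball⟩ := Metric.isOpen_iff.1 hSopen x hxS
  set c0 := 2 / ‖x‖ with hc0
  set M : ℕ → ℝ := fun j => c0 * ((|K1| + 1) * (|Ka| * ρa ^ j) + |Kb| * ρb ^ j) with hM
  have hMsum : Summable M :=
    ((((summable_geometric_of_lt_one ha0.le ha1).mul_left |Ka|).mul_left (|K1| + 1)).add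
      ((summable_geometric_of_lt_one hb0.le hb1).mul_left |Kb|)).mul_left c0
  have hbound : ∀ j, ∀ y ∈ S, ‖termD H j (w j (Real.log ‖y‖)) (w' j (Real.log ‖y‖)) y‖ ≤ M j := by
    rintro j y ⟨hy, hyT, hyR⟩
    set s := Real.log ‖y‖ with hs
    have hsI : s ∈ Set.Icc (T - 1) (T + 1) := by
      rw [abs_lt] at hyT; exact ⟨by linarith [hyT.1], by linarith [hyT.2]⟩
    have hn : 0 < ‖y‖ := norm_pos_iff.mpr hy
    have hyi : ‖y‖⁻¹ ≤ c0 := by
      rw [hc0, inv_le_comm₀ hn (by positivity), inv_div]; exact hyR.le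
    have hD : ‖fderiv ℝ (H.fn j (w j s)) (rhat y)‖ ≤
        |K1| * (H.C ^ j * (((j : ℝ) + 1) * ‖w j s‖)) := by
      have h := hK1 j (w j s) (rhat y) (norm_rhat hy).le
      rw [norm_iteratedFDeriv_one] at h
      refine h.trans ?_
      rw [pow_one, mul_assoc K1, mul_assoc K1, mul_assoc (H.C ^ j)]
      exact mul_le_mul_of_nonneg_right (le_abs_self _)
        (mul_nonneg (pow_nonneg (C_pos H).le _) (by positivity))
    have hA : H.C ^ j * (((j : ℝ) + 1) * ‖w j s‖) ≤ |Ka| * ρa ^ j := by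
      have h := ha j s hsI
      rw [norm_smul, Real.norm_eq_abs, abs_of_nonneg (by positivity)] at h
      exact h.trans (mul_le_mul_of_nonneg_right (le_abs_self _) (by positivity))
    have hB : H.C ^ j * ‖w' j s‖ ≤ |Kb| * ρb ^ j :=
      (hb j s hsI).trans (mul_le_mul_of_nonneg_right (le_abs_self _) (by positivity))
    have hexp : Real.exp (-((j : ℝ) * s)) = (‖y‖ ^ j)⁻¹ := by
      rw [Real.exp_neg, Real.exp_nat_mul, Real.exp_log hn]
    rw [termD]
    refine (norm_add_le _ _).trans ?_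
    rw [norm_smul, norm_smul, norm_smul, fderiv_fn_scale H j _ hy, innerSL_apply_norm,
      Real.norm_eq_abs, Real.norm_eq_abs, Real.norm_eq_abs, hexp,
      abs_of_pos (inv_pos.2 (pow_pos hn j)), abs_of_pos (inv_pos.2 (pow_pos hn 2))]
    have hE : |H.fn j (w' j s) (rhat y) - (j : ℝ) * H.fn j (w j s) (rhat y)| ≤
        |Kb| * ρb ^ j + |Ka| * ρa ^ j := by
      refine (abs_sub _ _).trans (add_le_add ((abs_fn_le (norm_rhat hy)).trans hB) ?_)
      rw [abs_mul, Nat.abs_cast]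
      calc (j : ℝ) * |H.fn j (w j s) (rhat y)| ≤ ((j : ℝ) + 1) * (H.C ^ j * ‖w j s‖) :=
            mul_le_mul (by linarith) (abs_fn_le (norm_rhat hy)) (abs_nonneg _) (by positivity)
        _ = H.C ^ j * (((j : ℝ) + 1) * ‖w j s‖) := by ring
        _ ≤ _ := hA
    calc (‖y‖ ^ j)⁻¹ * (‖y‖ ^ j * ‖y‖⁻¹ * ‖fderiv ℝ (H.fn j (w j s)) (rhat y)‖) +
          |H.fn j (w' j s) (rhat y) - (j : ℝ) * H.fn j (w j s) (rhat y)| * ((‖y‖ ^ 2)⁻¹ * ‖y‖)
        = ‖y‖⁻¹ * (‖fderiv ℝ (H.fn j (w j s)) (rhat y)‖ +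
          |H.fn j (w' j s) (rhat y) - (j : ℝ) * H.fn j (w j s) (rhat y)|) := by field_simp
      _ ≤ c0 * (|K1| * (|Ka| * ρa ^ j) + (|Kb| * ρb ^ j + |Ka| * ρa ^ j)) :=
          mul_le_mul hyi (add_le_add (hD.trans (mul_le_mul_of_nonneg_left hA (abs_nonneg _))) hE)
            (by positivity) (by positivity)
      _ = M j := by simp only [hM]; ring
  have hG := hasFDerivAt_tsum_of_isPreconnected (𝕜 := ℝ) (u := M) hMsum Metric.isOpen_ball
    (convex_ball x ε).isPreconnected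
    (f := fun j z => H.fn j (w j (Real.log ‖z‖)) (rhat z))
    (f' := fun j y => termD H j (w j (Real.log ‖y‖)) (w' j (Real.log ‖y‖)) y)
    (fun j y hy => hasFDerivAt_term H (hball hy).1 (hd j _))
    (fun j y hy => hbound j y (hball hy))
    (Metric.mem_ball_self hε) (summable_terms hw hx) (Metric.mem_ball_self hε)
  have hG' : HasFDerivAt (modeSum H w)
      (∑' j, termD H j (w j T) (w' j T) x) x := hG
  have hsD : Summable fun j => termD H j (w j T) (w' j T) x :=
    Summable.of_norm_bounded hMsum fun j => hbound j x hxS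
  have happ : ∀ v : R4, fderiv ℝ (modeSum H w) x v = ∑' j, termD H j (w j T) (w' j T) x v :=
    fun v => by
      rw [hG'.fderiv]
      exact (ContinuousLinearMap.apply ℝ ℝ v).map_tsum hsD
  have hn : ‖x‖ ^ 2 ≠ 0 := pow_ne_zero 2 (norm_ne_zero_iff.mpr hx)
  refine ⟨hG'.differentiableAt, ?_, fun k => ?_, fun k => ?_⟩
  · rw [happ]
    refine tsum_congr fun j => ?_
    simp only [termD, _root_.add_apply, _root_.smul_apply, smul_eq_mul, innerSL_apply_apply,
      real_inner_self_eq_norm_sq, fderiv_fn_self, term_eq H j _ hx]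
    field_simp
    ring
  · rw [happ]
    refine tsum_congr fun j => ?_
    simp only [termD, _root_.add_apply, _root_.smul_apply, smul_eq_mul, innerSL_apply_apply,
      inner_qL_self, mul_zero, add_zero]
    rw [term_eq H j _ hx]
    exact congrArg _ (H.deriv_left j k (w j T) x)
  · rw [happ]
    refine tsum_congr fun j => ?_
    simp only [termD, _root_.add_apply, _root_.smul_apply, smul_eq_mul, innerSL_apply_apply,
      inner_qR_self, mul_zero, add_zero]
    rw [term_eq H j _ hx]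
    exact congrArg _ (H.deriv_right j k (w j T) x)

end

end Vale.Agent.P225.Geo
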