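import Vale.Agent.P225.Core
import Vale.Agent.P225.Geo.Global

/-!
P225: the metric attached to a shape and to pulse amplitudes, through its flux
`A = √det g · g⁻¹`; in dimension four `g = √det A · A⁻¹`.
-/

namespace Vale.Agent.P225

open scoped Matrix

noncomputable section

/-- The outer product. -/
def outer (v w : R4) : Matrix (Fin 4) (Fin 4) ℝ := Matrix.of fun i k => v i * w k

/-- The radial unit vector; zero at the origin. -/
def rhat (x : R4) : R4 := ‖x‖⁻¹ • x

/-- The unit vector of the left axis field. -/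
def eLAxis (a : Fin 6) (x : R4) : R4 := ∑ k, axisVec a k • qL k (rhat x)

/-- Squash of the tangent space along the unit vector `e`, on inverse metrics. -/
def squash (b : ℝ) (x e : R4) : Matrix (Fin 4) (Fin 4) ℝ :=
  (Real.exp (2 * b) - 1) • (1 - outer (rhat x) (rhat x) - outer e e) +
    (Real.exp (-4 * b) - 1) • outer e e

/-- The flux of a shape. At the origin it is the identity. -/
def Shape.flux (sh : Shape) (x : R4) : Matrix (Fin 4) (Fin 4) ℝ :=
  let t := Real.log ‖x‖
  Real.exp (-3 * sh.χ t) • (outer (rhat x) (rhat x) + Real.exp (2 * sh.χ t) •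
    ((1 - outer (rhat x) (rhat x)) + squash (sh.β t) x (qR 0 (rhat x)) +
      ∑ a, squash (sh.γ a t) x (eLAxis a x)))

/-- The matrix by which a kind of pulse perturbs the flux. -/
def kindMatrix (x : R4) : Option (Fin 3) → Matrix (Fin 4) (Fin 4) ℝ
  | some k => outer (rhat x) (qL k (rhat x)) + outer (qL k (rhat x)) (rhat x)
  | none => ∑ k, outer (qL k (rhat x)) (qL k (rhat x))

/-- The perturbed flux. -/
def fullFlux (H : Harm) (sh : Shape) {P : Pulses} (A : Amps P) (x : R4) :
    Matrix (Fin 4) (Fin 4) ℝ :=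
  sh.flux x + Real.exp (-3 * sh.χ (Real.log ‖x‖)) •
    ∑' n : ℕ, ∑ l, (A.θ n l * (P.item l).prof (Real.log ‖x‖ - A.pos n) *
      H.fn (P.item l).deg (P.item l).vec (rhat x)) • kindMatrix x (P.item l).kind

/-- The counterexample's metric. -/
def theMetric (H : Harm) (sh : Shape) {P : Pulses} (A : Amps P) :
    R4 → Matrix (Fin 4) (Fin 4) ℝ :=
  metricOfFlux (fullFlux H sh A)

/-- The function with mode coefficients `u`; at the origin only degree zero survives. -/
def modeSum (H : Harm) (u : (j : ℕ) → ℝ → V j) (x : R4) : ℝ :=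
  ∑' j : ℕ, H.fn j (u j (Real.log ‖x‖)) (rhat x)

end

end Vale.Agent.P225
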