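import Vale.Agent.P225.Geo.Shape
import Vale.Agent.P225.Geo.Model
import Vale.Agent.P225.Sched.Defs

/-!
P225: the flux of a `Shape` is the flux of a squashed metric wherever one axis is active; the
unperturbed metric is smooth and its Ricci curvature is bounded below by the scalar quantities
`ric0`, `ric1`, `ric2` of each axis.
-/

namespace Vale.Agent.P225.Geo

open Finset Matrix Real Filter
open scoped ContDiff Topology

noncomputable section

/-- The matrix of left multiplication by `c 0 i + c 1 j + c 2 k`. -/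
def leftJ (c : Fin 3 → ℝ) : Matrix (Fin 4) (Fin 4) ℝ :=
  !![0, -c 0, -c 1, -c 2; c 0, 0, -c 2, c 1; c 1, c 2, 0, -c 0; c 2, -c 1, c 0, 0]

/-- The matrix of right multiplication by `i`. -/
def rightJ : Matrix (Fin 4) (Fin 4) ℝ :=
  !![0, -1, 0, 0; 1, 0, 0, 0; 0, 0, 0, 1; 0, 0, -1, 0]

/-- The axes of a shape: `none` for the right one. -/
def axisJ : Option (Fin 6) → Matrix (Fin 4) (Fin 4) ℝ
  | none => rightJ
  | some a => leftJ (axisVec a)

/-- The squash along an axis. -/
def squashOn (sh : Shape) : Option (Fin 6) → ℝ → ℝ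
  | none => sh.β
  | some a => sh.γ a

/-- `log a` along the axis. -/
def alOf (sh : Shape) (o : Option (Fin 6)) (t : ℝ) : ℝ := -sh.χ t + 2 * squashOn sh o t

/-- `log b` across the axis. -/
def beOf (sh : Shape) (o : Option (Fin 6)) (t : ℝ) : ℝ := -sh.χ t - squashOn sh o t

theorem axisVec_sq (a : Fin 6) : ∑ k, axisVec a k ^ 2 = 1 := by
  have h : (Real.sqrt 2)⁻¹ ^ 2 = (2 : ℝ)⁻¹ := by
    rw [inv_pow, Real.sq_sqrt (by norm_num)]
  fin_cases a <;> simp [axisVec, Fin.sum_univ_three, h] <;> norm_num

theorem isAxis_leftJ {c : Fin 3 → ℝ} (hc : ∑ k, c k ^ 2 = 1) : IsAxis (leftJ c) := by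
  rw [Fin.sum_univ_three] at hc
  constructor
  · ext i k
    fin_cases i <;> fin_cases k <;> simp [leftJ]
  · ext i k
    fin_cases i <;> fin_cases k <;>
      simp [leftJ, Matrix.mul_apply, Fin.sum_univ_four] <;> linarith

theorem isAxis_axisJ (o : Option (Fin 6)) : IsAxis (axisJ o) := by
  cases o with
  | none =>
    constructor <;> ext i k <;> fin_cases i <;> fin_cases k <;>
      simp [axisJ, rightJ, Matrix.mul_apply, Fin.sum_univ_four]
  | some a => exact isAxis_leftJ (axisVec_sq a)

theorem qR_apply (x : R4) (i : Fin 4) : qR 0 x i = ev (axisJ none) x i := by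
  fin_cases i <;> simp [qR, ev, axisJ, rightJ, Matrix.mulVec, dotProduct, Fin.sum_univ_four]

theorem eLAxis_apply (a : Fin 6) (x : R4) (i : Fin 4) :
    eLAxis a x i = ‖x‖⁻¹ * ev (axisJ (some a)) x i := by
  fin_cases i <;>
    simp [eLAxis, rhat, qL, ev, axisJ, leftJ, Matrix.mulVec, dotProduct, Fin.sum_univ_four,
      Fin.sum_univ_three] <;> ring

/-- The unit field of an axis. -/
def axisField : Option (Fin 6) → R4 → R4
  | none, x => qR 0 (rhat x)
  | some a, x => eLAxis a x

variable (sh : Shape)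

theorem squashOn_single {o o' : Option (Fin 6)} (h : o ≠ o') {t : ℝ}
    (ho : squashOn sh o t ≠ 0) : squashOn sh o' t = 0 := by
  cases o with
  | none =>
    cases o' with
    | none => exact absurd rfl h
    | some b => exact sh.single_β t b ho
  | some a =>
    cases o' with
    | none =>
      by_contra hb
      exact ho (sh.single_β t a hb)
    | some b => exact sh.single_γ t a b (fun e => h (congrArg some e)) ho

theorem squashOn_smooth (o : Option (Fin 6)) : ContDiff ℝ ∞ (squashOn sh o) := by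
  cases o
  · exact sh.smooth_β
  · exact sh.smooth_γ _

theorem squashOn_start (o : Option (Fin 6)) {t : ℝ} (ht : t ≤ 0) : squashOn sh o t = 0 := by
  cases o
  · exact (sh.start t ht).2.1
  · exact (sh.start t ht).2.2 _

theorem alOf_smooth (o : Option (Fin 6)) : ContDiff ℝ ∞ (alOf sh o) :=
  sh.smooth_χ.neg.add (contDiff_const.mul (squashOn_smooth sh o))

theorem beOf_smooth (o : Option (Fin 6)) : ContDiff ℝ ∞ (beOf sh o) :=
  sh.smooth_χ.neg.sub (squashOn_smooth sh o)

theorem alOf_start (o : Option (Fin 6)) : ∀ t ≤ 0, alOf sh o t = 0 := fun t ht => by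
  simp [alOf, squashOn_start sh o ht, (sh.start t ht).1]

theorem beOf_start (o : Option (Fin 6)) : ∀ t ≤ 0, beOf sh o t = 0 := fun t ht => by
  simp [beOf, squashOn_start sh o ht, (sh.start t ht).1]

/-- Wherever one axis is active, the flux of the shape is a `form`. -/
theorem flux_eq_form {x : R4} (hx : x ≠ 0) (o : Option (Fin 6))
    (h : ∀ o' ≠ o, squashOn sh o' (log ‖x‖) = 0) :
    sh.flux x = form (axisJ o)
      (exp (alOf sh o (log ‖x‖) + 2 * beOf sh o (log ‖x‖)) * exp (-(2 * beOf sh o (log ‖x‖))))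
      (exp (alOf sh o (log ‖x‖) + 2 * beOf sh o (log ‖x‖)) *
        ((1 - exp (-(2 * beOf sh o (log ‖x‖)))) / rho x))
      (exp (alOf sh o (log ‖x‖) + 2 * beOf sh o (log ‖x‖)) *
        ((exp (-(2 * alOf sh o (log ‖x‖))) - exp (-(2 * beOf sh o (log ‖x‖)))) / rho x)) x := by
  have hn : ‖x‖ ≠ 0 := norm_ne_zero_iff.mpr hx
  set t := log ‖x‖ with ht
  have e1 : exp (alOf sh o t + 2 * beOf sh o t) = exp (-3 * sh.χ t) := by
    congr 1; simp only [alOf, beOf]; ring
  have e2 : exp (-(2 * beOf sh o t)) = exp (2 * sh.χ t) * exp (2 * squashOn sh o t) := by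
    rw [← Real.exp_add]; congr 1; simp only [beOf]; ring
  have e3 : exp (-(2 * alOf sh o t)) = exp (2 * sh.χ t) * exp (-4 * squashOn sh o t) := by
    rw [← Real.exp_add]; congr 1; simp only [alOf]; ring
  rw [e1, e2, e3]
  have zero : ∀ (b : ℝ) (y e : R4), b = 0 → squash b y e = 0 := by
    intro b y e hb
    simp [squash, hb]
  have hr : ∀ i, rhat x i = ‖x‖⁻¹ * x i := fun i => by simp [rhat]
  have hqr : ∀ i, qR 0 (rhat x) i = ‖x‖⁻¹ * ev (axisJ none) x i := fun i => by
    rw [qR_apply, ev, ev, show ⇑(rhat x) = ‖x‖⁻¹ • ⇑x from rfl, Matrix.mulVec_smul,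
      Pi.smul_apply, smul_eq_mul]
  have hsum : squash (sh.β t) x (qR 0 (rhat x)) + ∑ a, squash (sh.γ a t) x (eLAxis a x) =
      squash (squashOn sh o t) x (axisField o x) := by
    cases o with
    | none =>
      rw [Finset.sum_eq_zero fun a _ => zero (sh.γ a t) _ _ (h (some a) (by simp)), add_zero]
      rfl
    | some a =>
      rw [zero (sh.β t) _ _ (h none (by simp)), zero_add,
        Finset.sum_eq_single a (fun b _ hb => zero (sh.γ b t) _ _ (h (some b) (by simpa using hb)))
          (by simp)]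
      rfl
  rw [Shape.flux]
  simp only [← ht]
  rw [add_assoc, hsum]
  ext i k
  cases o <;>
    simp only [squash, axisField, squashOn, Matrix.add_apply, Matrix.sub_apply, Matrix.smul_apply,
      outer,
      Matrix.of_apply, Matrix.one_apply, form_apply, smul_eq_mul, hr, hqr, eLAxis_apply,
      rho_eq_norm_sq] <;>
    field_simp <;> ring

/-- The flux of a shape is the identity in the unit ball. -/
theorem flux_eq_one {x : R4} (hx : ‖x‖ ≤ 1) : sh.flux x = 1 := by
  have ht : log ‖x‖ ≤ 0 := log_nonpos (norm_nonneg _) hx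
  obtain ⟨h1, h2, h3⟩ := sh.start _ ht
  simp [Shape.flux, h1, h2, h3, squash]

/-- The flux of a shape is smooth and positive. -/
theorem isMetric_flux : IsMetric sh.flux where
  smooth i k := by
    rw [contDiff_iff_contDiffAt]
    intro x
    rcases lt_or_ge ‖x‖ 1 with hx | hx
    · refine (contDiffAt_const (c := (1 : Matrix (Fin 4) (Fin 4) ℝ) i k)).congr_of_eventuallyEq ?_
      filter_upwards [(isOpen_lt continuous_norm continuous_const).mem_nhds hx] with y hy
      rw [flux_eq_one sh (le_of_lt hy)]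
    · have hne : x ≠ 0 := by
        rintro rfl
        simp at hx
        linarith
      have hn := norm_ne_zero_iff.mpr hne
      have hnorm : ContDiffAt ℝ ∞ (fun y : R4 => ‖y‖) x := contDiffAt_norm ℝ hne
      have hl : ContDiffAt ℝ ∞ (fun y : R4 => log ‖y‖) x := hnorm.log hn
      have hco : ∀ j, ContDiffAt ℝ ∞ (fun y : R4 => ‖y‖⁻¹ * y j) x := fun j =>
        (hnorm.inv hn).mul (by fun_prop)
      have hev : ∀ (J : Matrix (Fin 4) (Fin 4) ℝ) j,
          ContDiffAt ℝ ∞ (fun y : R4 => ‖y‖⁻¹ * ev J y j) x := fun J j =>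
        (hnorm.inv hn).mul (by unfold ev Matrix.mulVec dotProduct; fun_prop)
      have hχ := sh.smooth_χ.contDiffAt.comp x hl
      have hβ := sh.smooth_β.contDiffAt.comp x hl
      have hγ := fun a => (sh.smooth_γ a).contDiffAt.comp x hl
      have hqr : ∀ y : R4, ∀ j, qR 0 (rhat y) j = ‖y‖⁻¹ * ev (axisJ none) y j := fun y j => by
        rw [qR_apply, ev, ev, show ⇑(rhat y) = ‖y‖⁻¹ • ⇑y from rfl, Matrix.mulVec_smul,
          Pi.smul_apply, smul_eq_mul]
      simp only [Shape.flux, squash, Matrix.add_apply, Matrix.sub_apply, Matrix.smul_apply,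
        Matrix.sum_apply, outer, Matrix.of_apply, smul_eq_mul, hqr, eLAxis_apply,
        show ∀ y : R4, ∀ j, rhat y j = ‖y‖⁻¹ * y j from fun y j => by simp [rhat]]
      fun_prop
  symm x i k := by
    simp only [Shape.flux, squash, Matrix.add_apply, Matrix.sub_apply, Matrix.smul_apply,
      Matrix.sum_apply, outer, Matrix.of_apply, smul_eq_mul, Matrix.one_apply, @eq_comm _ k i,
      mul_comm (rhat x k), mul_comm (qR 0 (rhat x) k)]
    refine congrArg _ (congrArg _ (congrArg _ (congrArg _ ?_)))
    exact Finset.sum_congr rfl fun a _ => by rw [mul_comm (eLAxis a x k)]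
  pos x v hv := by
    have hvv : 0 < v ⬝ᵥ v :=
      lt_of_le_of_ne (Finset.sum_nonneg fun i _ => mul_self_nonneg _)
        fun h => hv (dotProduct_self_eq_zero.mp h.symm)
    rcases eq_or_ne x 0 with rfl | hx
    · rw [flux_eq_one sh (by simp)]
      simpa [Matrix.one_apply, dotProduct] using hvv
    · obtain ⟨o, ho⟩ : ∃ o, ∀ o' ≠ o, squashOn sh o' (log ‖x‖) = 0 := by
        by_cases h : ∃ o, squashOn sh o (log ‖x‖) ≠ 0
        · obtain ⟨o, ho⟩ := h
          exact ⟨o, fun o' ho' => squashOn_single sh (Ne.symm ho') ho⟩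
        · push Not at h
          exact ⟨none, fun o' _ => h o'⟩
      rw [flux_eq_form sh hx o ho, form_quad]
      have hr := rho_pos hx
      have hb := bessel (isAxis_axisJ o) x v
      set c := exp (alOf sh o (log ‖x‖) + 2 * beOf sh o (log ‖x‖))
      set B := exp (-(2 * beOf sh o (log ‖x‖)))
      set A := exp (-(2 * alOf sh o (log ‖x‖)))
      set r := rho x
      set P := (⇑x ⬝ᵥ v) ^ 2
      set M := (ev (axisJ o) x ⬝ᵥ v) ^ 2
      have hc : 0 < c := exp_pos _
      have hB : 0 < B := exp_pos _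
      have hA : 0 < A := exp_pos _
      have key : c * B * (v ⬝ᵥ v) + c * ((1 - B) / r) * P + c * ((A - B) / r) * M =
          c / r * (B * (r * (v ⬝ᵥ v) - (P + M)) + P + A * M) := by field_simp; ring
      rw [key]
      refine mul_pos (div_pos hc hr) ?_
      have hP : 0 ≤ P := sq_nonneg _
      have hM : 0 ≤ M := sq_nonneg _
      rcases (show 0 ≤ r * (v ⬝ᵥ v) - (P + M) by linarith).eq_or_lt with h | h
      · rw [← h]
        rcases hP.eq_or_lt with hp | hp
        · have : 0 < M := by nlinarith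
          nlinarith [mul_pos hA this]
        · nlinarith [mul_nonneg hA.le hM]
      · nlinarith [mul_pos hB h, mul_nonneg hA.le hM]

/-- Wherever one axis is active, the unperturbed metric is the squashed metric. -/
theorem metricOfFlux_flux {x : R4} (hx : x ≠ 0) (o : Option (Fin 6))
    (h : ∀ o' ≠ o, squashOn sh o' (log ‖x‖) = 0) :
    metricOfFlux sh.flux x = shape (axisJ o) (alOf sh o) (beOf sh o) x := by
  have hJ := isAxis_axisJ o
  set g := shape (axisJ o) (alOf sh o) (beOf sh o) x with hg
  set a := alOf sh o (log ‖x‖)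
  set b := beOf sh o (log ‖x‖)
  have hflux : sh.flux x = exp (a + 2 * b) • g⁻¹ := by
    rw [flux_eq_form sh hx o h, hg, shape_inv hJ hx, ltime_rho]
    ext i k
    simp only [form_apply, Matrix.smul_apply, smul_eq_mul, a, b]
    ring
  have hdet : g.det = exp (a + 2 * b) ^ 2 := by
    rw [hg, shape_det hJ hx, ltime_rho, ← Real.exp_nat_mul, ← Real.exp_nat_mul, ← Real.exp_add]
    congr 1
    simp only [a, b]
    push_cast
    ring
  set c := exp (a + 2 * b) with hc
  have hc0 : c ≠ 0 := (exp_pos _).ne'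
  have hd0 : g.det ≠ 0 := by rw [hdet]; positivity
  have hfd : (sh.flux x).det = c ^ 2 := by
    rw [hflux, det_smul, det_nonsing_inv, Ring.inverse_eq_inv', Fintype.card_fin, hdet]
    field_simp
  rw [metricOfFlux, hfd, Real.sqrt_sq (exp_pos _).le, hflux]
  rw [Matrix.inv_eq_right_inv (A := c • g⁻¹) (B := c⁻¹ • g) (by
    rw [Matrix.smul_mul, Matrix.mul_smul, smul_smul, mul_inv_cancel₀ hc0, one_smul,
      nonsing_inv_mul _ (isUnit_iff_ne_zero.2 hd0)]), smul_smul, mul_inv_cancel₀ hc0, one_smul]

theorem contDiff_pd {f : R4 → ℝ} (hf : ContDiff ℝ ∞ f) (i : Fin 4) : ContDiff ℝ ∞ (pd i f) := by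
  unfold pd
  exact (hf.fderiv_right (m := ∞) (by simp)).clm_apply contDiff_const

theorem contDiff_christoffel {g : R4 → Matrix (Fin 4) (Fin 4) ℝ} (hg : IsMetric g)
    (i k l : Fin 4) : ContDiff ℝ ∞ (christoffel g i k l) := by
  unfold christoffel
  exact contDiff_const.mul (ContDiff.sum fun a _ => (contDiff_inv_apply hg i a).mul
    (((contDiff_pd (hg.smooth a l) k).add (contDiff_pd (hg.smooth a k) l)).sub
      (contDiff_pd (hg.smooth k l) a)))

theorem continuous_ricci {g : R4 → Matrix (Fin 4) (Fin 4) ℝ} (hg : IsMetric g) (k l : Fin 4) :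
    Continuous fun x => ricci g x k l := by
  unfold ricci
  have h := fun i k l => (contDiff_christoffel hg i k l).continuous
  have h' := fun m i k l => (contDiff_pd (contDiff_christoffel hg i k l) m).continuous
  fun_prop

theorem ricci_congr {g g' : R4 → Matrix (Fin 4) (Fin 4) ℝ} {x : R4} (h : g =ᶠ[𝓝 x] g')
    (k l : Fin 4) : ricci g x k l = ricci g' x k l := by
  have hc : ∀ i k l, christoffel g i k l =ᶠ[𝓝 x] christoffel g' i k l := by
    intro i k l
    filter_upwards [eventually_eventually_nhds.2 h] with y hy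
    have hp : ∀ m a b, pd m (fun z => g z a b) y = pd m (fun z => g' z a b) y := fun m a b =>
      pd_congr m (hy.mono fun z hz => congrFun (congrFun hz a) b)
    simp only [christoffel, hy.self_of_nhds, hp]
  simp only [ricci, fun m i k l => pd_congr m (hc i k l), fun i k l => (hc i k l).eq_of_nhds]

/-- The Ricci curvature of the unperturbed metric, from the scalar inequalities of each axis. -/
theorem flux_ricci_ge {m : ℝ → ℝ} (hm : Continuous m)
    (h : ∀ t o, m t ≤ Sched.ric0 (alOf sh o) (beOf sh o) t ∧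
      m t ≤ Sched.ric1 (alOf sh o) (beOf sh o) t ∧ m t ≤ Sched.ric2 (alOf sh o) (beOf sh o) t)
    {x : R4} (hx : x ≠ 0) (v : Fin 4 → ℝ) :
    m (log ‖x‖) / ‖x‖ ^ 2 * (∑ i, ∑ k, metricOfFlux sh.flux x i k * v i * v k) ≤
      ∑ k, ∑ l, ricci (metricOfFlux sh.flux) x k l * v k * v l := by
  have hJ := fun o => isAxis_axisJ o
  have hG : IsMetric (metricOfFlux sh.flux) := isMetric_metricOfFlux (isMetric_flux sh)
  -- at the times with one active axis nearby
  have good : ∀ (y : R4), y ≠ 0 → ∀ o, (∀ᶠ s in 𝓝 (log ‖y‖), ∀ o' ≠ o, squashOn sh o' s = 0) →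
      m (log ‖y‖) / ‖y‖ ^ 2 * (∑ i, ∑ k, metricOfFlux sh.flux y i k * v i * v k) ≤
        ∑ k, ∑ l, ricci (metricOfFlux sh.flux) y k l * v k * v l := by
    intro y hy o ho
    have hc : ContinuousAt (fun z : R4 => log ‖z‖) y :=
      continuous_norm.continuousAt.log (norm_ne_zero_iff.mpr hy)
    have hEq : metricOfFlux sh.flux =ᶠ[𝓝 y] shape (axisJ o) (alOf sh o) (beOf sh o) := by
      filter_upwards [isOpen_ne.mem_nhds hy, hc.eventually ho] with z hz hz'
      exact metricOfFlux_flux sh hz o hz'
    simp only [hEq.eq_of_nhds, ricci_congr hEq, ← rho_eq_norm_sq]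
    obtain ⟨h0, h1, h2⟩ := h (log ‖y‖) o
    refine shape_quad (alOf_smooth sh o) (beOf_smooth sh o) (hJ o) hy ?_ ?_ ?_ v
    · rw [ltime_rho]; exact h0
    · rw [ltime_rho]
      refine h1.trans_eq ?_
      simp only [Sched.ric1, ric1]; ring
    · rw [ltime_rho]
      refine h2.trans_eq ?_
      simp only [Sched.ric2, ric2, neg_mul]; ring
  -- such times are dense
  set t := log ‖x‖ with ht
  by_cases hz : ∀ᶠ s in 𝓝 t, ∀ o, squashOn sh o s = 0
  · exact good x hx none (hz.mono fun s hs o' _ => hs o')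
  · set f : ℝ → ℝ := fun s => (∑ k, ∑ l, ricci (metricOfFlux sh.flux) (exp (s - t) • x) k l * v k * v l)
      - m s / ‖exp (s - t) • x‖ ^ 2 *
        (∑ i, ∑ k, metricOfFlux sh.flux (exp (s - t) • x) i k * v i * v k) with hf
    have hy : ∀ s, exp (s - t) • x ≠ 0 := fun s => smul_ne_zero (exp_pos _).ne' hx
    have hlog : ∀ s, log ‖exp (s - t) • x‖ = s := fun s => by
      rw [norm_smul, Real.norm_eq_abs, abs_of_pos (exp_pos _),
        Real.log_mul (exp_pos _).ne' (norm_ne_zero_iff.mpr hx), Real.log_exp]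
      ring
    have hpath : Continuous fun s : ℝ => exp (s - t) • x := by fun_prop
    have hcont : Continuous f := by
      have hr := fun k l => (continuous_ricci hG k l).comp hpath
      have hg := fun i k => (hG.smooth i k).continuous.comp hpath
      refine Continuous.sub ?_ (Continuous.mul (hm.div ((continuous_norm.comp hpath).pow 2)
        fun s => pow_ne_zero 2 (norm_ne_zero_iff.mpr (hy s))) ?_)
      · exact continuous_finsetSum _ fun k _ => continuous_finsetSum _ fun l _ =>
          ((hr k l).mul continuous_const).mul continuous_const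
      · exact continuous_finsetSum _ fun i _ => continuous_finsetSum _ fun k _ =>
          ((hg i k).mul continuous_const).mul continuous_const
    have hne : ∀ o s, squashOn sh o s ≠ 0 → 0 ≤ f s := by
      intro o s hs
      have hev : ∀ᶠ u in 𝓝 (log ‖exp (s - t) • x‖), ∀ o' ≠ o, squashOn sh o' u = 0 := by
        rw [hlog]
        filter_upwards [(squashOn_smooth sh o).continuous.continuousAt.eventually_ne hs] with u hu
        exact fun o' ho' => squashOn_single sh (Ne.symm ho') hu
      have h2 := good _ (hy s) o hev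
      rw [hlog] at h2
      simp only [hf]
      linarith
    have hfr : ∃ᶠ s in 𝓝 t, 0 ≤ f s := by
      refine (Filter.not_eventually.1 hz).mono fun s hs => ?_
      push Not at hs
      obtain ⟨o, ho⟩ := hs
      exact hne o s ho
    have h0 : 0 ≤ f t := (isClosed_le continuous_const hcont).mem_of_frequently_of_tendsto hfr
      tendsto_id
    simp only [hf, sub_self, Real.exp_zero, one_smul] at h0
    linarith

end

end Vale.Agent.P225.Geo
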