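import Vale.Agent.P225.Geo.JetBound

/-!
P225: the Ricci curvature of the metric with a given flux depends on the flux and its first two
derivatives in a Lipschitz way, uniformly in the radius.
-/

namespace Vale.Agent.P225.Geo

open scoped ContDiff Topology
open Set Filter

noncomputable section

/-- Square arrays with the supremum norm. -/
abbrev Sq := Fin 4 → Fin 4 → ℝ

/-- Arrays with a positive determinant. -/
def posDet : Set Sq := {A | 0 < (Matrix.of A).det}

/-- An entry of the metric as a function of the flux. -/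
def metricEntry (a b : Fin 4) (A : Sq) : ℝ := fromFlux (Matrix.of A) a b

/-- An entry of the inverse metric as a function of the flux. -/
def coEntry (a b : Fin 4) (A : Sq) : ℝ := (fromFlux (Matrix.of A))⁻¹ a b

/-- The Christoffel symbol as a function of the flux and its derivative. -/
def chrFun (i k l : Fin 4) (p : Sq × (Fin 4 → Sq)) : ℝ :=
  (1 / 2) * ∑ a, coEntry i a p.1 *
    (fderiv ℝ (metricEntry a l) p.1 (p.2 k) + fderiv ℝ (metricEntry a k) p.1 (p.2 l) -
      fderiv ℝ (metricEntry k l) p.1 (p.2 a))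

/-- Flux, first derivatives and second derivatives. -/
abbrev Jet := Sq × (Fin 4 → Sq) × (Fin 4 → Fin 4 → Sq)

/-- The derivative of a Christoffel symbol as a function of the jet. -/
def chrDeriv (m i k l : Fin 4) (j : Jet) : ℝ :=
  fderiv ℝ (chrFun i k l) (j.1, j.2.1) (j.2.1 m, j.2.2 m)

/-- The Ricci tensor as a function of the jet. -/
def ricFun (k l : Fin 4) (j : Jet) : ℝ :=
  (∑ i, (chrDeriv i i k l j - chrDeriv k i i l j)) +
    ∑ i, ∑ a, (chrFun i i a (j.1, j.2.1) * chrFun a k l (j.1, j.2.1) -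
      chrFun i k a (j.1, j.2.1) * chrFun a i l (j.1, j.2.1))

/-- The jet at `x` of a field of fluxes. -/
def jetAt (A : R4 → Matrix (Fin 4) (Fin 4) ℝ) (x : R4) : Jet :=
  (fun a b => A x a b, fun i a b => pd i (fun y => A y a b) x,
    fun m i a b => pd m (pd i fun y => A y a b) x)

/-! ### Smoothness -/

theorem contDiff_detEntry : ContDiff ℝ ∞ fun A : Sq => (Matrix.of A).det := by
  simp only [Matrix.det_apply, Units.smul_def, zsmul_eq_mul, Matrix.of_apply]
  exact ContDiff.sum fun σ _ => contDiff_const.mul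
    (contDiff_prod fun i _ => contDiff_apply_apply ℝ ℝ (σ i) i)

theorem isOpen_posDet : IsOpen posDet :=
  isOpen_lt continuous_const contDiff_detEntry.continuous

theorem contDiff_adjugateEntry (a b : Fin 4) :
    ContDiff ℝ ∞ fun A : Sq => (Matrix.of A).adjugate a b := by
  simp only [Matrix.adjugate_apply]
  refine contDiff_detEntry.comp (f := fun A : Sq =>
    (fun i j => (Matrix.of A).updateRow b (Pi.single a 1) i j : Sq)) ?_
  refine contDiff_pi.2 fun i => contDiff_pi.2 fun j => ?_
  by_cases h : i = b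
  · simp only [h, Matrix.updateRow_self]
    exact contDiff_const
  · simp only [Matrix.updateRow_ne h, Matrix.of_apply]
    exact contDiff_apply_apply ℝ ℝ i j

theorem contDiffOn_invEntry (a b : Fin 4) :
    ContDiffOn ℝ ∞ (fun A : Sq => (Matrix.of A)⁻¹ a b) {A | (Matrix.of A).det ≠ 0} := by
  simp only [Matrix.inv_def, Matrix.smul_apply, smul_eq_mul, Ring.inverse_eq_inv']
  exact (contDiff_detEntry.contDiffOn.inv fun A hA => hA).mul
    (contDiff_adjugateEntry a b).contDiffOn

theorem contDiffOn_metricEntry (a b : Fin 4) : ContDiffOn ℝ ∞ (metricEntry a b) posDet := by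
  change ContDiffOn ℝ ∞ (fun A : Sq => Real.sqrt (Matrix.of A).det * (Matrix.of A)⁻¹ a b) posDet
  refine ContDiffOn.mul ?_ ((contDiffOn_invEntry a b).mono fun A hA => ne_of_gt hA)
  exact contDiff_detEntry.contDiffOn.sqrt fun A hA => ne_of_gt hA

theorem det_fromFlux_ne {A : Matrix (Fin 4) (Fin 4) ℝ} (h : 0 < A.det) :
    (fromFlux A).det ≠ 0 := by
  rw [fromFlux, Matrix.det_smul, Matrix.det_nonsing_inv, Ring.inverse_eq_inv']
  exact mul_ne_zero (pow_ne_zero _ (Real.sqrt_ne_zero'.2 h)) (inv_ne_zero (ne_of_gt h))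

theorem contDiffOn_coEntry (a b : Fin 4) : ContDiffOn ℝ ∞ (coEntry a b) posDet := by
  have h : ContDiffOn ℝ ∞ (fun A : Sq => (fun i j => metricEntry i j A : Sq)) posDet :=
    contDiffOn_pi.2 fun i => contDiffOn_pi.2 fun j => contDiffOn_metricEntry i j
  exact (contDiffOn_invEntry a b).comp h fun A hA => det_fromFlux_ne hA

theorem contDiffOn_fderiv_metricEntry (a b : Fin 4) :
    ContDiffOn ℝ ∞ (fderiv ℝ (metricEntry a b)) posDet :=
  (contDiffOn_metricEntry a b).fderiv_of_isOpen isOpen_posDet le_rfl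

theorem contDiffOn_chrFun (i k l : Fin 4) :
    ContDiffOn ℝ ∞ (chrFun i k l) (posDet ×ˢ univ) := by
  have hfst : MapsTo (Prod.fst : Sq × (Fin 4 → Sq) → Sq) (posDet ×ˢ univ) posDet :=
    fun p hp => hp.1
  have h1 : ∀ a b, ContDiffOn ℝ ∞ (fun p : Sq × (Fin 4 → Sq) => coEntry a b p.1)
      (posDet ×ˢ univ) := fun a b => (contDiffOn_coEntry a b).comp contDiffOn_fst hfst
  have h2 : ∀ a b m, ContDiffOn ℝ ∞
      (fun p : Sq × (Fin 4 → Sq) => fderiv ℝ (metricEntry a b) p.1 (p.2 m))
      (posDet ×ˢ univ) := fun a b m =>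
    ((contDiffOn_fderiv_metricEntry a b).comp contDiffOn_fst hfst).clm_apply
      ((contDiff_apply ℝ Sq m).comp contDiff_snd).contDiffOn
  unfold chrFun
  exact contDiffOn_const.mul
    (ContDiffOn.sum fun a _ => (h1 i a).mul (((h2 a l k).add (h2 a k l)).sub (h2 k l a)))

theorem differentiableAt_chrFun (i k l : Fin 4) {p : Sq × (Fin 4 → Sq)} (hp : p.1 ∈ posDet) :
    DifferentiableAt ℝ (chrFun i k l) p :=
  ((contDiffOn_chrFun i k l).differentiableOn (by simp)).differentiableAt
    ((isOpen_posDet.prod isOpen_univ).mem_nhds ⟨hp, mem_univ _⟩)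

theorem contDiffOn_ricFun (k l : Fin 4) :
    ContDiffOn ℝ ∞ (ricFun k l) (posDet ×ˢ univ) := by
  have hp : ContDiff ℝ ∞ fun j : Jet => (j.1, j.2.1) :=
    contDiff_fst.prodMk (contDiff_fst.comp contDiff_snd)
  have hmap : MapsTo (fun j : Jet => (j.1, j.2.1)) (posDet ×ˢ univ) (posDet ×ˢ univ) :=
    fun j hj => ⟨hj.1, mem_univ _⟩
  have h1 : ∀ a b c, ContDiffOn ℝ ∞ (fun j : Jet => chrFun a b c (j.1, j.2.1))
      (posDet ×ˢ univ) := fun a b c => (contDiffOn_chrFun a b c).comp hp.contDiffOn hmap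
  have h2 : ∀ m a b c, ContDiffOn ℝ ∞ (chrDeriv m a b c) (posDet ×ˢ univ) := fun m a b c =>
    (((contDiffOn_chrFun a b c).fderiv_of_isOpen (isOpen_posDet.prod isOpen_univ) le_rfl).comp
      hp.contDiffOn hmap).clm_apply
      (((contDiff_apply ℝ Sq m).comp (contDiff_fst.comp contDiff_snd)).prodMk
        ((contDiff_apply ℝ (Fin 4 → Sq) m).comp (contDiff_snd.comp contDiff_snd))).contDiffOn
  unfold ricFun
  exact (ContDiffOn.sum fun i _ => (h2 i i k l).sub (h2 k i i l)).add
    (ContDiffOn.sum fun i _ => ContDiffOn.sum fun a _ =>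
      ((h1 i i a).mul (h1 a k l)).sub ((h1 i k a).mul (h1 a i l)))

/-! ### Scaling -/

theorem chrFun_scale (i k l : Fin 4) (r : ℝ) (A : Sq) (P : Fin 4 → Sq) :
    chrFun i k l (A, r • P) = r * chrFun i k l (A, P) := by
  simp only [chrFun, Pi.smul_apply, map_smul, smul_eq_mul, Finset.mul_sum]
  exact Finset.sum_congr rfl fun a _ => by ring

/-- Multiplication of the derivative slot by `r`. -/
def scaleSlot (r : ℝ) : (Sq × (Fin 4 → Sq)) →L[ℝ] (Sq × (Fin 4 → Sq)) :=
  (ContinuousLinearMap.id ℝ Sq).prodMap (r • ContinuousLinearMap.id ℝ (Fin 4 → Sq))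

theorem scaleSlot_apply (r : ℝ) (p : Sq × (Fin 4 → Sq)) : scaleSlot r p = (p.1, r • p.2) := rfl

theorem chrDeriv_scale (m i k l : Fin 4) (r : ℝ) {j : Jet} (hj : j.1 ∈ posDet) :
    chrDeriv m i k l (j.1, r • j.2.1, r ^ 2 • j.2.2) = r ^ 2 * chrDeriv m i k l j := by
  set p : Sq × (Fin 4 → Sq) := (j.1, j.2.1) with hp
  have hd : DifferentiableAt ℝ (chrFun i k l) p := differentiableAt_chrFun i k l hj
  have hd' : DifferentiableAt ℝ (chrFun i k l) (scaleSlot r p) :=
    differentiableAt_chrFun i k l hj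
  have h1 : HasFDerivAt (fun q => chrFun i k l (scaleSlot r q))
      ((fderiv ℝ (chrFun i k l) (scaleSlot r p)).comp (scaleSlot r)) p :=
    hd'.hasFDerivAt.comp p (scaleSlot r).hasFDerivAt
  have h2 : HasFDerivAt (fun q => chrFun i k l (scaleSlot r q))
      (r • fderiv ℝ (chrFun i k l) p) p := by
    simpa only [scaleSlot_apply, chrFun_scale] using hd.hasFDerivAt.const_mul r
  have h3 := congrArg (fun L => L (r • (j.2.1 m), r • (j.2.2 m))) (h1.unique h2)
  simp only [ContinuousLinearMap.comp_apply, smul_apply, smul_eq_mul,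
    scaleSlot_apply] at h3
  have h4 : fderiv ℝ (chrFun i k l) p (r • j.2.1 m, r • j.2.2 m) =
      r * chrDeriv m i k l j := by
    rw [← Prod.smul_mk, map_smul, smul_eq_mul]
    rfl
  rw [h4, smul_smul] at h3
  calc chrDeriv m i k l (j.1, r • j.2.1, r ^ 2 • j.2.2)
      = fderiv ℝ (chrFun i k l) (p.1, r • p.2) (r • j.2.1 m, (r * r) • j.2.2 m) := by
        simp only [chrDeriv, hp, Pi.smul_apply, pow_two]
    _ = r * (r * chrDeriv m i k l j) := h3
    _ = r ^ 2 * chrDeriv m i k l j := by ring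

theorem ricFun_scale (k l : Fin 4) (r : ℝ) {j : Jet} (hj : j.1 ∈ posDet) :
    ricFun k l (j.1, r • j.2.1, r ^ 2 • j.2.2) = r ^ 2 * ricFun k l j := by
  simp only [ricFun, chrDeriv_scale _ _ _ _ r hj, mul_add, Finset.mul_sum]
  congr 1
  · exact Finset.sum_congr rfl fun i _ => by ring
  · refine Finset.sum_congr rfl fun i _ => Finset.sum_congr rfl fun a _ => ?_
    simp only [chrFun_scale]
    ring

/-! ### Ricci curvature from the jet -/

section

variable {A : R4 → Matrix (Fin 4) (Fin 4) ℝ} {x : R4}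

theorem contDiffAt_sq (hA : ∀ a b, ContDiffAt ℝ 2 (fun y => A y a b) x) :
    ContDiffAt ℝ 2 (fun y => (fun a b => A y a b : Sq)) x :=
  contDiffAt_pi.2 fun a => contDiffAt_pi.2 fun b => hA a b

theorem pd_sq {y : R4} (h : DifferentiableAt ℝ (fun z => (fun a b => A z a b : Sq)) y)
    (i : Fin 4) :
    fderiv ℝ (fun z => (fun a b => A z a b : Sq)) y (EuclideanSpace.single i 1) =
      fun a b => pd i (fun z => A z a b) y := by
  funext a b
  have h1 := hasFDerivAt_pi'.1 (hasFDerivAt_pi'.1 h.hasFDerivAt a) b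
  rw [pd, h1.fderiv]
  rfl

theorem contDiffAt_pd (hA : ∀ a b, ContDiffAt ℝ 2 (fun y => A y a b) x) (i a b : Fin 4) :
    ContDiffAt ℝ 1 (pd i fun y => A y a b) x := by
  unfold pd
  exact ((hA a b).fderiv_right (m := 1) (by norm_num)).clm_apply contDiffAt_const

theorem christoffel_eventually (hA : ∀ a b, ContDiffAt ℝ 2 (fun y => A y a b) x)
    (hx : (fun a b => A x a b : Sq) ∈ posDet) (i k l : Fin 4) :
    christoffel (fun y => fromFlux (A y)) i k l =ᶠ[𝓝 x] fun y =>
      chrFun i k l (fun a b => A y a b, fun m a b => pd m (fun z => A z a b) y) := by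
  have h1 : ∀ᶠ y in 𝓝 x, DifferentiableAt ℝ (fun z => (fun a b => A z a b : Sq)) y :=
    ((contDiffAt_sq hA).eventually (by simp)).mono fun y hy => hy.differentiableAt (by norm_num)
  have h2 : ∀ᶠ y in 𝓝 x, (fun a b => A y a b : Sq) ∈ posDet :=
    (contDiffAt_sq hA).continuousAt.preimage_mem_nhds (isOpen_posDet.mem_nhds hx)
  filter_upwards [h1, h2] with y hy hy'
  have hchain : ∀ m a b, pd m (fun z => fromFlux (A z) a b) y =
      fderiv ℝ (metricEntry a b) (fun a b => A y a b)
        (fun c d => pd m (fun z => A z c d) y) := by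
    intro m a b
    have hd : DifferentiableAt ℝ (metricEntry a b) (fun a b => A y a b) :=
      ((contDiffOn_metricEntry a b).differentiableOn (by simp)).differentiableAt
        (isOpen_posDet.mem_nhds hy')
    have hc : HasFDerivAt (fun z => metricEntry a b (fun a b => A z a b))
        ((fderiv ℝ (metricEntry a b) (fun a b => A y a b)).comp
          (fderiv ℝ (fun z => (fun a b => A z a b : Sq)) y)) y :=
      HasFDerivAt.comp (g := metricEntry a b) y hd.hasFDerivAt hy.hasFDerivAt
    rw [pd, show (fun z => fromFlux (A z) a b) = fun z => metricEntry a b (fun a b => A z a b)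
      from rfl, hc.fderiv, ContinuousLinearMap.comp_apply, pd_sq hy m]
  simp only [christoffel, chrFun, hchain]
  rfl

theorem pd_christoffel (hA : ∀ a b, ContDiffAt ℝ 2 (fun y => A y a b) x)
    (hx : (fun a b => A x a b : Sq) ∈ posDet) (m i k l : Fin 4) :
    pd m (christoffel (fun y => fromFlux (A y)) i k l) x = chrDeriv m i k l (jetAt A x) := by
  rw [pd, (christoffel_eventually hA hx i k l).fderiv_eq]
  have h1 : HasFDerivAt (fun y => (fun a b => A y a b : Sq))
      (fderiv ℝ (fun y => (fun a b => A y a b : Sq)) x) x :=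
    ((contDiffAt_sq hA).differentiableAt (by norm_num)).hasFDerivAt
  have h2' : DifferentiableAt ℝ
      (fun y => (fun n a b => pd n (fun z => A z a b) y : Fin 4 → Sq)) x :=
    differentiableAt_pi.2 fun n => differentiableAt_pi.2 fun a => differentiableAt_pi.2 fun b =>
      (contDiffAt_pd hA n a b).differentiableAt (by norm_num)
  have h2 := h2'.hasFDerivAt
  have h3 : HasFDerivAt (fun y => ((fun a b => A y a b : Sq),
      (fun n a b => pd n (fun z => A z a b) y : Fin 4 → Sq))) _ x := h1.prodMk h2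
  have h4 : HasFDerivAt (fun y => chrFun i k l
      (fun a b => A y a b, fun n a b => pd n (fun z => A z a b) y)) _ x :=
    HasFDerivAt.comp (g := chrFun i k l) x (differentiableAt_chrFun i k l
      (p := (fun a b => A x a b, fun n a b => pd n (fun z => A z a b) x)) hx).hasFDerivAt h3
  rw [h4.fderiv, ContinuousLinearMap.comp_apply, ContinuousLinearMap.prod_apply,
    pd_sq h1.differentiableAt m]
  refine congrArg _ (Prod.ext rfl ?_)
  funext n a b
  have h5 := hasFDerivAt_pi'.1 (hasFDerivAt_pi'.1 (hasFDerivAt_pi'.1 h2 n) a) b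
  show _ = fderiv ℝ (pd n fun z => A z a b) x (EuclideanSpace.single m 1)
  rw [h5.fderiv]
  rfl

/-- The Ricci tensor of the metric with flux `A` is a function of the jet of `A`. -/
theorem ricci_fromFlux_eq (hA : ∀ a b, ContDiffAt ℝ 2 (fun y => A y a b) x)
    (hx : 0 < (A x).det) (k l : Fin 4) :
    ricci (fun y => fromFlux (A y)) x k l = ricFun k l (jetAt A x) := by
  have hc : ∀ i a b, christoffel (fun y => fromFlux (A y)) i a b x =
      chrFun i a b ((jetAt A x).1, (jetAt A x).2.1) :=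
    fun i a b => (christoffel_eventually hA hx i a b).eq_of_nhds
  simp only [ricci, ricFun, pd_christoffel hA hx, hc]

end

/-! ### The uniform bound -/

/-- Symmetric arrays, bounded below by `c` and with entries bounded by `K`. -/
def fluxSet (c K : ℝ) : Set Sq :=
  {A | (∀ a b, A a b = A b a) ∧
    (∀ v : Fin 4 → ℝ, c * ∑ a, v a ^ 2 ≤ ∑ a, ∑ b, A a b * v a * v b) ∧ ∀ a b, |A a b| ≤ K}

theorem isCompact_fluxSet (c K : ℝ) : IsCompact (fluxSet c K) := by
  refine IsCompact.of_isClosed_subset (isCompact_univ_pi fun _ => isCompact_univ_pi fun _ =>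
    isCompact_Icc (a := -K) (b := K)) ?_ fun A hA a _ b _ => abs_le.1 (hA.2.2 a b)
  simp only [fluxSet, ofPred_and, ofPred_forall]
  refine (isClosed_iInter fun a => isClosed_iInter fun b => isClosed_eq ?_ ?_).inter
    ((isClosed_iInter fun v => isClosed_le continuous_const ?_).inter
      (isClosed_iInter fun a => isClosed_iInter fun b => isClosed_le ?_ continuous_const))
  all_goals fun_prop

theorem convex_fluxSet (c K : ℝ) : Convex ℝ (fluxSet c K) := by
  intro A hA B hB s t hs ht hst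
  refine ⟨fun a b => ?_, fun v => ?_, fun a b => ?_⟩
  · simp only [Pi.add_apply, Pi.smul_apply, hA.1 a b, hB.1 a b]
  · have : ∑ a, ∑ b, (s • A + t • B) a b * v a * v b =
        s * ∑ a, ∑ b, A a b * v a * v b + t * ∑ a, ∑ b, B a b * v a * v b := by
      simp only [Finset.mul_sum, ← Finset.sum_add_distrib, Pi.add_apply, Pi.smul_apply,
        smul_eq_mul]
      exact Finset.sum_congr rfl fun a _ => Finset.sum_congr rfl fun b _ => by ring
    rw [this]
    calc c * ∑ a, v a ^ 2 = (s + t) * (c * ∑ a, v a ^ 2) := by rw [hst, one_mul]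
      _ ≤ _ := by
        rw [add_mul]
        exact add_le_add (mul_le_mul_of_nonneg_left (hA.2.1 v) hs)
          (mul_le_mul_of_nonneg_left (hB.2.1 v) ht)
  · simp only [Pi.add_apply, Pi.smul_apply, smul_eq_mul]
    calc |s * A a b + t * B a b| ≤ s * |A a b| + t * |B a b| := by
          simpa only [abs_mul, abs_of_nonneg hs, abs_of_nonneg ht] using
            abs_add_le (s * A a b) (t * B a b)
      _ ≤ s * K + t * K := add_le_add (mul_le_mul_of_nonneg_left (hA.2.2 a b) hs)
          (mul_le_mul_of_nonneg_left (hB.2.2 a b) ht)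
      _ = K := by rw [← add_mul, hst, one_mul]

theorem posDef_of_mem_fluxSet {c K : ℝ} (hc : 0 < c) {A : Sq} (hA : A ∈ fluxSet c K) :
    (Matrix.of A).PosDef := by
  refine Matrix.posDef_iff_dotProduct_mulVec.2
    ⟨Matrix.IsHermitian.ext fun a b => by simpa using (hA.1 b a), fun v hv => ?_⟩
  have h0 : 0 < ∑ a, v a ^ 2 := by
    obtain ⟨a, ha⟩ : ∃ a, v a ≠ 0 := by
      by_contra h
      push Not at h
      exact hv (funext h)
    exact Finset.sum_pos' (fun b _ => sq_nonneg _) ⟨a, Finset.mem_univ a, by positivity⟩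
  refine lt_of_lt_of_le (mul_pos hc h0) ((hA.2.1 v).trans_eq ?_)
  simp only [dotProduct, Matrix.mulVec, Matrix.of_apply, star_trivial, Finset.mul_sum]
  exact Finset.sum_congr rfl fun a _ => Finset.sum_congr rfl fun b _ => by ring

theorem fluxSet_subset_posDet {c K : ℝ} (hc : 0 < c) : fluxSet c K ⊆ posDet :=
  fun _ hA => (posDef_of_mem_fluxSet hc hA).det_pos

/-- The Ricci tensor depends on the flux in a Lipschitz way, uniformly in the radius. -/
theorem ricci_fromFlux_stable {c : ℝ} (hc : 0 < c) (K : ℝ) :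
    ∃ C : ℝ, 0 ≤ C ∧ ∀ (A A' : R4 → Matrix (Fin 4) (Fin 4) ℝ) (x : R4) (r ε : ℝ),
      0 < r → FluxClass A x r c K → FluxClass A' x r c K →
      (∀ a b, JetBound (fun y => A' y a b - A y a b) x r ε) →
      ∀ k l, r ^ 2 * |ricci (fun y => fromFlux (A' y)) x k l -
        ricci (fun y => fromFlux (A y)) x k l| ≤ C * ε := by
  set T : Set Jet := fluxSet c K ×ˢ Metric.closedBall 0 K ×ˢ Metric.closedBall 0 K with hT
  have hTc : IsCompact T := (isCompact_fluxSet c K).prod
    ((isCompact_closedBall _ _).prod (isCompact_closedBall _ _))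
  have hTv : Convex ℝ T :=
    (convex_fluxSet c K).prod ((convex_closedBall _ _).prod (convex_closedBall _ _))
  have hsub : T ⊆ posDet ×ˢ univ := fun j hj => ⟨fluxSet_subset_posDet hc hj.1, mem_univ _⟩
  choose L hL using fun k l : Fin 4 =>
    ((contDiffOn_ricFun k l).mono hsub).exists_lipschitzOnWith (by simp) hTv hTc
  refine ⟨∑ k, ∑ l, (L k l : ℝ), by positivity, ?_⟩
  intro A A' x r ε hr hA hA' hd k l
  have hε : 0 ≤ ε := (abs_nonneg _).trans (hd 0 0).zero
  have hmem : ∀ B, FluxClass B x r c K →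
      ((jetAt B x).1, r • (jetAt B x).2.1, r ^ 2 • (jetAt B x).2.2) ∈ T := by
    intro B hB
    have hK : 0 ≤ K := (abs_nonneg _).trans (hB.bound 0 0).zero
    refine ⟨⟨hB.symm, hB.lower, fun a b => (hB.bound a b).zero⟩, ?_, ?_⟩
    · simp only [mem_closedBall_zero_iff, pi_norm_le_iff_of_nonneg hK, Pi.smul_apply,
        smul_eq_mul, jetAt, Real.norm_eq_abs, abs_mul, abs_of_pos hr]
      exact fun i a b => (hB.bound a b).one i
    · simp only [mem_closedBall_zero_iff, pi_norm_le_iff_of_nonneg hK, Pi.smul_apply,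
        smul_eq_mul, jetAt, Real.norm_eq_abs, abs_mul, abs_of_pos (pow_pos hr 2)]
      exact fun m i a b => (hB.bound a b).two m i
  have heq : ∀ B, FluxClass B x r c K → r ^ 2 * ricci (fun y => fromFlux (B y)) x k l =
      ricFun k l ((jetAt B x).1, r • (jetAt B x).2.1, r ^ 2 • (jetAt B x).2.2) := by
    intro B hB
    have hp : (jetAt B x).1 ∈ posDet := fluxSet_subset_posDet hc (hmem B hB).1
    rw [ricFun_scale k l r hp, ricci_fromFlux_eq hB.smooth hp]
  have hsub1 : ∀ i a b, pd i (fun y => A' y a b - A y a b) =ᶠ[𝓝 x]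
      fun y => pd i (fun z => A' z a b) y - pd i (fun z => A z a b) y := by
    intro i a b
    filter_upwards [(hA.smooth a b).eventually (by simp), (hA'.smooth a b).eventually (by simp)]
      with y h1 h2
    have h1' : DifferentiableAt ℝ (fun z => A z a b) y := h1.differentiableAt (by norm_num)
    have h2' : DifferentiableAt ℝ (fun z => A' z a b) y := h2.differentiableAt (by norm_num)
    simp only [pd]
    rw [fderiv_fun_sub h2' h1']
    rfl
  have hdist : Dist.dist ((jetAt A' x).1, r • (jetAt A' x).2.1, r ^ 2 • (jetAt A' x).2.2)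
      ((jetAt A x).1, r • (jetAt A x).2.1, r ^ 2 • (jetAt A x).2.2) ≤ ε := by
    simp only [dist_eq_norm, Prod.mk_sub_mk, norm_prod_le_iff, pi_norm_le_iff_of_nonneg hε,
      Pi.sub_apply, Pi.smul_apply, smul_eq_mul, jetAt, Real.norm_eq_abs]
    refine ⟨fun a b => (hd a b).zero, fun i a b => ?_, fun m i a b => ?_⟩
    · rw [← mul_sub, abs_mul, abs_of_pos hr]
      simpa only [(hsub1 i a b).eq_of_nhds] using (hd a b).one i
    · rw [← mul_sub, abs_mul, abs_of_pos (pow_pos hr 2)]
      refine le_trans (le_of_eq ?_) ((hd a b).two m i)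
      congr 2
      simp only [pd]
      rw [(hsub1 i a b).fderiv_eq,
        fderiv_fun_sub ((contDiffAt_pd hA'.smooth i a b).differentiableAt (by norm_num))
          ((contDiffAt_pd hA.smooth i a b).differentiableAt (by norm_num))]
      rfl
  calc r ^ 2 * |ricci (fun y => fromFlux (A' y)) x k l - ricci (fun y => fromFlux (A y)) x k l|
      = |ricFun k l ((jetAt A' x).1, r • (jetAt A' x).2.1, r ^ 2 • (jetAt A' x).2.2) -
          ricFun k l ((jetAt A x).1, r • (jetAt A x).2.1, r ^ 2 • (jetAt A x).2.2)| := by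
        rw [← heq A' hA', ← heq A hA, ← mul_sub, abs_mul, abs_of_pos (pow_pos hr 2)]
    _ ≤ L k l * ε := by
        rw [← Real.dist_eq]
        exact ((hL k l).dist_le_mul _ (hmem A' hA') _ (hmem A hA)).trans
          (mul_le_mul_of_nonneg_left hdist (L k l).coe_nonneg)
    _ ≤ (∑ a, ∑ b, (L a b : ℝ)) * ε := by
        refine mul_le_mul_of_nonneg_right ?_ hε
        exact (Finset.single_le_sum (f := fun b => (L k b : ℝ)) (fun b _ => (L k b).coe_nonneg)
          (Finset.mem_univ l)).trans (Finset.single_le_sum (f := fun a => ∑ b, (L a b : ℝ))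
            (fun a _ => Finset.sum_nonneg fun b _ => (L a b).coe_nonneg) (Finset.mem_univ k))

/-- The metric of a flux in a bounded elliptic class is uniformly elliptic. -/
theorem fromFlux_lower {c : ℝ} (hc : 0 < c) (K : ℝ) :
    ∃ c' : ℝ, 0 < c' ∧ ∀ A : Sq, A ∈ fluxSet c K → ∀ v : Fin 4 → ℝ,
      c' * ∑ a, v a ^ 2 ≤ ∑ a, ∑ b, fromFlux (Matrix.of A) a b * v a * v b := by
  set S : Set (Sq × (Fin 4 → ℝ)) := fluxSet c K ×ˢ {v | ∑ a, v a ^ 2 = 1} with hS
  have hsph : IsCompact {v : Fin 4 → ℝ | ∑ a, v a ^ 2 = 1} := by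
    refine IsCompact.of_isClosed_subset (isCompact_univ_pi fun _ => isCompact_Icc (a := -1)
      (b := 1)) (isClosed_eq (by fun_prop) continuous_const) fun v hv a _ => abs_le.1 ?_
    have : v a ^ 2 ≤ 1 := hv ▸ Finset.single_le_sum (fun b _ => sq_nonneg (v b))
      (Finset.mem_univ a)
    exact sq_le_one_iff_abs_le_one (v a) |>.1 this
  have hf : ContinuousOn (fun p : Sq × (Fin 4 → ℝ) =>
      ∑ a, ∑ b, metricEntry a b p.1 * p.2 a * p.2 b) S := by
    refine continuousOn_finsetSum _ fun a _ => continuousOn_finsetSum _ fun b _ => ?_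
    exact (((contDiffOn_metricEntry a b).continuousOn.comp continuousOn_fst
      fun p hp => fluxSet_subset_posDet hc hp.1).mul (by fun_prop)).mul (by fun_prop)
  obtain ⟨c', hc', hmin⟩ : ∃ c', 0 < c' ∧ ∀ p ∈ S,
      c' ≤ ∑ a, ∑ b, metricEntry a b p.1 * p.2 a * p.2 b := by
    refine ((isCompact_fluxSet c K).prod hsph).exists_forall_le' hf fun p hp => ?_
    have hP := posDef_of_mem_fluxSet hc hp.1
    have hG : (fromFlux (Matrix.of p.1)).PosDef :=
      hP.inv.smul (Real.sqrt_pos.2 hP.det_pos)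
    have hv : p.2 ≠ 0 := by
      intro h
      have h1 : ∑ a, p.2 a ^ 2 = 1 := hp.2
      simp [h] at h1
    refine lt_of_lt_of_le (hG.dotProduct_mulVec_pos hv) (le_of_eq ?_)
    simp only [dotProduct, Matrix.mulVec, metricEntry, star_trivial, Finset.mul_sum]
    exact Finset.sum_congr rfl fun a _ => Finset.sum_congr rfl fun b _ => by ring
  refine ⟨c', hc', fun A hA v => ?_⟩
  rcases eq_or_lt_of_le (Finset.sum_nonneg fun a (_ : a ∈ Finset.univ) => sq_nonneg (v a))
    with h0 | h0
  · have hv : ∀ a, v a = 0 := fun a => by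
      simpa using (Finset.sum_eq_zero_iff_of_nonneg fun b _ => sq_nonneg (v b)).1 h0.symm a
        (Finset.mem_univ a)
    simp [hv]
  · set n := Real.sqrt (∑ a, v a ^ 2) with hn
    have hn0 : 0 < n := Real.sqrt_pos.2 h0
    have hn2 : n ^ 2 = ∑ a, v a ^ 2 := Real.sq_sqrt h0.le
    have h1 := hmin (A, fun a => v a / n) ⟨hA, by
      simp only [mem_ofPred_eq, div_pow, ← Finset.sum_div, hn2, div_self h0.ne']⟩
    have h2 : ∑ a, ∑ b, metricEntry a b A * (v a / n) * (v b / n) =
        (∑ a, ∑ b, fromFlux (Matrix.of A) a b * v a * v b) / n ^ 2 := by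
      simp only [Finset.sum_div, metricEntry]
      exact Finset.sum_congr rfl fun a _ => Finset.sum_congr rfl fun b _ => by ring
    rwa [h2, le_div_iff₀ (pow_pos hn0 2), hn2] at h1

/-- A positive margin of the Ricci curvature survives a small change of the flux. -/
theorem ricci_nonneg_of_near {c : ℝ} (hc : 0 < c) (K : ℝ) :
    ∃ C : ℝ, 0 < C ∧ ∀ (A A' : R4 → Matrix (Fin 4) (Fin 4) ℝ) (x : R4) (r ε m : ℝ),
      0 < r → FluxClass A x r c K → FluxClass A' x r c K →
      (∀ a b, JetBound (fun y => A' y a b - A y a b) x r ε) → C * ε ≤ m →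
      (∀ v : Fin 4 → ℝ, m / r ^ 2 * ∑ a, ∑ b, fromFlux (A x) a b * v a * v b ≤
        ∑ a, ∑ b, ricci (fun y => fromFlux (A y)) x a b * v a * v b) →
      ∀ v : Fin 4 → ℝ, 0 ≤ ∑ a, ∑ b, ricci (fun y => fromFlux (A' y)) x a b * v a * v b := by
  obtain ⟨C, hC, hst⟩ := ricci_fromFlux_stable hc K
  obtain ⟨c', hc', hlow⟩ := fromFlux_lower hc K
  refine ⟨(4 * C + 1) / c', by positivity, ?_⟩
  intro A A' x r ε m hr hA hA' hd hm hric v
  have hε : 0 ≤ ε := (abs_nonneg _).trans (hd 0 0).zero
  have hg := hlow (fun a b => A x a b) ⟨hA.symm, hA.lower, fun a b => (hA.bound a b).zero⟩ v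
  change c' * _ ≤ ∑ a, ∑ b, fromFlux (A x) a b * v a * v b at hg
  have hdiff : -(4 * C * ε / r ^ 2 * ∑ a, v a ^ 2) ≤
      (∑ a, ∑ b, ricci (fun y => fromFlux (A' y)) x a b * v a * v b) -
        ∑ a, ∑ b, ricci (fun y => fromFlux (A y)) x a b * v a * v b := by
    have hterm : ∀ a b, -(C * ε / r ^ 2 * ((v a ^ 2 + v b ^ 2) / 2)) ≤
        ricci (fun y => fromFlux (A' y)) x a b * v a * v b -
          ricci (fun y => fromFlux (A y)) x a b * v a * v b := by
      intro a b
      have h1 : |ricci (fun y => fromFlux (A' y)) x a b - ricci (fun y => fromFlux (A y)) x a b| ≤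
          C * ε / r ^ 2 := by
        rw [le_div_iff₀ (pow_pos hr 2), mul_comm]
        exact hst A A' x r ε hr hA hA' hd a b
      have h2 : |v a * v b| ≤ (v a ^ 2 + v b ^ 2) / 2 := by
        rw [abs_le]
        constructor <;> nlinarith [sq_nonneg (v a + v b), sq_nonneg (v a - v b)]
      have h3 := mul_le_mul h1 h2 (abs_nonneg _) (by positivity)
      rw [← abs_mul] at h3
      linarith [neg_abs_le ((ricci (fun y => fromFlux (A' y)) x a b -
        ricci (fun y => fromFlux (A y)) x a b) * (v a * v b))]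
    rw [← Finset.sum_sub_distrib]
    simp only [← Finset.sum_sub_distrib]
    refine le_trans (le_of_eq ?_) (Finset.sum_le_sum fun a _ => Finset.sum_le_sum fun b _ =>
      hterm a b)
    simp only [Fin.sum_univ_four]
    ring
  have hbase : (4 * C + 1) * ε / r ^ 2 * ∑ a, v a ^ 2 ≤
      ∑ a, ∑ b, ricci (fun y => fromFlux (A y)) x a b * v a * v b := by
    refine le_trans ?_ (hric v)
    refine le_trans ?_ (mul_le_mul_of_nonneg_left hg (div_nonneg ?_ (sq_nonneg r)))
    · rw [div_mul_eq_mul_div, div_mul_eq_mul_div, div_le_div_iff_of_pos_right (pow_pos hr 2),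
        ← mul_assoc]
      refine mul_le_mul_of_nonneg_right ?_ (Finset.sum_nonneg fun a _ => sq_nonneg _)
      calc (4 * C + 1) * ε = (4 * C + 1) / c' * ε * c' := by field_simp
        _ ≤ m * c' := mul_le_mul_of_nonneg_right hm hc'.le
    · exact le_trans (by positivity) hm
  have : 4 * C * ε / r ^ 2 * ∑ a, v a ^ 2 ≤ (4 * C + 1) * ε / r ^ 2 * ∑ a, v a ^ 2 := by
    gcongr
    linarith
  linarith

end

end Vale.Agent.P225.Geo
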