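import Vale.Agent.P225.Geo.Scaled
import Vale.Agent.P225.Geo.Perturb
import Vale.Agent.P225.Geo.Multi

/-!
P225: the metric of a shape with small pulse amplitudes is a complete smooth metric, and a margin of
the Ricci curvature of the shape makes its Ricci curvature nonnegative.
-/

namespace Vale.Agent.P225.Geo

open scoped ContDiff Topology
open Filter Real

noncomputable section

/-- Uniform bounds on the parameters of a shape and their first two derivatives. -/
structure ShapeBdd (sh : Shape) (B : ℝ) : Prop where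
  chi : Bdd2 sh.χ B
  squash : ∀ o, Bdd2 (squashOn sh o) B

/-- Bounded shapes. -/
abbrev BShape (B : ℝ) := {sh : Shape // ShapeBdd sh B}

theorem contDiff_coord (i : Fin 4) : ContDiff ℝ ∞ fun u : R4 => u i :=
  (EuclideanSpace.proj i : R4 →L[ℝ] ℝ).contDiff

theorem contDiff_qL_apply (k : Fin 3) (i : Fin 4) : ContDiff ℝ ∞ fun u : R4 => qL k u i := by
  fin_cases k <;> fin_cases i <;>
    simp only [qL, Fin.isValue] <;>
    first
      | exact contDiff_coord _
      | exact (contDiff_coord _).neg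

theorem contDiff_qR_apply (k : Fin 3) (i : Fin 4) : ContDiff ℝ ∞ fun u : R4 => qR k u i := by
  fin_cases k <;> fin_cases i <;>
    simp only [qR, Fin.isValue] <;>
    first
      | exact contDiff_coord _
      | exact (contDiff_coord _).neg

theorem uniform_exp_log {B : ℝ} {φ : BShape B → ℝ → ℝ}
    (hφ : ∀ sh, ContDiff ℝ ∞ (φ sh)) (hB : ∀ sh, Bdd2 (φ sh) B) (c : ℝ) :
    Uniform fun (sh : BShape B) (y : R4) => exp (c * φ sh (log ‖y‖)) := by
  have h := ((Uniform.const c).mul (Uniform.of_log hφ hB fun _ => (0 : ℝ))).exp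
  simpa only [sub_zero] using h

theorem uniform_flux (B : ℝ) (i k : Fin 4) :
    Uniform fun (sh : BShape B) (y : R4) => sh.1.flux y i k := by
  have hχ := fun c => uniform_exp_log (B := B) (φ := fun sh => sh.1.χ)
    (fun sh => sh.1.smooth_χ) (fun sh => sh.2.chi) c
  have hs := fun o c => uniform_exp_log (B := B) (φ := fun sh => squashOn sh.1 o)
    (fun sh => squashOn_smooth sh.1 o) (fun sh => sh.2.squash o) c
  have hrr : Uniform fun (_ : BShape B) (y : R4) => rhat y i * rhat y k :=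
    Uniform.of_rhat ((contDiff_coord i).mul (contDiff_coord k))
  have hdd : Uniform fun (_ : BShape B) (_ : R4) => if i = k then (1 : ℝ) else 0 := Uniform.const _
  have hqq : Uniform fun (_ : BShape B) (y : R4) => qR 0 (rhat y) i * qR 0 (rhat y) k :=
    Uniform.of_rhat ((contDiff_qR_apply 0 i).mul (contDiff_qR_apply 0 k))
  have hee : ∀ a, Uniform fun (_ : BShape B) (y : R4) =>
      (∑ m, axisVec a m * qL m (rhat y) i) * ∑ m, axisVec a m * qL m (rhat y) k := fun a =>
    Uniform.of_rhat ((ContDiff.sum fun m _ => contDiff_const.mul (contDiff_qL_apply m i)).mul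
      (ContDiff.sum fun m _ => contDiff_const.mul (contDiff_qL_apply m k)))
  have hone : Uniform fun (_ : BShape B) (_ : R4) => (1 : ℝ) := Uniform.const _
  have hsq : ∀ (o : Option (Fin 6)) (e : BShape B → R4 → ℝ), Uniform e →
      Uniform fun (sh : BShape B) (y : R4) =>
        (exp (2 * squashOn sh.1 o (log ‖y‖)) - 1) *
            (((if i = k then (1 : ℝ) else 0) - rhat y i * rhat y k) - e sh y) +
          (exp (-4 * squashOn sh.1 o (log ‖y‖)) - 1) * e sh y := fun o e he =>
    (((hs o 2).sub hone).mul ((hdd.sub hrr).sub he)).add (((hs o (-4)).sub hone).mul he)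
  have h := (hχ (-3)).mul (hrr.add ((hχ 2).mul (((hdd.sub hrr).add (hsq none _ hqq)).add
    (Uniform.sum fun a => hsq (some a) _ (hee a)))))
  simpa only [Shape.flux, squash, outer, squashOn, eLAxis, Matrix.add_apply, Matrix.sub_apply,
    Matrix.smul_apply, Matrix.sum_apply, Matrix.of_apply, Matrix.one_apply, smul_eq_mul,
    WithLp.ofLp_sum, WithLp.ofLp_smul, Finset.sum_apply, Pi.smul_apply] using h

/-- One pulse, as a term of the flux. -/
def pulseTerm (H : Harm) {P : Pulses} (l : Fin P.n) (sh : Shape) (p : ℝ) (i k : Fin 4) (y : R4) :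
    ℝ :=
  exp (-3 * sh.χ (log ‖y‖)) * (H.fn (P.item l).deg (P.item l).vec (rhat y) *
    kindMatrix y (P.item l).kind i k) * (P.item l).prof (log ‖y‖ - p)

theorem uniform_kernel {ι : Type*} (H : Harm) (p : Pulse) (i k : Fin 4) :
    Uniform fun (_ : ι) (y : R4) =>
      H.fn p.deg p.vec (rhat y) * kindMatrix y p.kind i k := by
  have hY : ContDiff ℝ ∞ fun u : R4 => H.fn p.deg p.vec u := by
    unfold Harm.fn
    exact ContDiff.sum fun m _ => contDiff_const.mul (H.smooth _ m)
  cases hk : p.kind with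
  | some m =>
    simp only [kindMatrix, outer, Matrix.add_apply, Matrix.of_apply]
    exact Uniform.of_rhat (h := fun u => H.fn p.deg p.vec u *
      (u i * qL m u k + qL m u i * u k))
      (hY.mul (((contDiff_coord i).mul (contDiff_qL_apply m k)).add
        ((contDiff_qL_apply m i).mul (contDiff_coord k))))
  | none =>
    simp only [kindMatrix, outer, Matrix.sum_apply, Matrix.of_apply]
    exact Uniform.of_rhat (h := fun u => H.fn p.deg p.vec u * ∑ m, qL m u i * qL m u k)
      (hY.mul (ContDiff.sum fun m _ => (contDiff_qL_apply m i).mul (contDiff_qL_apply m k)))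

theorem uniform_pulseTerm (H : Harm) (P : Pulses) (B : ℝ) (l : Fin P.n) (i k : Fin 4) :
    Uniform fun (a : BShape B × ℝ) => pulseTerm H l a.1.1 a.2 i k := by
  have hχ := (uniform_exp_log (B := B) (φ := fun sh => sh.1.χ) (fun sh => sh.1.smooth_χ)
    (fun sh => sh.2.chi) (-3)).comp_index (Prod.fst : BShape B × ℝ → BShape B)
  obtain ⟨Bp, hBp⟩ := exists_bdd2 (P.item l).smooth (P.item l).supp
  have hprof : Uniform fun (a : BShape B × ℝ) (y : R4) => (P.item l).prof (log ‖y‖ - a.2) :=
    Uniform.of_log (φ := fun (_ : BShape B × ℝ) => (P.item l).prof) (fun _ => (P.item l).smooth)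
      (fun _ => hBp) fun a => a.2
  exact (hχ.mul (uniform_kernel H (P.item l) i k)).mul hprof

theorem amps_pos_ge {P : Pulses} (A : Amps P) (n : ℕ) : (n : ℝ) + 1 ≤ A.pos n := by
  induction n with
  | zero => simpa using A.pos_start
  | succ n ih => push_cast; linarith [A.pos_gap n]

theorem pos_lt {P : Pulses} (A : Amps P) {n m : ℕ} (h : n < m) : A.pos n + 1 ≤ A.pos m := by
  induction h with
  | refl => exact A.pos_gap n
  | @step m _ ih => linarith [A.pos_gap m]

theorem prof_eq_zero {P : Pulses} (A : Amps P) (l : Fin P.n) (n : ℕ) {t : ℝ}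
    (h : t ∉ Set.Ioo (A.pos n) (A.pos n + 1)) : (P.item l).prof (t - A.pos n) = 0 :=
  (P.item l).supp _ fun h' => h ⟨by linarith [h'.1], by linarith [h'.2]⟩

section

variable (H : Harm) (sh : Shape) {P : Pulses} (A : Amps P)

theorem fullFlux_eq_one {x : R4} (hx : ‖x‖ < 1) : fullFlux H sh A x = 1 := by
  have ht : log ‖x‖ ≤ 0 := log_nonpos (norm_nonneg _) hx.le
  have h0 : ∀ n l, (P.item l).prof (log ‖x‖ - A.pos n) = 0 := fun n l => by
    refine prof_eq_zero A l n fun h => ?_
    linarith [h.1, amps_pos_ge A n, (n.cast_nonneg : (0 : ℝ) ≤ n)]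
  simp [fullFlux, flux_eq_one sh hx.le, h0]

/-- Near a point only finitely many pulses act. -/
theorem fullFlux_sum {t₀ : ℝ} {y : R4} (hy : log ‖y‖ < t₀ + 1) (i k : Fin 4) :
    fullFlux H sh A y i k = sh.flux y i k + ∑ n ∈ Finset.range ⌈t₀ + 1⌉₊,
      ∑ l, A.θ n l * pulseTerm H l sh (A.pos n) i k y := by
  have h0 : ∀ n ∉ Finset.range ⌈t₀ + 1⌉₊, (∑ l, (A.θ n l * (P.item l).prof (log ‖y‖ - A.pos n) *
      H.fn (P.item l).deg (P.item l).vec (rhat y)) • kindMatrix y (P.item l).kind) = 0 := by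
    intro n hn
    refine Finset.sum_eq_zero fun l _ => ?_
    rw [Finset.mem_range, not_lt] at hn
    have hn' : t₀ + 1 ≤ n := (Nat.le_ceil _).trans (by exact_mod_cast hn)
    rw [prof_eq_zero A l n fun h => by linarith [h.1, amps_pos_ge A n]]
    simp
  rw [fullFlux, Matrix.add_apply, Matrix.smul_apply, tsum_eq_sum h0, Matrix.sum_apply,
    smul_eq_mul, Finset.mul_sum]
  congr 1
  refine Finset.sum_congr rfl fun n _ => ?_
  rw [Matrix.sum_apply, Finset.mul_sum]
  refine Finset.sum_congr rfl fun l _ => ?_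
  simp only [Matrix.smul_apply, smul_eq_mul, pulseTerm]
  ring

theorem pulseTerm_symm (l : Fin P.n) (p : ℝ) (i k : Fin 4) (y : R4) :
    pulseTerm H l sh p i k y = pulseTerm H l sh p k i y := by
  simp only [pulseTerm]
  congr 2
  cases (P.item l).kind with
  | some m => simp only [kindMatrix, outer, Matrix.add_apply, Matrix.of_apply]; ring
  | none =>
    simp only [kindMatrix, outer, Matrix.sum_apply, Matrix.of_apply]
    exact congrArg _ (Finset.sum_congr rfl fun m _ => mul_comm _ _)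

end

/-- The pulses change the flux by at most the active amplitude, with two derivatives. -/
theorem exists_pulse_bound (H : Harm) (P : Pulses) (B : ℝ) :
    ∃ Kp : ℝ, 0 ≤ Kp ∧ ∀ sh, ShapeBdd sh B → ∀ (A : Amps P) (δ : ℕ → ℝ),
      (∀ n l, |A.θ n l| ≤ δ n) → ∀ x : R4, x ≠ 0 → ∀ ε : ℝ, 0 ≤ ε →
      (∀ n, A.pos n < log ‖x‖ → log ‖x‖ < A.pos n + 1 → δ n * Kp ≤ ε) →
      ∀ i k, GoodAt (fun y => fullFlux H sh A y i k - sh.flux y i k) x ε := by
  choose K hK using fun (l : Fin P.n) i k => uniform_pulseTerm H P B l i k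
  refine ⟨∑ l, ∑ i, ∑ k, 4 * |K l i k|, by positivity, ?_⟩
  intro sh hsh A δ hθ x hx ε hε hact i k
  set t := log ‖x‖ with ht
  have hterm : ∀ n l, GoodAt (fun y => A.θ n l * pulseTerm H l sh (A.pos n) i k y) x
      (if A.pos n < t ∧ t < A.pos n + 1 then δ n * (4 * |K l i k|) else 0) := by
    intro n l
    split_ifs with h
    · refine ((GoodAt.const (A.θ n l) x).mul
        (hK l i k (⟨sh, hsh⟩, A.pos n) x hx)).mono ?_
      calc 4 * |A.θ n l| * K l i k ≤ 4 * |A.θ n l| * |K l i k| := by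
            gcongr; exact le_abs_self _
        _ ≤ δ n * (4 * |K l i k|) := by
            rw [mul_comm 4 |A.θ n l|, mul_assoc]
            gcongr
            exact hθ n l
    · have hs : t - A.pos n ∉ Set.Ioo (0 : ℝ) 1 := fun h' =>
        h ⟨by linarith [h'.1], by linarith [h'.2]⟩
      have hd : ContDiff ℝ ∞ (deriv (P.item l).prof) :=
        (contDiff_infty_iff_deriv.1 (P.item l).smooth).2
      have h1 : ∀ s ∉ Set.Ioo (0 : ℝ) 1, deriv (P.item l).prof s = 0 :=
        deriv_eq_zero_of_supp (P.item l).smooth (P.item l).supp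
      have hp : GoodAt (fun y => (P.item l).prof (log ‖y‖ - A.pos n)) x (4 * 0) :=
        GoodAt.comp_log (P.item l).smooth hx (by rw [(P.item l).supp _ hs]; simp)
          (by rw [h1 _ hs]; simp) (by rw [deriv_eq_zero_of_supp hd h1 _ hs]; simp)
      obtain ⟨Kc, hKc⟩ := (uniform_exp_log (B := B) (φ := fun sh => sh.1.χ)
        (fun sh => sh.1.smooth_χ) (fun sh => sh.2.chi) (-3))
      obtain ⟨L, hker⟩ := uniform_kernel (ι := Unit) H (P.item l) i k
      have hL := hker () x hx
      refine ((GoodAt.const (A.θ n l) x).mul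
        (((hKc ⟨sh, hsh⟩ x hx).mul hL).mul hp)).mono ?_
      simp
  have hsum := GoodAt.sum (Finset.range ⌈t + 1⌉₊) fun n _ =>
    GoodAt.sum (Finset.univ : Finset (Fin P.n)) fun l _ => hterm n l
  have hev : (fun y => ∑ n ∈ Finset.range ⌈t + 1⌉₊, ∑ l, A.θ n l *
      pulseTerm H l sh (A.pos n) i k y) =ᶠ[𝓝 x] fun y => fullFlux H sh A y i k - sh.flux y i k := by
    have hc : ContinuousAt (fun y : R4 => log ‖y‖) x :=
      continuous_norm.continuousAt.log (norm_ne_zero_iff.2 hx)
    filter_upwards [hc.eventually (eventually_lt_nhds (show t < t + 1 by linarith))] with y hy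
    rw [fullFlux_sum H sh A hy, add_sub_cancel_left]
  refine (hsum.congr hev).mono ?_
  have hKp : ∀ n, 0 ≤ δ n ∨ P.n = 0 := fun n => by
    rcases Nat.eq_zero_or_pos P.n with h | h
    · exact Or.inr h
    · exact Or.inl ((abs_nonneg _).trans (hθ n ⟨0, h⟩))
  by_cases hex : ∃ n, A.pos n < t ∧ t < A.pos n + 1
  · obtain ⟨n₀, hn₀⟩ := hex
    have honly : ∀ n, n ≠ n₀ → ¬(A.pos n < t ∧ t < A.pos n + 1) := by
      intro n hn h
      rcases Nat.lt_or_gt_of_ne hn with h' | h'
      · linarith [pos_lt A h', hn₀.1]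
      · linarith [pos_lt A h', hn₀.2]
    calc ∑ n ∈ Finset.range ⌈t + 1⌉₊, ∑ l,
          (if A.pos n < t ∧ t < A.pos n + 1 then δ n * (4 * |K l i k|) else 0)
        = ∑ l, (if A.pos n₀ < t ∧ t < A.pos n₀ + 1 then δ n₀ * (4 * |K l i k|) else 0) := by
          refine Finset.sum_eq_single n₀ (fun n _ hn => ?_) fun hn => ?_
          · exact Finset.sum_eq_zero fun l _ => if_neg (honly n hn)
          · refine absurd (Finset.mem_range.2 ?_) hn
            exact_mod_cast (show (n₀ : ℝ) < ⌈t + 1⌉₊ by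
              linarith [Nat.le_ceil (t + 1), amps_pos_ge A n₀, hn₀.1])
      _ = δ n₀ * ∑ l, 4 * |K l i k| := by simp [hn₀, Finset.mul_sum]
      _ ≤ δ n₀ * ∑ l, ∑ a, ∑ b, 4 * |K l a b| := by
          rcases hKp n₀ with h | h
          · refine mul_le_mul_of_nonneg_left (Finset.sum_le_sum fun l _ => ?_) h
            exact (Finset.single_le_sum (f := fun b => 4 * |K l i b|) (fun b _ => by positivity)
              (Finset.mem_univ k)).trans (Finset.single_le_sum
                (f := fun a => ∑ b, 4 * |K l a b|) (fun a _ => by positivity) (Finset.mem_univ i))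
          · have : IsEmpty (Fin P.n) := h ▸ Fin.isEmpty
            simp
      _ ≤ ε := hact n₀ hn₀.1 hn₀.2
  · refine le_trans (le_of_eq ?_) hε
    exact Finset.sum_eq_zero fun n _ => Finset.sum_eq_zero fun l _ =>
      if_neg fun h => hex ⟨n, h⟩

/-- Two sided bounds on the flux of a bounded shape. -/
theorem flux_bounds (sh : Shape) {B : ℝ} (h : ShapeBdd sh B) (x : R4) (v : Fin 4 → ℝ) :
    exp (-(15 * B)) * ∑ i, v i ^ 2 ≤ quad (sh.flux x) v ∧
      quad (sh.flux x) v ≤ exp (15 * B) * ∑ i, v i ^ 2 := by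
  have hB : 0 ≤ B := (abs_nonneg _).trans (h.chi.zero 0)
  have hvv : ∑ i, v i ^ 2 = dotProduct v v := by simp [dotProduct, sq]
  have hv0 : 0 ≤ ∑ i, v i ^ 2 := Finset.sum_nonneg fun i _ => sq_nonneg _
  rcases eq_or_ne x 0 with rfl | hx
  · have h1 : quad (sh.flux 0) v = ∑ i, v i ^ 2 := by
      simp [quad, flux_eq_one sh (x := 0) (by simp), Matrix.one_apply, sq]
    rw [h1]
    exact ⟨mul_le_of_le_one_left hv0 (Real.exp_le_one_iff.2 (by linarith)),
      le_mul_of_one_le_left hv0 (Real.one_le_exp (by linarith))⟩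
  obtain ⟨o, ho⟩ : ∃ o, ∀ o' ≠ o, squashOn sh o' (log ‖x‖) = 0 := by
    by_cases he : ∃ o, squashOn sh o (log ‖x‖) ≠ 0
    · obtain ⟨o, ho⟩ := he
      exact ⟨o, fun o' ho' => squashOn_single sh (Ne.symm ho') ho⟩
    · push Not at he
      exact ⟨none, fun o' _ => he o'⟩
  rw [quad, flux_eq_form sh hx o ho, form_quad, hvv]
  have hbe := bessel (isAxis_axisJ o) x v
  have hr := rho_pos hx
  have h1 := abs_le.1 (h.chi.zero (log ‖x‖))
  have h2 := abs_le.1 ((h.squash o).zero (log ‖x‖))
  set al := alOf sh o (log ‖x‖) with hal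
  set be := beOf sh o (log ‖x‖) with hbe'
  set r := rho x
  set p := (⇑x ⬝ᵥ v) ^ 2
  set m := (ev (axisJ o) x ⬝ᵥ v) ^ 2
  set N := dotProduct v v - (p + m) / r with hN
  have hN0 : 0 ≤ N := by rw [hN, sub_nonneg, div_le_iff₀ hr]; linarith
  have hp : 0 ≤ p / r := div_nonneg (sq_nonneg _) hr.le
  have hm : 0 ≤ m / r := div_nonneg (sq_nonneg _) hr.le
  have key : exp (al + 2 * be) * exp (-(2 * be)) * dotProduct v v +
      exp (al + 2 * be) * ((1 - exp (-(2 * be))) / r) * p +
      exp (al + 2 * be) * ((exp (-(2 * al)) - exp (-(2 * be))) / r) * m =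
      exp al * N + exp (al + 2 * be) * (p / r) + exp (2 * be - al) * (m / r) := by
    rw [hN, show exp al = exp (al + 2 * be) * exp (-(2 * be)) by rw [← Real.exp_add]; ring_nf,
      show exp (2 * be - al) = exp (al + 2 * be) * exp (-(2 * al)) by
        rw [← Real.exp_add]; ring_nf]
    field_simp
    ring
  rw [key, show dotProduct v v = N + p / r + m / r by rw [hN]; field_simp; ring]
  have ea : -(15 * B) ≤ al ∧ al ≤ 15 * B := by
    simp only [hal, alOf]; constructor <;> linarith
  have eb : -(15 * B) ≤ al + 2 * be ∧ al + 2 * be ≤ 15 * B := by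
    simp only [hal, hbe', alOf, beOf]; constructor <;> linarith
  have ec : -(15 * B) ≤ 2 * be - al ∧ 2 * be - al ≤ 15 * B := by
    simp only [hal, hbe', alOf, beOf]; constructor <;> linarith
  constructor <;> rw [mul_add, mul_add] <;> gcongr
  exacts [ea.1, eb.1, ec.1, ea.2, eb.2, ec.2]

theorem abs_quad_le (G : Matrix (Fin 4) (Fin 4) ℝ) {ε : ℝ} (hG : ∀ i k, |G i k| ≤ ε)
    (v : Fin 4 → ℝ) : |quad G v| ≤ 4 * ε * ∑ i, v i ^ 2 := by
  have hε : 0 ≤ ε := (abs_nonneg _).trans (hG 0 0)
  have hterm : ∀ i k, |G i k * v i * v k| ≤ ε * ((v i ^ 2 + v k ^ 2) / 2) := by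
    intro i k
    rw [mul_assoc, abs_mul]
    refine mul_le_mul (hG i k) ?_ (abs_nonneg _) hε
    rw [abs_le]
    constructor <;> nlinarith [sq_nonneg (v i + v k), sq_nonneg (v i - v k)]
  calc |quad G v| ≤ ∑ i, ∑ k, |G i k * v i * v k| :=
        (Finset.abs_sum_le_sum_abs _ _).trans
          (Finset.sum_le_sum fun i _ => Finset.abs_sum_le_sum_abs _ _)
    _ ≤ ∑ i, ∑ k, ε * ((v i ^ 2 + v k ^ 2) / 2) :=
        Finset.sum_le_sum fun i _ => Finset.sum_le_sum fun k _ => hterm i k
    _ = 4 * ε * ∑ i, v i ^ 2 := by simp only [Fin.sum_univ_four]; ring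

/-- Bounded shapes with small amplitudes: positivity, completeness bounds and the Ricci curvature. -/
theorem exists_glue (H : Harm) (P : Pulses) (B : ℝ) :
    ∃ δ₀ C a b : ℝ, 0 < δ₀ ∧ 0 < C ∧ 0 < a ∧ 0 < b ∧
      ∀ sh, ShapeBdd sh B → ∀ (A : Amps P) (δ : ℕ → ℝ), (∀ n l, |A.θ n l| ≤ δ n) →
        (∀ n, δ n ≤ δ₀) →
        IsMetric (fullFlux H sh A) ∧
        (∀ x v, a * ∑ i, v i ^ 2 ≤ quad (fullFlux H sh A x) v) ∧
        (∀ x v, quad (fullFlux H sh A x) v ≤ b * ∑ i, v i ^ 2) ∧
        ∀ m : ℝ → ℝ, Continuous m → (∀ t, 0 ≤ m t) →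
          (∀ t o, m t ≤ Sched.ric0 (alOf sh o) (beOf sh o) t ∧
            m t ≤ Sched.ric1 (alOf sh o) (beOf sh o) t ∧
            m t ≤ Sched.ric2 (alOf sh o) (beOf sh o) t) →
          (∀ n t, A.pos n < t → t < A.pos n + 1 → C * δ n ≤ m t) →
          RicciNonneg (theMetric H sh A) := by
  obtain ⟨Kp, hKp0, hKp⟩ := exists_pulse_bound H P B
  choose Kf hKf using fun i k : Fin 4 => uniform_flux B i k
  set a0 := exp (-(15 * B)) with ha0
  have ha0' : 0 < a0 := exp_pos _
  set Kb := (∑ i, ∑ k, |Kf i k|) + a0 with hKb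
  obtain ⟨Cr, hCr, hnear⟩ := ricci_nonneg_of_near (c := a0 / 2) (by positivity) Kb
  refine ⟨a0 / (8 * (Kp + 1)), Cr * (Kp + 1), a0 / 2, exp (15 * B) + a0 / 2, by positivity,
    by positivity, by positivity, by positivity, ?_⟩
  intro sh hsh A δ hθ hδ
  have hsmall : ∀ n, δ n * Kp ≤ a0 / 8 := by
    intro n
    calc δ n * Kp ≤ a0 / (8 * (Kp + 1)) * Kp := mul_le_mul_of_nonneg_right (hδ n) hKp0
      _ ≤ a0 / (8 * (Kp + 1)) * (Kp + 1) := mul_le_mul_of_nonneg_left (by linarith) (by positivity)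
      _ = a0 / 8 := by field_simp
  have hgood : ∀ x : R4, x ≠ 0 → ∀ i k,
      GoodAt (fun y => fullFlux H sh A y i k - sh.flux y i k) x (a0 / 8) := fun x hx =>
    hKp sh hsh A δ hθ x hx _ (by positivity) fun n _ _ => hsmall n
  have hbase : ∀ i k x, x ≠ 0 → GoodAt (fun y => sh.flux y i k) x (|Kf i k|) := fun i k x hx =>
    (hKf i k ⟨sh, hsh⟩ x hx).mono (le_abs_self _)
  have hfull : ∀ i k x, x ≠ 0 →
      GoodAt (fun y => fullFlux H sh A y i k) x (|Kf i k| + a0 / 8) := fun i k x hx =>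
    ((hbase i k x hx).add (hgood x hx i k)).congr
      (Eventually.of_forall fun y => by ring)
  have hKle : ∀ i k, |Kf i k| + a0 / 8 ≤ Kb := by
    intro i k
    have h := (Finset.single_le_sum (f := fun k => |Kf i k|) (fun b _ => abs_nonneg _)
      (Finset.mem_univ k)).trans (Finset.single_le_sum (f := fun i => ∑ k, |Kf i k|)
        (fun a _ => Finset.sum_nonneg fun b _ => abs_nonneg _) (Finset.mem_univ i))
    linarith
  have hsymm : ∀ x i k, fullFlux H sh A x i k = fullFlux H sh A x k i := fun x i k => by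
    have h : log ‖x‖ < log ‖x‖ + 1 := by linarith
    simp only [fullFlux_sum H sh A h, (isMetric_flux sh).symm x i k, pulseTerm_symm H sh _ _ i k]
  have hq : ∀ x v, a0 / 2 * ∑ i, v i ^ 2 ≤ quad (fullFlux H sh A x) v ∧
      quad (fullFlux H sh A x) v ≤ (exp (15 * B) + a0 / 2) * ∑ i, v i ^ 2 := by
    intro x v
    obtain ⟨hl, hu⟩ := flux_bounds sh hsh x v
    rw [← ha0] at hl
    have hv0 : 0 ≤ ∑ i, v i ^ 2 := Finset.sum_nonneg fun i _ => sq_nonneg _
    have hd : |quad (fullFlux H sh A x - sh.flux x) v| ≤ 4 * (a0 / 8) * ∑ i, v i ^ 2 := by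
      refine abs_quad_le _ (fun i k => ?_) v
      rcases eq_or_ne x 0 with rfl | hx
      · rw [fullFlux_eq_one H sh A (by simp), flux_eq_one sh (by simp)]
        simp only [sub_self, Matrix.zero_apply, abs_zero]
        positivity
      · exact (hgood x hx i k).jet.zero
    have he : quad (fullFlux H sh A x - sh.flux x) v =
        quad (fullFlux H sh A x) v - quad (sh.flux x) v := by
      simp only [quad, Matrix.sub_apply, ← Finset.sum_sub_distrib]
      exact Finset.sum_congr rfl fun i _ => Finset.sum_congr rfl fun k _ => by ring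
    rw [he, abs_le] at hd
    constructor <;> linarith [hd.1, hd.2]
  have hmetric : IsMetric (fullFlux H sh A) := by
    refine ⟨fun i k => contDiff_iff_contDiffAt.2 fun x => ?_, hsymm, fun x v hv => ?_⟩
    · rcases eq_or_ne x 0 with rfl | hx
      · refine (contDiffAt_const (c := (1 : Matrix (Fin 4) (Fin 4) ℝ) i k)).congr_of_eventuallyEq ?_
        filter_upwards [(isOpen_lt continuous_norm continuous_const).mem_nhds
          (show ‖(0 : R4)‖ < 1 by simp)] with y hy
        rw [fullFlux_eq_one H sh A hy]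
      · exact (hfull i k x hx).smooth
    · refine lt_of_lt_of_le (mul_pos (by positivity) ?_) (hq x v).1
      obtain ⟨j, hj⟩ : ∃ j, v j ≠ 0 := by
        by_contra h
        push Not at h
        exact hv (funext h)
      exact Finset.sum_pos' (fun b _ => sq_nonneg _) ⟨j, Finset.mem_univ j, by positivity⟩
  refine ⟨hmetric, fun x v => (hq x v).1, fun x v => (hq x v).2, ?_⟩
  intro m hm hm0 hric hmargin x v
  rcases eq_or_ne x 0 with rfl | hx
  · have hev : theMetric H sh A =ᶠ[𝓝 (0 : R4)] fun _ => (1 : Matrix (Fin 4) (Fin 4) ℝ) := by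
      filter_upwards [(isOpen_lt continuous_norm continuous_const).mem_nhds
        (show ‖(0 : R4)‖ < 1 by simp)] with y hy
      simp [theMetric, metricOfFlux, fullFlux_eq_one H sh A hy]
    have hc : ∀ i k l, christoffel (fun _ => (1 : Matrix (Fin 4) (Fin 4) ℝ)) i k l = fun _ => 0 :=
      fun i k l => by funext y; simp [christoffel, pd]
    have h0 : ∀ k l, ricci (theMetric H sh A) 0 k l = 0 := fun k l => by
      rw [ricci_congr hev]
      simp [ricci, hc, pd]
    simp [h0]
  · set t := log ‖x‖ with ht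
    obtain ⟨ε, hε0, hεm, hact⟩ : ∃ ε, 0 ≤ ε ∧ Cr * ε ≤ m t ∧
        (∀ n, A.pos n < t → t < A.pos n + 1 → δ n * Kp ≤ ε) ∧ True := by
      refine ⟨m t / Cr, div_nonneg (hm0 t) hCr.le, (mul_div_cancel₀ _ hCr.ne').le,
        fun n h1 h2 => ?_, trivial⟩
      rw [le_div_iff₀ hCr]
      rcases le_or_gt 0 (δ n) with h | h
      · nlinarith [hmargin n t h1 h2]
      · nlinarith [hm0 t, mul_nonneg hKp0 hCr.le]
    have hA : FluxClass sh.flux x ‖x‖ (a0 / 2) Kb := by
      refine ⟨fun i k => (hbase i k x hx).smooth.of_le (WithTop.coe_le_coe.2 le_top), (isMetric_flux sh).symm x,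
        fun w => ?_, fun i k => ((hbase i k x hx).mono ?_).jet⟩
      · exact (mul_le_mul_of_nonneg_right (by linarith)
          (Finset.sum_nonneg fun i _ => sq_nonneg _)).trans (flux_bounds sh hsh x w).1
      · linarith [hKle i k]
    have hA' : FluxClass (fullFlux H sh A) x ‖x‖ (a0 / 2) Kb :=
      ⟨fun i k => (hfull i k x hx).smooth.of_le (WithTop.coe_le_coe.2 le_top), hsymm x, fun w => (hq x w).1,
        fun i k => ((hfull i k x hx).mono (hKle i k)).jet⟩
    exact hnear sh.flux (fullFlux H sh A) x ‖x‖ ε (m t) (norm_pos_iff.2 hx) hA hA'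
      (fun i k => (hKp sh hsh A δ hθ x hx ε hε0 hact.1 i k).jet) hεm
      (fun w => flux_ricci_ge sh hm hric hx w) v

end

end Vale.Agent.P225.Geo
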