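import Vale.Agent.P225.Geo.JetBound
import Vale.Agent.P225.Geo.Model
import Vale.Agent.P225.Geo.Cartesian

/-!
P225: functions with bounds on two derivatives in units of `|x|`, and their closure properties.
-/

namespace Vale.Agent.P225.Geo

open scoped ContDiff Topology
open Filter

noncomputable section

/-- Smoothness and the scaled bound at a point. -/
structure GoodAt (f : R4 → ℝ) (x : R4) (K : ℝ) : Prop where
  smooth : ContDiffAt ℝ ∞ f x
  jet : JetBound f x ‖x‖ K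

/-- A family of functions with a uniform scaled bound away from the origin. -/
def Uniform {ι : Type*} (f : ι → R4 → ℝ) : Prop :=
  ∃ K, ∀ a x, x ≠ 0 → GoodAt (f a) x K

/-! ### Rules for `pd` -/

theorem contDiffAt_pd' {f : R4 → ℝ} {x : R4} (hf : ContDiffAt ℝ ∞ f x) (i : Fin 4) :
    ContDiffAt ℝ ∞ (pd i f) x := by
  unfold pd
  exact (hf.fderiv_right (m := ∞) (by simp)).clm_apply contDiffAt_const

theorem eventually_differentiableAt {f : R4 → ℝ} {x : R4} (hf : ContDiffAt ℝ ∞ f x) :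
    ∀ᶠ y in 𝓝 x, DifferentiableAt ℝ f y :=
  ((hf.of_le (m := 1) (by simp)).eventually (by simp)).mono fun _ hy =>
    hy.differentiableAt (by simp)

theorem pd_comp' {φ : ℝ → ℝ} {f : R4 → ℝ} {x : R4} (hφ : DifferentiableAt ℝ φ (f x))
    (hf : DifferentiableAt ℝ f x) (i : Fin 4) :
    pd i (fun y => φ (f y)) x = deriv φ (f x) * pd i f x := by
  have h : HasFDerivAt (fun y => φ (f y)) _ x :=
    hφ.hasDerivAt.comp_hasFDerivAt x hf.hasFDerivAt
  simp only [pd, h.fderiv, smul_apply, smul_eq_mul]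

/-! ### Closure of `GoodAt` -/

theorem GoodAt.nonneg {f : R4 → ℝ} {x : R4} {K : ℝ} (h : GoodAt f x K) : 0 ≤ K :=
  (abs_nonneg _).trans h.jet.zero

theorem GoodAt.mono {f : R4 → ℝ} {x : R4} {K K' : ℝ} (h : GoodAt f x K) (hK : K ≤ K') :
    GoodAt f x K' :=
  ⟨h.smooth, h.jet.zero.trans hK, fun i => (h.jet.one i).trans hK,
    fun i j => (h.jet.two i j).trans hK⟩

theorem GoodAt.congr {f g : R4 → ℝ} {x : R4} {K : ℝ} (h : GoodAt f x K) (hfg : f =ᶠ[𝓝 x] g) :
    GoodAt g x K := by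
  refine ⟨h.smooth.congr_of_eventuallyEq hfg.symm, ?_, fun i => ?_, fun i j => ?_⟩
  · rw [← hfg.eq_of_nhds]; exact h.jet.zero
  · rw [← pd_congr i hfg]; exact h.jet.one i
  · rw [← pd_congr i (hfg.eventually_nhds.mono fun y hy => pd_congr j hy)]; exact h.jet.two i j

theorem GoodAt.const (c : ℝ) (x : R4) : GoodAt (fun _ => c) x |c| := by
  have h1 : ∀ i y, pd i (fun _ : R4 => c) y = 0 := fun i y => by simp [pd]
  refine ⟨contDiffAt_const, le_rfl, fun i => ?_, fun i j => ?_⟩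
  · simp [h1]
  · rw [show pd j (fun _ : R4 => c) = fun _ => 0 from funext (h1 j)]
    simp [pd]

theorem GoodAt.add {f g : R4 → ℝ} {x : R4} {K L : ℝ} (hf : GoodAt f x K) (hg : GoodAt g x L) :
    GoodAt (fun y => f y + g y) x (K + L) := by
  have df := eventually_differentiableAt hf.smooth
  have dg := eventually_differentiableAt hg.smooth
  refine ⟨hf.smooth.add hg.smooth, (abs_add_le _ _).trans (add_le_add hf.jet.zero hg.jet.zero),
    fun i => ?_, fun i j => ?_⟩
  · rw [pd_add _ df.self_of_nhds dg.self_of_nhds]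
    exact (mul_le_mul_of_nonneg_left (abs_add_le _ _) (norm_nonneg x)).trans
      (by rw [mul_add]; exact add_le_add (hf.jet.one i) (hg.jet.one i))
  · rw [pd_congr i ((df.and dg).mono fun y hy => pd_add j hy.1 hy.2),
      pd_add _ ((contDiffAt_pd' hf.smooth j).differentiableAt (by simp))
        ((contDiffAt_pd' hg.smooth j).differentiableAt (by simp))]
    exact (mul_le_mul_of_nonneg_left (abs_add_le _ _) (sq_nonneg _)).trans
      (by rw [mul_add]; exact add_le_add (hf.jet.two i j) (hg.jet.two i j))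

theorem GoodAt.mul {f g : R4 → ℝ} {x : R4} {K L : ℝ} (hf : GoodAt f x K) (hg : GoodAt g x L) :
    GoodAt (fun y => f y * g y) x (4 * K * L) := by
  have df := eventually_differentiableAt hf.smooth
  have dg := eventually_differentiableAt hg.smooth
  have hK := hf.nonneg
  have hL := hg.nonneg
  have hr := norm_nonneg x
  have hKL := mul_nonneg hK hL
  refine ⟨hf.smooth.mul hg.smooth, ?_, fun i => ?_, fun i j => ?_⟩
  · rw [abs_mul]
    exact (mul_le_mul hf.jet.zero hg.jet.zero (abs_nonneg _) hK).trans (by linarith)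
  · rw [pd_mul _ df.self_of_nhds dg.self_of_nhds]
    have h1 : ‖x‖ * |pd i f x * g x| ≤ K * L := by
      rw [abs_mul, ← mul_assoc]
      exact mul_le_mul (hf.jet.one i) hg.jet.zero (abs_nonneg _) hK
    have h2 : ‖x‖ * |f x * pd i g x| ≤ K * L := by
      rw [abs_mul, mul_left_comm]
      exact mul_le_mul hf.jet.zero (hg.jet.one i) (by positivity) hK
    calc ‖x‖ * |pd i f x * g x + f x * pd i g x|
        ≤ ‖x‖ * |pd i f x * g x| + ‖x‖ * |f x * pd i g x| := by
          rw [← mul_add]; exact mul_le_mul_of_nonneg_left (abs_add_le _ _) hr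
      _ ≤ 4 * K * L := by linarith
  · have hdf := (contDiffAt_pd' hf.smooth j).differentiableAt (by simp : (∞ : WithTop ℕ∞) ≠ 0)
    have hdg := (contDiffAt_pd' hg.smooth j).differentiableAt (by simp : (∞ : WithTop ℕ∞) ≠ 0)
    rw [pd_congr i ((df.and dg).mono fun y hy => pd_mul j hy.1 hy.2),
      pd_add _ (hdf.fun_mul dg.self_of_nhds) (df.self_of_nhds.fun_mul hdg), pd_mul _ hdf dg.self_of_nhds,
      pd_mul _ df.self_of_nhds hdg]
    have h1 : ‖x‖ ^ 2 * |pd i (pd j f) x * g x| ≤ K * L := by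
      rw [abs_mul, ← mul_assoc]
      exact mul_le_mul (hf.jet.two i j) hg.jet.zero (abs_nonneg _) hK
    have h2 : ‖x‖ ^ 2 * |pd j f x * pd i g x| ≤ K * L := by
      rw [abs_mul, sq, mul_mul_mul_comm]
      exact mul_le_mul (hf.jet.one j) (hg.jet.one i) (by positivity) hK
    have h3 : ‖x‖ ^ 2 * |pd i f x * pd j g x| ≤ K * L := by
      rw [abs_mul, sq, mul_mul_mul_comm]
      exact mul_le_mul (hf.jet.one i) (hg.jet.one j) (by positivity) hK
    have h4 : ‖x‖ ^ 2 * |f x * pd i (pd j g) x| ≤ K * L := by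
      rw [abs_mul, mul_left_comm]
      exact mul_le_mul hf.jet.zero (hg.jet.two i j) (by positivity) hK
    have h5 := (abs_add_le (pd i (pd j f) x * g x + pd j f x * pd i g x)
      (pd i f x * pd j g x + f x * pd i (pd j g) x)).trans
      (add_le_add (abs_add_le _ _) (abs_add_le _ _))
    have h6 := mul_le_mul_of_nonneg_left h5 (sq_nonneg ‖x‖)
    simp only [mul_add] at h6
    linarith

theorem GoodAt.sum {α : Type*} (s : Finset α) {f : α → R4 → ℝ} {K : α → ℝ} {x : R4}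
    (h : ∀ a ∈ s, GoodAt (f a) x (K a)) :
    GoodAt (fun y => ∑ a ∈ s, f a y) x (∑ a ∈ s, K a) := by
  classical
  induction s using Finset.induction_on with
  | empty => simpa using GoodAt.const 0 x
  | @insert a s ha ih =>
    simp only [Finset.sum_insert ha]
    exact (h a (Finset.mem_insert_self a s)).add
      (ih fun b hb => h b (Finset.mem_insert_of_mem hb))

theorem GoodAt.exp {f : R4 → ℝ} {x : R4} {K : ℝ} (hf : GoodAt f x K) :
    GoodAt (fun y => Real.exp (f y)) x (Real.exp K * (1 + K + K ^ 2)) := by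
  have df := eventually_differentiableAt hf.smooth
  have hK := hf.nonneg
  have he : Real.exp (f x) ≤ Real.exp K := Real.exp_le_exp.2 ((le_abs_self _).trans hf.jet.zero)
  have he0 : 0 ≤ Real.exp K := (Real.exp_pos K).le
  have hd : ∀ i y, DifferentiableAt ℝ f y →
      pd i (fun z => Real.exp (f z)) y = Real.exp (f y) * pd i f y := fun i y hy => by
    rw [pd_comp' Real.differentiable_exp.differentiableAt hy, Real.deriv_exp]
  refine ⟨hf.smooth.exp, ?_, fun i => ?_, fun i j => ?_⟩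
  · rw [Real.abs_exp]
    refine he.trans (le_mul_of_one_le_right he0 ?_)
    linarith [sq_nonneg K]
  · rw [hd i x df.self_of_nhds, abs_mul, Real.abs_exp, mul_left_comm]
    refine (mul_le_mul he (hf.jet.one i) (by positivity) he0).trans ?_
    exact mul_le_mul_of_nonneg_left (by linarith [sq_nonneg K]) he0
  · rw [pd_congr i (df.mono fun y hy => hd j y hy),
      pd_mul _ (df.self_of_nhds.exp) ((contDiffAt_pd' hf.smooth j).differentiableAt (by simp)),
      hd i x df.self_of_nhds]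
    have h1 : ‖x‖ ^ 2 * |pd i f x * pd j f x + pd i (pd j f) x| ≤ K * K + K := by
      refine (mul_le_mul_of_nonneg_left (abs_add_le _ _) (sq_nonneg _)).trans ?_
      rw [mul_add, abs_mul, sq, mul_mul_mul_comm]
      exact add_le_add (mul_le_mul (hf.jet.one i) (hf.jet.one j) (by positivity) hK)
        (by simpa [sq] using hf.jet.two i j)
    rw [mul_assoc (Real.exp (f x)), ← mul_add, abs_mul, Real.abs_exp, mul_left_comm]
    refine (mul_le_mul he h1 (by positivity) he0).trans ?_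
    exact mul_le_mul_of_nonneg_left (by nlinarith) he0

/-! ### Functions of `log |x|` -/

theorem hasFDerivAt_log_norm {x : R4} (hx : x ≠ 0) :
    HasFDerivAt (fun y : R4 => Real.log ‖y‖) ((‖x‖ ^ 2)⁻¹ • innerSL ℝ x) x := by
  have hn : ‖x‖ ^ 2 ≠ 0 := pow_ne_zero 2 (norm_ne_zero_iff.2 hx)
  have h : HasFDerivAt (fun y : R4 => (1 / 2 : ℝ) * Real.log (‖y‖ ^ 2)) _ x :=
    (((hasStrictFDerivAt_norm_sq x).hasFDerivAt).log hn).const_mul (1 / 2 : ℝ)
  refine (h.congr_of_eventuallyEq (Eventually.of_forall fun y => ?_)).congr_fderiv ?_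
  · show Real.log ‖y‖ = (1 / 2 : ℝ) * Real.log (‖y‖ ^ 2)
    rw [Real.log_pow]; push_cast; ring
  · ext v
    simp
    ring

theorem pd_log_norm {x : R4} (hx : x ≠ 0) (p : ℝ) (i : Fin 4) :
    pd i (fun y : R4 => Real.log ‖y‖ - p) x = (‖x‖ ^ 2)⁻¹ * x i := by
  rw [pd, ((hasFDerivAt_log_norm hx).sub_const p).fderiv]
  simp [EuclideanSpace.inner_single_right]

theorem pd_inv_norm_sq {x : R4} (hx : x ≠ 0) (i : Fin 4) :
    pd i (fun y : R4 => (‖y‖ ^ 2)⁻¹) x = -2 * x i / (‖x‖ ^ 2) ^ 2 := by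
  have hn : ‖x‖ ^ 2 ≠ 0 := pow_ne_zero 2 (norm_ne_zero_iff.2 hx)
  have hd : DifferentiableAt ℝ (fun y : R4 => ‖y‖ ^ 2) x :=
    (hasStrictFDerivAt_norm_sq x).differentiableAt
  rw [pd_comp' (differentiableAt_inv hn) hd, deriv_inv, pd,
    (hasStrictFDerivAt_norm_sq x).hasFDerivAt.fderiv]
  simp [EuclideanSpace.inner_single_right]
  ring

/-- A smooth function of `log |x| - p`. -/
theorem GoodAt.comp_log {φ : ℝ → ℝ} (hφ : ContDiff ℝ ∞ φ) {x : R4} (hx : x ≠ 0) {p M : ℝ}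
    (h0 : |φ (Real.log ‖x‖ - p)| ≤ M) (h1 : |deriv φ (Real.log ‖x‖ - p)| ≤ M)
    (h2 : |deriv (deriv φ) (Real.log ‖x‖ - p)| ≤ M) :
    GoodAt (fun y => φ (Real.log ‖y‖ - p)) x (4 * M) := by
  have hM : 0 ≤ M := (abs_nonneg _).trans h0
  have hr : 0 < ‖x‖ := norm_pos_iff.2 hx
  have hxi : ∀ i, |x i| ≤ ‖x‖ := fun i =>
    (Real.norm_eq_abs _).symm.trans_le (PiLp.norm_apply_le x i)
  have hs : ContDiffAt ℝ ∞ (fun y : R4 => Real.log ‖y‖ - p) x :=
    ((contDiffAt_norm ℝ hx).log hr.ne').sub contDiffAt_const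
  have hφ' : ContDiff ℝ ∞ (deriv φ) := (contDiff_infty_iff_deriv.1 hφ).2
  have hd : ∀ i (y : R4), y ≠ 0 → pd i (fun z => φ (Real.log ‖z‖ - p)) y =
      deriv φ (Real.log ‖y‖ - p) * ((‖y‖ ^ 2)⁻¹ * y i) := fun i y hy => by
    rw [pd_comp' (hφ.differentiable (by simp)).differentiableAt
      ((hasFDerivAt_log_norm hy).sub_const p).differentiableAt, pd_log_norm hy]
  refine ⟨hφ.contDiffAt.comp x hs, h0.trans (by linarith), fun i => ?_, fun i j => ?_⟩
  · rw [hd i x hx, abs_mul, abs_mul, abs_inv, abs_of_nonneg (sq_nonneg ‖x‖)]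
    calc ‖x‖ * (|deriv φ (Real.log ‖x‖ - p)| * ((‖x‖ ^ 2)⁻¹ * |x i|))
        ≤ ‖x‖ * (M * ((‖x‖ ^ 2)⁻¹ * ‖x‖)) := by gcongr; exact hxi i
      _ = M := by field_simp
      _ ≤ 4 * M := by linarith
  · have hne : ∀ᶠ y in 𝓝 x, y ≠ (0 : R4) := isOpen_ne.mem_nhds hx
    have hg : DifferentiableAt ℝ (fun y : R4 => deriv φ (Real.log ‖y‖ - p)) x :=
      (hφ'.contDiffAt.comp x hs).differentiableAt (by simp)
    have hinv : DifferentiableAt ℝ (fun y : R4 => (‖y‖ ^ 2)⁻¹) x :=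
      ((hasStrictFDerivAt_norm_sq x).differentiableAt).inv (by positivity)
    have hc : DifferentiableAt ℝ (fun y : R4 => y j) x :=
      (EuclideanSpace.proj j : R4 →L[ℝ] ℝ).differentiableAt
    rw [pd_congr i (hne.mono fun y hy => hd j y hy), pd_mul _ hg (hinv.fun_mul hc),
      pd_mul _ hinv hc, pd_comp' (hφ'.differentiable (by simp)).differentiableAt
        ((hasFDerivAt_log_norm hx).sub_const p).differentiableAt,
      pd_log_norm hx, pd_inv_norm_sq hx, pd_coord]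
    set a := deriv (deriv φ) (Real.log ‖x‖ - p)
    set b := deriv φ (Real.log ‖x‖ - p)
    set r := ‖x‖
    set e : ℝ := if j = i then 1 else 0
    have he : |e| ≤ 1 := by simp only [e]; split <;> simp
    have hu : |x i * x j| ≤ r * r := by
      rw [abs_mul]; exact mul_le_mul (hxi i) (hxi j) (abs_nonneg _) hr.le
    have key : r ^ 2 * (a * ((r ^ 2)⁻¹ * x i) * ((r ^ 2)⁻¹ * x j) +
        b * (-2 * x i / (r ^ 2) ^ 2 * x j + (r ^ 2)⁻¹ * e)) =
        (a - 2 * b) * (x i * x j / (r * r)) + b * e := by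
      field_simp
      ring
    have hq : |x i * x j / (r * r)| ≤ 1 := by
      rw [abs_div, abs_of_pos (mul_pos hr hr), div_le_one (mul_pos hr hr)]
      exact hu
    calc r ^ 2 * |a * ((r ^ 2)⁻¹ * x i) * ((r ^ 2)⁻¹ * x j) +
          b * (-2 * x i / (r ^ 2) ^ 2 * x j + (r ^ 2)⁻¹ * e)|
        = |(a - 2 * b) * (x i * x j / (r * r)) + b * e| := by
          rw [← key, abs_mul (r ^ 2), abs_of_nonneg (sq_nonneg r)]
      _ ≤ |a - 2 * b| * |x i * x j / (r * r)| + |b| * |e| := by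
          rw [← abs_mul, ← abs_mul]; exact abs_add_le _ _
      _ ≤ (M + 2 * M) * 1 + M * 1 := by
          gcongr
          calc |a - 2 * b| ≤ |a| + |2 * b| := abs_sub _ _
            _ ≤ M + 2 * M := by rw [abs_mul, abs_two]; linarith
      _ = 4 * M := by ring

/-! ### Functions of degree zero -/

theorem pd_of_homog {f : R4 → ℝ} {m : ℕ} (hf : ∀ y : R4, y ≠ 0 → ContDiffAt ℝ ∞ f y)
    (hh : ∀ (c : ℝ) (y : R4), 0 < c → y ≠ 0 → c ^ m * f (c • y) = f y)
    {c : ℝ} (hc : 0 < c) {y : R4} (hy : y ≠ 0) (i : Fin 4) :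
    c ^ (m + 1) * pd i f (c • y) = pd i f y := by
  have hcy : c • y ≠ 0 := smul_ne_zero hc.ne' hy
  have hd : DifferentiableAt ℝ f (c • y) := (hf _ hcy).differentiableAt (by simp)
  have h1 : HasFDerivAt (fun z : R4 => c • z) (c • ContinuousLinearMap.id ℝ R4) y :=
    (hasFDerivAt_id y).fun_const_smul c
  have h2 : HasFDerivAt (fun z => c ^ m * f (c • z))
      (c ^ m • (fderiv ℝ f (c • y)).comp (c • ContinuousLinearMap.id ℝ R4)) y :=
    (hd.hasFDerivAt.comp y h1).const_mul (c ^ m)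
  have h3 : (fun z => c ^ m * f (c • z)) =ᶠ[𝓝 y] f :=
    Filter.Eventually.mono (isOpen_ne.mem_nhds hy : ∀ᶠ z in 𝓝 y, z ≠ (0 : R4))
      fun z hz => hh c z hc hz
  have h4 := (h2.congr_of_eventuallyEq h3.symm).fderiv
  simp only [pd, h4, smul_apply, ContinuousLinearMap.comp_apply, ContinuousLinearMap.id_apply,
    map_smul, smul_eq_mul]
  ring

theorem exists_good_homog {f : R4 → ℝ} (hf : ∀ y : R4, y ≠ 0 → ContDiffAt ℝ ∞ f y)
    (hh : ∀ (c : ℝ) (y : R4), 0 < c → y ≠ 0 → f (c • y) = f y) :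
    ∃ K, ∀ x, x ≠ 0 → GoodAt f x K := by
  have hs : IsCompact (Metric.sphere (0 : R4) 1) := isCompact_sphere _ _
  have hb : ∀ g : R4 → ℝ, (∀ y : R4, y ≠ 0 → ContDiffAt ℝ ∞ g y) →
      ∃ K, ∀ u : R4, ‖u‖ = 1 → |g u| ≤ K := by
    intro g hg
    obtain ⟨K, hK⟩ := hs.exists_bound_of_continuousOn (f := g) fun u hu => by
      refine (hg u ?_).continuousAt.continuousWithinAt
      rintro rfl
      simp at hu
    exact ⟨K, fun u hu => hK u (mem_sphere_zero_iff_norm.2 hu)⟩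
  obtain ⟨K0, h0⟩ := hb f hf
  choose K1 h1 using fun i => hb (pd i f) fun y hy => contDiffAt_pd' (hf y hy) i
  choose K2 h2 using fun i j => hb (pd i (pd j f)) fun y hy =>
    contDiffAt_pd' (contDiffAt_pd' (hf y hy) j) i
  refine ⟨|K0| + ∑ i, |K1 i| + ∑ i, ∑ j, |K2 i j|, fun x hx => ?_⟩
  have hr : 0 < ‖x‖ := norm_pos_iff.2 hx
  have hu : ‖‖x‖⁻¹ • x‖ = 1 := norm_smul_inv_norm hx
  have hu0 : ‖x‖⁻¹ • x ≠ 0 := smul_ne_zero (inv_ne_zero hr.ne') hx
  have hx' : ‖x‖ • (‖x‖⁻¹ • x) = x := smul_inv_smul₀ hr.ne' x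
  have hp1 : ∀ j y, y ≠ 0 → ∀ c : ℝ, 0 < c → c ^ 1 * pd j f (c • y) = pd j f y := fun j y hy c hc =>
    pd_of_homog (m := 0) hf (fun c y hc hy => by rw [pow_zero, one_mul, hh c y hc hy]) hc hy j
  have hS1 : ∀ i, |K1 i| ≤ ∑ i, |K1 i| := fun i =>
    Finset.single_le_sum (fun a _ => abs_nonneg (K1 a)) (Finset.mem_univ i)
  have hS2 : ∀ i j, |K2 i j| ≤ ∑ i, ∑ j, |K2 i j| := fun i j =>
    (Finset.single_le_sum (fun a _ => abs_nonneg (K2 i a)) (Finset.mem_univ j)).trans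
      (Finset.single_le_sum (f := fun a => ∑ j, |K2 a j|)
        (fun a _ => Finset.sum_nonneg fun b _ => abs_nonneg _) (Finset.mem_univ i))
  have hS1' : 0 ≤ ∑ i, |K1 i| := Finset.sum_nonneg fun a _ => abs_nonneg _
  have hS2' : 0 ≤ ∑ i, ∑ j, |K2 i j| :=
    Finset.sum_nonneg fun a _ => Finset.sum_nonneg fun b _ => abs_nonneg _
  refine ⟨hf x hx, ?_, fun i => ?_, fun i j => ?_⟩
  · have h := h0 _ hu
    rw [hh _ x (inv_pos.2 hr) hx] at h
    linarith [le_abs_self K0]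
  · have h := h1 i _ hu
    rw [← hp1 i _ hu0 ‖x‖ hr, hx', pow_one, abs_mul, abs_of_pos hr] at h
    linarith [le_abs_self (K1 i), abs_nonneg K0, hS1 i]
  · have h := h2 i j _ hu
    rw [← pd_of_homog (m := 1) (fun y hy => contDiffAt_pd' (hf y hy) j)
      (fun c y hc hy => hp1 j y hy c hc) hr hu0 i, hx', abs_mul,
      abs_of_pos (pow_pos hr 2)] at h
    linarith [le_abs_self (K2 i j), abs_nonneg K0, hS2 i j]

/-! ### Uniform families -/

variable {ι : Type*}

theorem Uniform.const (c : ℝ) : Uniform fun (_ : ι) (_ : R4) => c :=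
  ⟨|c|, fun _ x _ => GoodAt.const c x⟩

theorem Uniform.add {f g : ι → R4 → ℝ} (hf : Uniform f) (hg : Uniform g) :
    Uniform fun a y => f a y + g a y :=
  ⟨hf.choose + hg.choose, fun a x hx => (hf.choose_spec a x hx).add (hg.choose_spec a x hx)⟩

theorem Uniform.mul {f g : ι → R4 → ℝ} (hf : Uniform f) (hg : Uniform g) :
    Uniform fun a y => f a y * g a y :=
  ⟨4 * hf.choose * hg.choose, fun a x hx => (hf.choose_spec a x hx).mul (hg.choose_spec a x hx)⟩

theorem Uniform.sub {f g : ι → R4 → ℝ} (hf : Uniform f) (hg : Uniform g) :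
    Uniform fun a y => f a y - g a y := by
  simpa only [sub_eq_add_neg, neg_one_mul] using hf.add ((Uniform.const (-1)).mul hg)

theorem Uniform.exp {f : ι → R4 → ℝ} (hf : Uniform f) : Uniform fun a y => Real.exp (f a y) :=
  ⟨Real.exp hf.choose * (1 + hf.choose + hf.choose ^ 2),
    fun a x hx => (hf.choose_spec a x hx).exp⟩

theorem Uniform.sum {α : Type*} [Fintype α] {f : α → ι → R4 → ℝ} (hf : ∀ b, Uniform (f b)) :
    Uniform fun a y => ∑ b, f b a y :=
  ⟨∑ b, (hf b).choose, fun a x hx =>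
    GoodAt.sum Finset.univ fun b _ => (hf b).choose_spec a x hx⟩

theorem Uniform.comp_index {κ : Type*} {f : ι → R4 → ℝ} (hf : Uniform f) (e : κ → ι) :
    Uniform fun a => f (e a) :=
  ⟨hf.choose, fun a x hx => hf.choose_spec (e a) x hx⟩

/-- A bound on a function of one variable and its first two derivatives. -/
structure Bdd2 (φ : ℝ → ℝ) (B : ℝ) : Prop where
  zero : ∀ t, |φ t| ≤ B
  one : ∀ t, |deriv φ t| ≤ B
  two : ∀ t, |deriv (deriv φ) t| ≤ B

theorem Uniform.of_log {φ : ι → ℝ → ℝ} {B : ℝ} (hφ : ∀ a, ContDiff ℝ ∞ (φ a))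
    (hB : ∀ a, Bdd2 (φ a) B) (p : ι → ℝ) :
    Uniform fun a (y : R4) => φ a (Real.log ‖y‖ - p a) :=
  ⟨4 * B, fun a _ hx =>
    GoodAt.comp_log (hφ a) hx ((hB a).zero _) ((hB a).one _) ((hB a).two _)⟩

theorem contDiffAt_rhat {x : R4} (hx : x ≠ 0) : ContDiffAt ℝ ∞ rhat x := by
  unfold rhat
  exact ((contDiffAt_norm ℝ hx).inv (norm_ne_zero_iff.2 hx)).smul contDiffAt_id

theorem rhat_smul_pos {c : ℝ} (hc : 0 < c) (x : R4) : rhat (c • x) = rhat x := by
  simp only [rhat, norm_smul, Real.norm_eq_abs, abs_of_pos hc, smul_smul]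
  congr 1
  field_simp

theorem Uniform.of_rhat {h : R4 → ℝ} (hh : ContDiff ℝ ∞ h) :
    Uniform fun (_ : ι) x => h (rhat x) := by
  obtain ⟨K, hK⟩ := exists_good_homog (f := fun x => h (rhat x))
    (fun y hy => hh.contDiffAt.comp y (contDiffAt_rhat hy))
    (fun c y hc _ => congrArg h (rhat_smul_pos hc y))
  exact ⟨K, fun _ => hK⟩

/-- A smooth function supported in the unit interval is bounded with its derivatives. -/
theorem exists_bdd2 {φ : ℝ → ℝ} (hφ : ContDiff ℝ ∞ φ)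
    (h : ∀ t, t ∉ Set.Ioo (0 : ℝ) 1 → φ t = 0) : ∃ B, Bdd2 φ B := by
  have h0 : HasCompactSupport φ := HasCompactSupport.intro isCompact_Icc fun t ht =>
    h t fun h' => ht (Set.Ioo_subset_Icc_self h')
  have h1 : ContDiff ℝ ∞ (deriv φ) := (contDiff_infty_iff_deriv.1 hφ).2
  obtain ⟨B0, hB0⟩ := h0.exists_bound_of_continuous hφ.continuous
  obtain ⟨B1, hB1⟩ := h0.deriv.exists_bound_of_continuous h1.continuous
  obtain ⟨B2, hB2⟩ := h0.deriv.deriv.exists_bound_of_continuous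
    (contDiff_infty_iff_deriv.1 h1).2.continuous
  refine ⟨|B0| + |B1| + |B2|, fun t => ?_, fun t => ?_, fun t => ?_⟩
  · have := hB0 t; rw [Real.norm_eq_abs] at this
    linarith [le_abs_self B0, abs_nonneg B1, abs_nonneg B2]
  · have := hB1 t; rw [Real.norm_eq_abs] at this
    linarith [le_abs_self B1, abs_nonneg B0, abs_nonneg B2]
  · have := hB2 t; rw [Real.norm_eq_abs] at this
    linarith [le_abs_self B2, abs_nonneg B0, abs_nonneg B1]

/-- Such a function and its derivatives vanish off the open interval. -/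
theorem deriv_eq_zero_of_supp {φ : ℝ → ℝ} (hφ : ContDiff ℝ ∞ φ)
    (h : ∀ t, t ∉ Set.Ioo (0 : ℝ) 1 → φ t = 0) (t : ℝ) (ht : t ∉ Set.Ioo (0 : ℝ) 1) :
    deriv φ t = 0 := by
  have hu : UniqueDiffWithinAt ℝ (Set.Ioo (0 : ℝ) 1)ᶜ t := by
    rw [Set.mem_Ioo, not_and_or, not_lt, not_lt] at ht
    rcases ht with ht | ht
    · exact ((uniqueDiffOn_Iic (0 : ℝ)) t ht).mono fun s hs hs' => absurd hs'.1 (not_lt.2 hs)
    · exact ((uniqueDiffOn_Ici (1 : ℝ)) t ht).mono fun s hs hs' => absurd hs'.2 (not_lt.2 hs)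
  have h1 : HasDerivWithinAt φ (deriv φ t) (Set.Ioo (0 : ℝ) 1)ᶜ t :=
    (hφ.differentiable (by simp) t).hasDerivAt.hasDerivWithinAt
  have h2 : HasDerivWithinAt φ 0 (Set.Ioo (0 : ℝ) 1)ᶜ t :=
    (hasDerivWithinAt_const t _ (0 : ℝ)).congr (fun s hs => h s hs) (h t ht)
  exact hu.eq_deriv _ h1 h2

end

end Vale.Agent.P225.Geo
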