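import Vale.Agent.P225.Geo.Cartesian

/-!
P225: the squashed sphere metric `dr² + r² (b² (g_S³ - E Eᵀ) + a² E Eᵀ)`, `E = J x / |x|`, with
`a = exp al`, `b = exp be` functions of `t = log |x|`, and its Ricci curvature.
-/

namespace Vale.Agent.P225.Geo

open Finset Matrix Real
open scoped ContDiff

noncomputable section

/-- `log |x|` as a function of `|x|²`. -/
def ltime (r : ℝ) : ℝ := log r / 2

/-- The squashed metric in Cartesian coordinates. -/
def shape (J : Matrix (Fin 4) (Fin 4) ℝ) (al be : ℝ → ℝ) (x : R4) : Matrix (Fin 4) (Fin 4) ℝ :=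
  form J (exp (2 * be (ltime (rho x))))
    ((1 - exp (2 * be (ltime (rho x)))) / rho x)
    ((exp (2 * al (ltime (rho x))) - exp (2 * be (ltime (rho x)))) / rho x) x

/-- The scaled radial Ricci curvature. -/
def ric0 (al be : ℝ → ℝ) (t : ℝ) : ℝ :=
  -(deriv (deriv al) t + deriv al t + deriv al t ^ 2) -
    2 * (deriv (deriv be) t + deriv be t + deriv be t ^ 2)

/-- The scaled Ricci curvature along the axis. -/
def ric1 (al be : ℝ → ℝ) (t : ℝ) : ℝ :=
  -(deriv (deriv al) t + deriv al t + deriv al t ^ 2) -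
    (1 + deriv al t) * (2 + 2 * deriv be t) + 2 * exp (2 * al t - 4 * be t)

/-- The scaled Ricci curvature across the axis. -/
def ric2 (al be : ℝ → ℝ) (t : ℝ) : ℝ :=
  -(deriv (deriv be) t + deriv be t + deriv be t ^ 2) -
    (1 + deriv be t) * (2 + deriv al t + deriv be t) +
    4 * exp (-(2 * be t)) - 2 * exp (2 * al t - 4 * be t)

/-- The Christoffel coefficients of the squashed metric. -/
def shapeCoef (al be : ℝ → ℝ) (r : ℝ) : Coef where
  a := (1 - (1 + deriv be (ltime r)) * exp (2 * be (ltime r))) / r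
  b := deriv be (ltime r) / r
  c := ((1 + deriv be (ltime r)) * exp (2 * be (ltime r)) - 1 - 2 * deriv be (ltime r)) / r ^ 2
  d := ((1 + deriv be (ltime r)) * exp (2 * be (ltime r)) -
      (1 + deriv al (ltime r)) * exp (2 * al (ltime r)) +
      2 * exp (2 * al (ltime r) - 2 * be (ltime r)) - 2) / r ^ 2
  f := (deriv al (ltime r) - deriv be (ltime r) + 1 -
      exp (2 * al (ltime r) - 2 * be (ltime r))) / r ^ 2
  h := (exp (2 * al (ltime r) - 2 * be (ltime r)) - 1) / r

variable {J : Matrix (Fin 4) (Fin 4) ℝ} {al be : ℝ → ℝ} {x : R4}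

theorem rho_pos (hx : x ≠ 0) : 0 < rho x := by
  have h : rho x = ‖x‖ ^ 2 := by
    rw [EuclideanSpace.norm_sq_eq]
    simp [rho, dotProduct, Real.norm_eq_abs, sq_abs, ← sq]
  rw [h]
  have := norm_pos_iff.mpr hx
  positivity

theorem rho_eq_norm_sq (x : R4) : rho x = ‖x‖ ^ 2 := by
  rw [EuclideanSpace.norm_sq_eq]
  simp [rho, dotProduct, Real.norm_eq_abs, sq_abs, ← sq]

theorem ltime_rho (x : R4) : ltime (rho x) = log ‖x‖ := by
  rw [ltime, rho_eq_norm_sq, log_pow]
  ring

/-- The quadratic form of `form`. -/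
theorem form_quad (q F H : ℝ) (x : R4) (v : Fin 4 → ℝ) :
    ∑ i, ∑ k, form J q F H x i k * v i * v k =
      q * (v ⬝ᵥ v) + F * (⇑x ⬝ᵥ v) ^ 2 + H * (ev J x ⬝ᵥ v) ^ 2 := by
  simp only [form_apply, dotProduct, Fin.sum_univ_four]
  simp
  ring

theorem form_symm (q F H : ℝ) (x : R4) (i k : Fin 4) :
    form J q F H x i k = form J q F H x k i := by
  simp only [form_apply, @eq_comm _ k i, mul_comm (x k), mul_comm (ev J x k)]

/-- Bessel's inequality for `x` and `J x`. -/
theorem bessel (hJ : IsAxis J) (x : R4) (v : Fin 4 → ℝ) :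
    (⇑x ⬝ᵥ v) ^ 2 + (ev J x ⬝ᵥ v) ^ 2 ≤ rho x * (v ⬝ᵥ v) := by
  set w : Fin 4 → ℝ := rho x • v - (⇑x ⬝ᵥ v) • ⇑x - (ev J x ⬝ᵥ v) • ev J x with hw
  have h : 0 ≤ w ⬝ᵥ w := Finset.sum_nonneg fun i _ => mul_self_nonneg _
  have e : w ⬝ᵥ w = rho x * (rho x * (v ⬝ᵥ v) - (⇑x ⬝ᵥ v) ^ 2 - (ev J x ⬝ᵥ v) ^ 2) := by
    simp only [hw, sub_dotProduct, dotProduct_sub, smul_dotProduct, dotProduct_smul, smul_eq_mul,
      hJ.x_dot_ev, hJ.ev_dot_x, hJ.ev_dot_ev, show ⇑x ⬝ᵥ ⇑x = rho x from rfl,
      dotProduct_comm v ⇑x, dotProduct_comm v (ev J x)]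
    ring
  rcases eq_or_ne x 0 with rfl | hx
  · simp [rho, ev]
  · rw [e] at h
    have := nonneg_of_mul_nonneg_right h (rho_pos hx)
    linarith

theorem hasDerivAt_ltime {r : ℝ} (hr : r ≠ 0) : HasDerivAt ltime (1 / (2 * r)) r :=
  ((hasDerivAt_log hr).div_const 2).congr_deriv (by field_simp)

section

variable (hal : ContDiff ℝ ∞ al) (hbe : ContDiff ℝ ∞ be)
include hal hbe

theorem coef_shape {r : ℝ} (hr : r ≠ 0) :
    coef r (exp (2 * be (ltime r))) ((1 - exp (2 * be (ltime r))) / r)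
      ((exp (2 * al (ltime r)) - exp (2 * be (ltime r))) / r)
      (deriv be (ltime r) * exp (2 * be (ltime r)) / r)
      ((-(deriv be (ltime r)) * exp (2 * be (ltime r)) - (1 - exp (2 * be (ltime r)))) / r ^ 2)
      ((deriv al (ltime r) * exp (2 * al (ltime r)) - deriv be (ltime r) * exp (2 * be (ltime r)) -
        (exp (2 * al (ltime r)) - exp (2 * be (ltime r)))) / r ^ 2) =
      shapeCoef al be r := by
  have hb := exp_pos (2 * be (ltime r))
  have ha := exp_pos (2 * al (ltime r))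
  simp only [coef, shapeCoef, Coef.mk.injEq, Real.exp_sub]
  have e1 : exp (2 * be (ltime r)) + r * ((1 - exp (2 * be (ltime r))) / r) = 1 := by
    field_simp; ring
  have e2 : exp (2 * be (ltime r)) +
      r * ((exp (2 * al (ltime r)) - exp (2 * be (ltime r))) / r) = exp (2 * al (ltime r)) := by
    field_simp; ring
  rw [e1, e2]
  refine ⟨?_, ?_, ?_, ?_, ?_, ?_⟩ <;> field_simp <;> ring

/-- Ricci curvature of the squashed metric as a quadratic form. -/
theorem shape_ricci (hJ : IsAxis J) (hx : x ≠ 0) (v : Fin 4 → ℝ) :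
    ∑ k, ∑ l, ricci (shape J al be) x k l * v k * v l =
      exp (2 * be (ltime (rho x))) * ric2 al be (ltime (rho x)) / rho x *
          ((v ⬝ᵥ v) - ((⇑x ⬝ᵥ v) ^ 2 + (ev J x ⬝ᵥ v) ^ 2) / rho x) +
        ric0 al be (ltime (rho x)) / rho x * ((⇑x ⬝ᵥ v) ^ 2 / rho x) +
        exp (2 * al (ltime (rho x))) * ric1 al be (ltime (rho x)) / rho x *
          ((ev J x ⬝ᵥ v) ^ 2 / rho x) := by
  have h1a : Differentiable ℝ al := hal.differentiable (by simp)
  have h1b : Differentiable ℝ be := hbe.differentiable (by simp)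
  have h2a : Differentiable ℝ (deriv al) :=
    ((contDiff_infty_iff_deriv.mp hal).2).differentiable (by simp)
  have h2b : Differentiable ℝ (deriv be) :=
    ((contDiff_infty_iff_deriv.mp hbe).2).differentiable (by simp)
  have chain : ∀ {G : ℝ → ℝ} {r : ℝ}, r ≠ 0 → Differentiable ℝ G →
      HasDerivAt (fun s => G (ltime s)) (deriv G (ltime r) * (1 / (2 * r))) r :=
    fun hr hG => (hG _).hasDerivAt.comp _ (hasDerivAt_ltime hr)
  have hg : ∀ i k l, (fun y => christoffel (shape J al be) i k l y) =ᶠ[nhds x]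
      fun y => chr J (shapeCoef al be (rho y)) y i k l := by
    intro i k l
    filter_upwards [isOpen_ne.mem_nhds hx] with y hy
    have hr := (rho_pos hy).ne'
    have da := chain hr h1a
    have db := chain hr h1b
    have hq : HasDerivAt (fun r => exp (2 * be (ltime r)))
        (deriv be (ltime (rho y)) * exp (2 * be (ltime (rho y))) / rho y) (rho y) :=
      (db.const_mul 2).exp.congr_deriv (by field_simp)
    have hP : HasDerivAt (fun r => exp (2 * al (ltime r)))
        (deriv al (ltime (rho y)) * exp (2 * al (ltime (rho y))) / rho y) (rho y) :=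
      (da.const_mul 2).exp.congr_deriv (by field_simp)
    rw [← coef_shape hal hbe hr]
    refine christoffel_form hJ (q := fun r => exp (2 * be (ltime r)))
      (F := fun r => (1 - exp (2 * be (ltime r))) / r)
      (H := fun r => (exp (2 * al (ltime r)) - exp (2 * be (ltime r))) / r)
      Filter.EventuallyEq.rfl hq ?_ ?_ (exp_pos _).ne' ?_ ?_ i k l
    · exact ((hq.const_sub 1).div (hasDerivAt_id' _) hr).congr_deriv (by field_simp)
    · exact ((hP.sub hq).div (hasDerivAt_id' _) hr).congr_deriv (by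
        simp only [Pi.sub_apply]; field_simp)
    · field_simp; simp
    · field_simp; simp
  have hr := (rho_pos hx).ne'
  set r := rho x with hr_def
  have dA := chain hr h1a
  have dB := chain hr h1b
  have dA' := chain hr h2a
  have dB' := chain hr h2b
  have dq := (dB.const_mul 2).exp
  have dp := (dA.const_mul 2).exp
  have dk := ((dA.const_mul 2).sub (dB.const_mul 2)).exp
  have hA : Coef.HasDeriv (shapeCoef al be) ⟨_, _, _, _, _, _⟩ r :=
    ⟨(((dB'.const_add 1).mul dq).const_sub 1).div (hasDerivAt_id' r) hr,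
      dB'.div (hasDerivAt_id' r) hr,
      ((((dB'.const_add 1).mul dq).sub_const 1).sub (dB'.const_mul 2)).div
        ((hasDerivAt_id' r).pow 2) (pow_ne_zero 2 hr),
      (((((dB'.const_add 1).mul dq).sub ((dA'.const_add 1).mul dp)).add (dk.const_mul 2)).sub_const
        2).div ((hasDerivAt_id' r).pow 2) (pow_ne_zero 2 hr),
      (((dA'.sub dB').add_const 1).sub dk).div ((hasDerivAt_id' r).pow 2) (pow_ne_zero 2 hr),
      (dk.sub_const 1).div (hasDerivAt_id' r) hr⟩
  rw [ricci_of_chr hJ hA hg v]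
  simp only [ricI, ricX, ricE, shapeCoef, Coef.vol, ric0, ric1, ric2, ← hr_def, Pi.add_apply,
    Pi.sub_apply, Pi.mul_apply, Pi.pow_apply, Real.exp_sub, Real.exp_neg,
    show 4 * be (ltime r) = 2 * be (ltime r) + 2 * be (ltime r) by ring, Real.exp_add]
  have hb := (exp_pos (2 * be (ltime r))).ne'
  field_simp
  ring

theorem shape_quad {m : ℝ} (hJ : IsAxis J) (hx : x ≠ 0)
    (h0 : m ≤ ric0 al be (ltime (rho x))) (h1 : m ≤ ric1 al be (ltime (rho x)))
    (h2 : m ≤ ric2 al be (ltime (rho x))) (v : Fin 4 → ℝ) :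
    m / rho x * (∑ i, ∑ k, shape J al be x i k * v i * v k) ≤
      ∑ k, ∑ l, ricci (shape J al be) x k l * v k * v l := by
  rw [shape_ricci hal hbe hJ hx, shape, form_quad]
  have hr := rho_pos hx
  set r := rho x with hr_def
  set P := (⇑x ⬝ᵥ v) ^ 2 with hP
  set M := (ev J x ⬝ᵥ v) ^ 2 with hM
  have hn : 0 ≤ (v ⬝ᵥ v) - (P + M) / r := by
    have h := bessel hJ x v
    rw [sub_nonneg, div_le_iff₀ hr]
    linarith
  have hP0 : 0 ≤ P / r := div_nonneg (sq_nonneg _) hr.le
  have hM0 : 0 ≤ M / r := div_nonneg (sq_nonneg _) hr.le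
  calc _ = exp (2 * be (ltime r)) * m / r * ((v ⬝ᵥ v) - (P + M) / r) + m / r * (P / r) +
        exp (2 * al (ltime r)) * m / r * (M / r) := by field_simp; ring
    _ ≤ _ := by gcongr

/-- The squashed metric is a smooth Riemannian metric, Euclidean in the unit ball. -/
theorem shape_eq_one (hal0 : ∀ t ≤ 0, al t = 0) (hbe0 : ∀ t ≤ 0, be t = 0) (hx : ‖x‖ ≤ 1) :
    shape J al be x = 1 := by
  have ht : ltime (rho x) ≤ 0 := by
    rw [ltime_rho]
    exact log_nonpos (norm_nonneg _) hx
  ext i k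
  simp [shape, form_apply, hal0 _ ht, hbe0 _ ht, Matrix.one_apply]

theorem shape_contDiff (hal0 : ∀ t ≤ 0, al t = 0) (hbe0 : ∀ t ≤ 0, be t = 0) (i k : Fin 4) :
    ContDiff ℝ ∞ fun x => shape J al be x i k := by
  rw [contDiff_iff_contDiffAt]
  intro x
  rcases lt_or_ge ‖x‖ 1 with hx | hx
  · refine (contDiffAt_const (c := (1 : Matrix (Fin 4) (Fin 4) ℝ) i k)).congr_of_eventuallyEq ?_
    filter_upwards [(isOpen_lt continuous_norm continuous_const).mem_nhds hx] with y hy
    rw [shape_eq_one hal hbe hal0 hbe0 (le_of_lt hy)]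
  · have hne : x ≠ 0 := by
      rintro rfl
      simp at hx
      linarith
    have hr : rho x ≠ 0 := (rho_pos hne).ne'
    have hrho : ContDiff ℝ ∞ rho := by unfold rho dotProduct; fun_prop
    have hl : ContDiffAt ℝ ∞ (fun y => ltime (rho y)) x :=
      (hrho.contDiffAt.log hr).div_const 2
    have ha : ContDiffAt ℝ ∞ (fun y => exp (2 * al (ltime (rho y)))) x :=
      (contDiffAt_const.mul (hal.contDiffAt.comp x hl)).exp
    have hb : ContDiffAt ℝ ∞ (fun y => exp (2 * be (ltime (rho y)))) x :=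
      (contDiffAt_const.mul (hbe.contDiffAt.comp x hl)).exp
    have hc : ∀ j, ContDiff ℝ ∞ fun y : R4 => y j := fun j => by fun_prop
    have he : ∀ j, ContDiff ℝ ∞ fun y : R4 => ev J y j := fun j => by
      unfold ev Matrix.mulVec dotProduct; fun_prop
    simp only [shape, form_apply]
    exact ((hb.mul contDiffAt_const).add
      (((contDiffAt_const.sub hb).div hrho.contDiffAt hr).mul
        ((hc i).contDiffAt.mul (hc k).contDiffAt))).add
      (((ha.sub hb).div hrho.contDiffAt hr).mul ((he i).contDiffAt.mul (he k).contDiffAt))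

theorem shape_pos (hJ : IsAxis J) (hal0 : ∀ t ≤ 0, al t = 0) (hbe0 : ∀ t ≤ 0, be t = 0)
    (x : R4) (v : Fin 4 → ℝ) (hv : v ≠ 0) :
    0 < ∑ i, ∑ k, shape J al be x i k * v i * v k := by
  have hvv : 0 < v ⬝ᵥ v := by
    refine lt_of_le_of_ne (Finset.sum_nonneg fun i _ => mul_self_nonneg _) ?_
    exact fun h => hv (dotProduct_self_eq_zero.mp h.symm)
  rw [shape, form_quad]
  rcases eq_or_ne x 0 with rfl | hx
  · have h0 : rho (0 : R4) = 0 := by simp [rho]
    have hb0 : be (ltime 0) = 0 := hbe0 _ (by simp [ltime])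
    simpa [h0, ev, hb0] using hvv
  · have hr := rho_pos hx
    set r := rho x with hr_def
    set P := (⇑x ⬝ᵥ v) ^ 2 with hP
    set M := (ev J x ⬝ᵥ v) ^ 2 with hM
    have hn : 0 ≤ r * (v ⬝ᵥ v) - (P + M) := by
      have := bessel hJ x v
      linarith
    have hb := exp_pos (2 * be (ltime r))
    have ha := exp_pos (2 * al (ltime r))
    have key : r * (exp (2 * be (ltime r)) * (v ⬝ᵥ v) +
        (1 - exp (2 * be (ltime r))) / r * P +
        (exp (2 * al (ltime r)) - exp (2 * be (ltime r))) / r * M) =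
        exp (2 * be (ltime r)) * (r * (v ⬝ᵥ v) - (P + M)) + P + exp (2 * al (ltime r)) * M := by
      field_simp; ring
    refine pos_of_mul_pos_right ?_ hr.le
    rw [key]
    have hP0 : 0 ≤ P := sq_nonneg _
    have hM0 : 0 ≤ M := sq_nonneg _
    rcases hn.eq_or_lt with h | h
    · rw [← h]
      rcases hP0.eq_or_lt with hp | hp
      · have : 0 < M := by nlinarith
        nlinarith [mul_pos ha this]
      · nlinarith [mul_nonneg ha.le hM0]
    · nlinarith [mul_pos hb h, mul_nonneg ha.le hM0]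

theorem shape_isMetric (hJ : IsAxis J) (hal0 : ∀ t ≤ 0, al t = 0) (hbe0 : ∀ t ≤ 0, be t = 0) :
    IsMetric (shape J al be) where
  smooth := shape_contDiff hal hbe hal0 hbe0
  symm x i k := form_symm _ _ _ x i k
  pos := shape_pos hal hbe hJ hal0 hbe0

end

/-- The inverse of the squashed metric. -/
theorem shape_inv (hJ : IsAxis J) (hx : x ≠ 0) :
    (shape J al be x)⁻¹ = form J (exp (-(2 * be (ltime (rho x)))))
      ((1 - exp (-(2 * be (ltime (rho x))))) / rho x)
      ((exp (-(2 * al (ltime (rho x)))) - exp (-(2 * be (ltime (rho x))))) / rho x) x := by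
  have hr := (rho_pos hx).ne'
  apply Matrix.inv_eq_right_inv
  simp only [shape, form, mul_add, add_mul, smul_mul_assoc, mul_smul_comm, one_mul, mul_one,
    vecMulVec_mul_vecMulVec, smul_smul, hJ.x_dot_ev, hJ.ev_dot_x, hJ.ev_dot_ev,
    show ⇑x ⬝ᵥ ⇑x = rho x from rfl, zero_smul, smul_zero, vecMulVec_zero, zero_vecMulVec,
    smul_vecMulVec, vecMulVec_smul]
  ext a b
  simp only [Matrix.add_apply, Matrix.smul_apply, vecMulVec_apply, Matrix.one_apply,
    smul_eq_mul, Matrix.zero_apply, add_zero, mul_zero, Real.exp_neg]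
  field_simp
  ring

/-- The determinant of the squashed metric. -/
theorem shape_det (hJ : IsAxis J) (hx : x ≠ 0) :
    (shape J al be x).det = exp (2 * al (ltime (rho x))) * exp (2 * be (ltime (rho x))) ^ 2 := by
  have hr := (rho_pos hx).ne'
  set r := rho x with hr_def
  set q := exp (2 * be (ltime r)) with hq_def
  set P := exp (2 * al (ltime r)) with hP_def
  have hq : q ≠ 0 := (exp_pos _).ne'
  have split : shape J al be x = q • ((1 + vecMulVec (((1 - q) / r / q) • ⇑x) ⇑x) *
      (1 + vecMulVec (((P - q) / r / q) • ev J x) (ev J x))) := by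
    simp only [shape, form, mul_add, add_mul, one_mul, mul_one, vecMulVec_mul_vecMulVec,
      smul_vecMulVec, vecMulVec_smul, smul_mul_assoc, mul_smul_comm, dotProduct_smul, hJ.x_dot_ev, smul_zero, zero_smul,
      vecMulVec_zero, add_zero, smul_add, smul_smul, ← hq_def, ← hP_def, ← hr_def]
    rw [mul_div_cancel₀ _ hq, mul_div_cancel₀ _ hq]
  have hdet : ∀ (c : ℝ) (u : Fin 4 → ℝ), (1 + vecMulVec (c • u) u).det = 1 + c * (u ⬝ᵥ u) := by
    intro c u
    rw [vecMulVec_eq Unit, det_one_add_replicateCol_mul_replicateRow, dotProduct_smul,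
      smul_eq_mul]
  rw [split, det_smul, det_mul, hdet, hdet, hJ.ev_dot_ev,
    show ⇑x ⬝ᵥ ⇑x = r from rfl, ← hr_def, Fintype.card_fin]
  field_simp
  ring

end

end Vale.Agent.P225.Geo
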